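import Vale.Agent.P168.MathlibUsed
import Mathlib.Probability.IdentDistrib
import Mathlib.Data.Fintype.CardEmbedding
import Mathlib.Combinatorics.SimpleGraph.Finite

/-! The objects of the problem, for Poisson and for regular random hypergraphs. -/

open MeasureTheory ProbabilityTheory
open scoped NNReal BigOperators

namespace Vale.Agent.N168X

/-- The two spin values: `true` stands for `+1`, `false` for `-1`. -/
def spin (s : Bool) : ℝ := if s then 1 else -1

/-- Real functions on `{-1,1}^K`. -/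
abbrev Fn (K : ℕ) : Type := (Fin K → Bool) → ℝ

/-- The class of models: `e^θ = a (1 + b f_1 ⋯ f_K)`, `a > 0`, `|b| < 1`, `|f_j| ≤ 1`,
`E (-b)^n ≥ 0`, the `f_j` i.i.d. and independent of `b`, `θ` and `h` integrable. -/
def InClass {K : ℕ} {Ω : Type} [MeasurableSpace Ω] (P : Measure Ω) (θ : Ω → Fn K) (h : Ω → ℝ) :
    Prop :=
  Measurable θ ∧ Measurable h ∧ Integrable θ P ∧ Integrable h P ∧
    ∃ (a b : Ω → ℝ) (f : Fin K → Ω → Bool → ℝ), Measurable b ∧ (∀ j, Measurable (f j)) ∧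
      (∀ᵐ ω ∂P, 0 < a ω ∧ |b ω| < 1 ∧ (∀ j s, |f j ω s| ≤ 1) ∧
        ∀ σ, Real.exp (θ ω σ) = a ω * (1 + b ω * ∏ j, f j ω (σ j))) ∧
      (∀ n : ℕ, 1 ≤ n → 0 ≤ ∫ ω, (-b ω) ^ n ∂P) ∧
      iIndepFun f P ∧ (∀ i j, IdentDistrib (f i) (f j) P P) ∧ IndepFun b (fun ω j => f j ω) P

/-- `E log ∑_σ exp H(σ)` for `M` interactions at the given sites `i k j`: the `θ_k` are i.i.d. of
law `ρ`, the fields `h_v` are i.i.d. of law `ν`. -/
noncomputable def meanLogZ {K N M : ℕ} (ρ : Measure (Fn K)) (ν : Measure ℝ)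
    (i : Fin M → Fin K → Fin N) : ℝ :=
  ∫ θ : Fin M → Fn K, (∫ h : Fin N → ℝ, Real.log (∑ σ : Fin N → Bool,
      Real.exp (∑ k, θ k (fun j => σ (i k j)) + ∑ v, h v * spin (σ v)))
    ∂(Measure.pi fun _ => ν)) ∂(Measure.pi fun _ => ρ)

/-- The pressure `F_N` of the problem: a Poisson(`λ N`) number of interactions, the sites being
i.i.d. uniform (average over all choices). -/
noncomputable def pressure {K : ℕ} (lam : ℝ≥0) (ρ : Measure (Fn K)) (ν : Measure ℝ) (N : ℕ) : ℝ :=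
  1 / (N : ℝ) * ∫ M : ℕ, (𝔼 i : Fin M → Fin K → Fin N, meanLogZ ρ ν i)
    ∂(poissonMeasure (lam * N))

/-- The pressure on the random `d`-regular `K`-uniform hypergraph (configuration model): each of
the `N` sites has `d` half-edges, and the `K` arguments of each of the `⌊d N / K⌋` interactions are
matched with distinct half-edges, uniformly (average over all injective matchings). -/
noncomputable def regPressure {K : ℕ} (d : ℕ) (ρ : Measure (Fn K)) (ν : Measure ℝ) (N : ℕ) : ℝ :=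
  1 / (N : ℝ) * 𝔼 e : Fin (d * N / K) × Fin K ↪ Fin N × Fin d,
    meanLogZ ρ ν fun k j => (e (k, j)).1

open Classical in
/-- `(1/N) E Φ(H)` on the uniform random simple `d`-regular graph with `N` vertices (average over
all these graphs): `H(σ) = ∑_{u < v adjacent} θ_{uv}(σ_u, σ_v) + ∑_v h_v σ_v`, the `θ_{uv}` i.i.d.
of law `ρ`, the `h_v` i.i.d. of law `ν`. -/
noncomputable def graphMean (d : ℕ) (ρ : Measure (Fn 2)) (ν : Measure ℝ) (N : ℕ)
    (Φ : ((Fin N → Bool) → ℝ) → ℝ) : ℝ :=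
  1 / (N : ℝ) * 𝔼 G ∈ {G : SimpleGraph (Fin N) | G.IsRegularOfDegree d},
    ∫ θ : Fin N × Fin N → Fn 2, (∫ h : Fin N → ℝ, Φ (fun σ =>
      ∑ p ∈ {p : Fin N × Fin N | p.1 < p.2 ∧ G.Adj p.1 p.2}, θ p ![σ p.1, σ p.2] +
        ∑ v, h v * spin (σ v)) ∂(Measure.pi fun _ => ν)) ∂(Measure.pi fun _ => ρ)

/-- The number `Y_0` obtained from `Y_r = Y` by `Y_{p-1} = (E_p Y_p^{m_p})^{1/m_p}`, `p = r, …, 1`.
Here `Y` is a function of `r` independent levels of randomness, each of law `P`; `m 0 = m_1`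
belongs to the first level, and the recursion peels off the first level. -/
noncomputable def nest {W : Type} [MeasurableSpace W] (P : Measure W) (r : ℕ) :
    (Fin r → ℝ) → ((Fin r → W) → ℝ) → ℝ :=
  Nat.rec (fun _ Y => Y Fin.elim0) (fun _ ih m Y =>
    (∫ u, (ih (Fin.tail m) fun v => Y (Fin.cons u v)) ^ m 0 ∂P) ^ (1 / m 0)) r

/-- `E log Y_0` for `Y` a function of the messages `x(ω_0, …, ω_r)` indexed by `ι`, the further
randomness being fixed: `w i` is the level-`0` variable of message `i`, `v p i` its level-`p`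
variable. -/
noncomputable def hier {ι : Type} [Fintype ι] {r : ℕ} (m : Fin r → ℝ)
    (x : (Fin (r + 1) → unitInterval) → ℝ) (Y : (ι → ℝ) → ℝ) : ℝ :=
  ∫ w : ι → unitInterval, Real.log (nest volume r m fun v : Fin r → ι → unitInterval =>
    Y fun i => x (Fin.cons (w i) fun p => v p i))

/-- `𝒯 U` when the number of factors of `U` is `n`; message `(k, j)` is `x_{j,k}`, and
`ω k = (θ_k, ℓ_k)`. -/
noncomputable def tU {K r : ℕ} (ρ : Measure (Fn K)) (ν : Measure ℝ) (m : Fin r → ℝ)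
    (x : (Fin (r + 1) → unitInterval) → ℝ) (n : ℕ) : ℝ :=
  ∫ ω : Fin n → Fn K × Fin K, (∫ h : ℝ, hier m x (fun y : Fin n × Fin K → ℝ =>
      ∑ e : Bool, Real.exp (h * spin e) * ∏ k, ∑ σ : Fin K → Bool, if σ (ω k).2 = e then
        Real.exp ((ω k).1 σ) * ∏ j ∈ Finset.univ.erase (ω k).2, (1 + y (k, j) * spin (σ j)) / 2
        else 0) ∂ν) ∂(Measure.pi fun _ => ρ.prod (uniformOn Set.univ))

/-- `𝒯 V` when the number of factors of `V` is `n`. -/
noncomputable def tV {K r : ℕ} (ρ : Measure (Fn K)) (m : Fin r → ℝ)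
    (x : (Fin (r + 1) → unitInterval) → ℝ) (n : ℕ) : ℝ :=
  ∫ θ : Fin n → Fn K, hier m x (fun y : Fin n × Fin K → ℝ =>
      ∏ k, ∑ σ : Fin K → Bool, Real.exp (θ k σ) * ∏ j, (1 + y (k, j) * spin (σ j)) / 2)
    ∂(Measure.pi fun _ => ρ)

/-- The infimum of a functional over `0 < m_1 < ⋯ < m_r < 1` and measurable
`x : [0,1]^{r+1} → [-1,1]`. -/
noncomputable def optimum (r : ℕ)
    (F : (Fin r → ℝ) → ((Fin (r + 1) → unitInterval) → ℝ) → ℝ) : EReal :=
  ⨅ (m : Fin r → ℝ) (x : (Fin (r + 1) → unitInterval) → ℝ) (_ : StrictMono m ∧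
    (∀ p, m p ∈ Set.Ioo (0 : ℝ) 1) ∧ Measurable x ∧ ∀ w, x w ∈ Set.Icc (-1 : ℝ) 1),
    (F m x : EReal)

/-- `Φ_r` of the problem: Poisson(`K λ`) factors in `U`, Poisson(`(K - 1) λ`) factors in `V`. -/
noncomputable def phi {K : ℕ} (lam : ℝ≥0) (ρ : Measure (Fn K)) (ν : Measure ℝ) (r : ℕ) : EReal :=
  optimum r fun m x => (∫ n, tU ρ ν m x n ∂(poissonMeasure (K * lam))) -
    ∫ n, tV ρ m x n ∂(poissonMeasure (((K - 1 : ℕ) : ℝ≥0) * lam))

/-- `Φ_r` on the Bethe lattice of degree `d`: `U` with `d` factors, `V` with one factor and the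
weight `d (K - 1) / K`. -/
noncomputable def regPhi {K : ℕ} (d : ℕ) (ρ : Measure (Fn K)) (ν : Measure ℝ) (r : ℕ) : EReal :=
  optimum r fun m x => tU ρ ν m x d - d * (K - 1) / K * tV ρ m x 1

/-- The convexity condition of the interpolation method for a random function `ψ` on `{-1,1}^K`:
for every `n`, the mean of `∏_{i ≤ n} ψ(τ_1(i), …, τ_K(i))`, for `τ_1, …, τ_K` i.i.d. of law `μ`
on `{-1,1}^n` and independent of `ψ`, is a convex function of the probability vector `μ`. -/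
def ReplicaConvex {K : ℕ} {Ω : Type} [MeasurableSpace Ω] (P : Measure Ω) (ψ : Ω → Fn K) : Prop :=
  ∀ n : ℕ, ConvexOn ℝ (stdSimplex ℝ (Fin n → Bool)) fun μ =>
    ∑ τ : Fin K → Fin n → Bool, (∏ j, μ (τ j)) * ∫ ω, ∏ i, ψ ω (fun j => τ j i) ∂P

end Vale.Agent.N168X
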