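import Vale.Agent.N168X.SimB

/-! A uniform configuration is simple with probability at least an inverse power of its size. -/

set_option autoImplicit false

open Finset Equiv
open scoped BigOperators

namespace Vale.Agent.N168X.Sim

variable {N M d : ℕ}

/-- The distinct edges that are not loops. -/
def ed (ω : Fin M → Fin 2 → Fin N) : Finset (Sym2 (Fin N)) := image (pr ω) {k | ω k 0 ≠ ω k 1}

theorem mem_ed {ω : Fin M → Fin 2 → Fin N} {z : Sym2 (Fin N)} :
    z ∈ ed ω ↔ ¬ z.IsDiag ∧ ∃ m, pr ω m = z := by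
  simp only [ed, mem_image, mem_filter, mem_univ, true_and]
  exact ⟨fun ⟨m, h1, h2⟩ => ⟨h2 ▸ h1, m, h2⟩, fun ⟨h1, m, h2⟩ => ⟨m, by subst h2; exact h1, h2⟩⟩

theorem card_touch (V : Finset (Fin N)) (b : Fin M × Fin 2 ≃ Fin N × Fin d) :
    #{m | ∃ j, om b m j ∈ V} ≤ #V * d := by
  rw [← card_fst V b]
  refine (card_le_card fun m hm => ?_).trans (card_image_le (f := Prod.fst))
  obtain ⟨j, hj⟩ := (mem_filter.1 hm).2
  exact mem_image.2 ⟨(m, j), mem_filter.2 ⟨mem_univ _, hj⟩, rfl⟩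

theorem switch (hM : 4 * d ^ 2 < M) (b : Fin M × Fin 2 ≃ Fin N × Fin d)
    (h : ¬ Good (pr (om b))) : ∃ s t, #(ed (om b)) < #(ed (om ((swap s t).trans b))) := by
  obtain ⟨k, hk⟩ : ∃ k, ∀ z ∈ ed (om b), ∃ m, m ≠ k ∧ pr (om b) m = z := by
    rw [Good, not_and_or, Function.not_injective_iff, not_forall_not] at h
    rcases h with ⟨k, k', h1, h2⟩ | ⟨k, h1⟩
    · refine ⟨k, fun z hz => ?_⟩
      obtain ⟨m, rfl⟩ := (mem_ed.1 hz).2
      by_cases hm : m = k
      · exact ⟨k', h2.symm, by rw [hm, h1]⟩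
      · exact ⟨m, hm, rfl⟩
    · refine ⟨k, fun z hz => ?_⟩
      obtain ⟨h2, m, rfl⟩ := mem_ed.1 hz
      exact ⟨m, fun hm => h2 (hm ▸ h1), rfl⟩
  set V : Finset (Fin N) := {om b k 0, om b k 1} with hV
  set B : Finset (Fin N) := image (fun s : Fin M × Fin 2 => om b s.1 s.2)
    (({m | ∃ j, om b m j ∈ V} : Finset (Fin M)) ×ˢ univ) with hB
  have h1 : ∀ m j j', om b m j ∈ V → om b m j' ∈ B := fun m j j' hm =>
    mem_image.2 ⟨(m, j'), mem_product.2 ⟨mem_filter.2 ⟨mem_univ _, j, hm⟩, mem_univ _⟩, rfl⟩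
  have h2 : #B ≤ 4 * d := by
    refine card_image_le.trans ?_
    have h3 := (card_touch V b).trans (Nat.mul_le_mul_right d card_le_two)
    rw [card_product, card_univ, Fintype.card_fin]
    omega
  obtain ⟨l, hl⟩ : ∃ l, ∀ j, om b l j ∉ B := by
    by_contra hc
    have h3 := (card_touch B b).trans (Nat.mul_le_mul_right d h2)
    rw [filter_true_of_mem fun m _ => not_forall_not.1 (not_exists.1 hc m), card_univ,
      Fintype.card_fin] at h3
    nlinarith
  have hV0 : ∀ j, om b k j ∈ V := fun j => by fin_cases j <;> simp [hV]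
  have hlk : l ≠ k := by
    rintro rfl
    exact hl 0 (h1 _ 0 0 (hV0 0))
  have h3 : ∀ j j', om b k j ≠ om b l j' := fun j j' h => hl j' (h ▸ h1 k j j (hV0 j))
  have h4 : ∀ j j', s(om b k j, om b l j') ∉ ed (om b) := fun j j' h => by
    obtain ⟨m, hm⟩ := (mem_ed.1 h).2
    rcases Sym2.eq_iff.1 hm with ⟨h5, h6⟩ | ⟨h5, h6⟩
    · exact hl j' (h6 ▸ h1 m 0 1 (h5 ▸ hV0 j))
    · exact hl j' (h5 ▸ h1 m 1 0 (h6 ▸ hV0 j))
  refine ⟨(k, 1), (l, 0), ?_⟩
  set b' := (swap (k, (1 : Fin 2)) (l, 0)).trans b with hb'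
  have h5 : s(om b k 0, om b l 0) ∈ ed (om b') := mem_ed.2 ⟨h3 0 0, k, by
    simp [pr, om, hb', swap_apply_of_ne_of_ne, hlk.symm]⟩
  have h6 : s(om b k 1, om b l 1) ∈ ed (om b') := mem_ed.2 ⟨h3 1 1, l, by
    simp [pr, om, hb', swap_apply_of_ne_of_ne, hlk]⟩
  have h7 : (ed (om b)).erase (pr (om b) l) ⊆ ed (om b') := fun z hz => by
    obtain ⟨m, h8, rfl⟩ := hk z (mem_of_mem_erase hz)
    have h9 : m ≠ l := fun h => ne_of_mem_erase hz (by rw [h])
    exact mem_ed.2 ⟨(mem_ed.1 (mem_of_mem_erase hz)).1, m, by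
      simp [pr, om, hb', swap_apply_of_ne_of_ne, h8, h9]⟩
  by_cases hd : om b l 0 = om b l 1
  · rw [erase_eq_of_notMem (fun h : pr (om b) l ∈ _ => (mem_ed.1 h).1 hd)] at h7
    have h8 := card_le_card (insert_subset h5 h7)
    rwa [card_insert_of_notMem (h4 0 0)] at h8
  · have h8 := card_le_card (insert_subset h5 (insert_subset h6 h7))
    rw [card_insert_of_notMem, card_insert_of_notMem fun h => h4 1 1 (mem_of_mem_erase h)] at h8
    · have h9 := pred_card_le_card_erase (s := ed (om b)) (a := pr (om b) l)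
      omega
    · rw [mem_insert, not_or]
      refine ⟨fun h => ?_, fun h => h4 0 0 (mem_of_mem_erase h)⟩
      rcases Sym2.eq_iff.1 h with h | h
      · exact hd h.2
      · exact h3 0 1 h.1

open Classical in
theorem card_level (hM : 4 * d ^ 2 < M) (k : ℕ) :
    #{b : Fin M × Fin 2 ≃ Fin N × Fin d | Good (pr (om b)) ∨ M ≤ #(ed (om b)) + k} ≤
      (M * 2) ^ (2 * k) * #{b : Fin M × Fin 2 ≃ Fin N × Fin d | Good (pr (om b))} := by
  induction k with
  | zero =>
    rw [mul_zero, pow_zero, one_mul]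
    refine card_le_card fun b hb => mem_filter.2 ⟨mem_univ _, ?_⟩
    by_contra h
    obtain ⟨s, t, h1⟩ := switch hM b h
    have h2 : #(ed (om ((swap s t).trans b))) ≤ M :=
      card_image_le.trans ((card_le_univ _).trans_eq (Fintype.card_fin M))
    have h3 := (mem_filter.1 hb).2.resolve_left h
    omega
  | succ k ih =>
    set A := ({b : Fin M × Fin 2 ≃ Fin N × Fin d |
      Good (pr (om b)) ∨ M ≤ #(ed (om b)) + k} : Finset _) with hA
    have h1 := card_biUnion_le_card_mul (univ : Finset ((Fin M × Fin 2) × (Fin M × Fin 2)))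
      (fun p => A.image fun b => (swap p.1 p.2).trans b) _ fun p _ => card_image_le.trans ih
    refine (card_le_card fun b hb => ?_).trans (h1.trans (le_of_eq ?_))
    · obtain ⟨s, t, h2⟩ : ∃ s t, (swap s t).trans b ∈ A := by
        by_cases h : Good (pr (om b))
        · refine ⟨(⟨0, by omega⟩, 0), (⟨0, by omega⟩, 0), ?_⟩
          rw [swap_self, refl_trans]
          exact mem_filter.2 ⟨mem_univ _, Or.inl h⟩
        · obtain ⟨s, t, h2⟩ := switch hM b h
          have h3 := (mem_filter.1 hb).2.resolve_left h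
          exact ⟨s, t, mem_filter.2 ⟨mem_univ _, Or.inr (by omega)⟩⟩
      refine mem_biUnion.2 ⟨(s, t), mem_univ _, mem_image.2 ⟨_, h2, ?_⟩⟩
      ext1 x
      simp
    · simp only [card_univ, Fintype.card_prod, Fintype.card_fin]
      ring

theorem defect (ω : Fin M → Fin 2 → Fin N) : M ≤ #(ed ω) + (#{k | ω k 0 = ω k 1} +
    #{p ∈ (univ : Finset (Fin M)).offDiag | pr ω p.1 = pr ω p.2}) := by
  set U : Finset (Fin M) := {k | ω k 0 ≠ ω k 1 ∧ ∀ m, pr ω k = pr ω m → k = m} with hU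
  have h1 : #U ≤ #(ed ω) := card_le_card_of_injOn (pr ω)
    (fun k hk => mem_coe.2 (mem_ed.2 ⟨(mem_filter.1 hk).2.1, k, rfl⟩))
    fun k hk m _ h => (mem_filter.1 hk).2.2 m h
  have h2 : (univ : Finset (Fin M)) ⊆ U ∪ (({k | ω k 0 = ω k 1} : Finset _) ∪
      image Prod.fst {p ∈ (univ : Finset (Fin M)).offDiag | pr ω p.1 = pr ω p.2}) := fun k _ => by
    by_contra h
    simp only [mem_union, not_or, hU, mem_filter, mem_univ, true_and, not_and, not_forall] at h
    obtain ⟨m, h3, h4⟩ := h.1 h.2.1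
    exact h.2.2 (mem_image.2 ⟨(k, m), by simp [h3, h4], rfl⟩)
  have h3 := (card_le_card h2).trans ((card_union_le _ _).trans (add_le_add h1
    ((card_union_le _ _).trans (add_le_add le_rfl card_image_le))))
  rwa [card_univ, Fintype.card_fin] at h3

theorem marg {X : Type} [Fintype X] [DecidableEq X] (hM : 2 * M = d * N)
    (hX : (Fintype.card X) ^ 2 ≤ M) (h0 : 0 < M) (i : X → Fin M × Fin 2)
    (hi : Function.Injective i) (F : (X → Fin N) → ℝ) (hF : ∀ s, 0 ≤ F s) :
    𝔼 b : Fin M × Fin 2 ≃ Fin N × Fin d, F (fun x => (b (i x)).1) ≤ 2 * 𝔼 s, F s := by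
  have hp : 0 < N * d := by rw [mul_comm, ← hM]; omega
  have hd : Nonempty (Fin d) := ⟨⟨0, Nat.pos_of_mul_pos_left hp⟩⟩
  have h1 := expect_equiv_emb (S := Fin M × Fin 2) (H := Fin N × Fin d) (by simp; linarith) i hi
    fun s => F fun x => (s x).1
  have h2 : 𝔼 s : X → Fin N × Fin d, F (fun x => (s x).1) = 𝔼 s, F s := by
    refine (Fintype.expect_equiv (arrowProdEquivProdArrow X (fun _ => Fin N) fun _ => Fin d) _
      (fun p => F p.1) fun _ => rfl).trans ?_
    rw [expect_prod]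
    simp only [Fintype.expect_const]
  have h3 := desc_ge (N * d) (Fintype.card X) hp
  have h4 : ((Fintype.card X : ℝ)) ^ 2 / (N * d : ℕ) ≤ 1 / 2 := by
    rw [div_le_div_iff₀ (by exact_mod_cast hp) two_pos, mul_comm N, ← hM]
    exact_mod_cast (by omega)
  have h5 : (0 : ℝ) < ((N * d : ℕ) : ℝ) ^ Fintype.card X := by positivity
  have h6 : ∑ e : X ↪ Fin N × Fin d, F (fun x => (e x).1) ≤
      ∑ s : X → Fin N × Fin d, F (fun x => (s x).1) := by
    rw [← sum_image (s := univ) (g := fun e : X ↪ Fin N × Fin d => (e : X → Fin N × Fin d))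
      (f := fun s => F fun x => (s x).1) fun a _ b _ h => DFunLike.coe_injective h]
    exact sum_le_sum_of_subset_of_nonneg (subset_univ _) fun s _ _ => hF _
  have h7 : 0 ≤ ∑ e : X ↪ Fin N × Fin d, F (fun x => (e x).1) := sum_nonneg fun e _ => hF _
  refine h1.trans_le ?_
  rw [← h2, Fintype.expect_eq_sum_div_card, Fintype.expect_eq_sum_div_card,
    Fintype.card_embedding_eq, Fintype.card_fun, Fintype.card_prod, Fintype.card_fin,
    Fintype.card_fin, Nat.cast_pow, ← mul_div_assoc, div_le_div_iff₀ (by nlinarith) h5]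
  have h8 : ((N * d : ℕ) : ℝ) ^ Fintype.card X ≤ 2 * (N * d).descFactorial (Fintype.card X) := by
    nlinarith
  exact (mul_le_mul h6 h8 h5.le (h7.trans h6)).trans_eq (by ring)

theorem expect_ind {A : Type} [Fintype A] (p : A → Prop) [DecidablePred p] :
    𝔼 a, (if p a then (1 : ℝ) else 0) = #{a | p a} / Fintype.card A := by
  rw [Fintype.expect_eq_sum_div_card, sum_boole]

theorem moment (hM : 2 * M = d * N) (h16 : 16 ≤ M) :
    𝔼 b : Fin M × Fin 2 ≃ Fin N × Fin d, ((#{k | om b k 0 = om b k 1} +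
      #{p ∈ (univ : Finset (Fin M)).offDiag | pr (om b) p.1 = pr (om b) p.2} : ℕ) : ℝ) ≤
      (d + d ^ 2 : ℕ) := by
  have hN : (0 : ℝ) < N := by
    have : N ≠ 0 := by
      rintro rfl
      omega
    positivity
  have hM' : (2 : ℝ) * M = d * N := by exact_mod_cast hM
  have h1 : ∀ k, 𝔼 b : Fin M × Fin 2 ≃ Fin N × Fin d,
      (if om b k 0 = om b k 1 then (1 : ℝ) else 0) ≤ 2 / N := fun k => by
    refine (marg hM (X := Fin 2) (by simp; omega) (by omega) (fun j => (k, j))
      (fun a b h => (Prod.ext_iff.1 h).2) (fun s => if s 0 = s 1 then 1 else 0)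
      fun s => by positivity).trans ?_
    have h2 : #{s : Fin 2 → Fin N | s 0 = s 1} ≤ #(univ : Finset (Fin N)) :=
      card_le_card_of_injOn (fun s => s 0) (fun _ _ => mem_coe.2 (mem_univ _)) fun s hs t ht h => by
        funext j
        fin_cases j
        · exact h
        · exact (mem_filter.1 hs).2.symm.trans (h.trans (mem_filter.1 ht).2)
    rw [card_univ, Fintype.card_fin] at h2
    have h3 : (#{s : Fin 2 → Fin N | s 0 = s 1} : ℝ) ≤ N := by exact_mod_cast h2
    rw [expect_ind, Fintype.card_fun, Fintype.card_fin, Fintype.card_fin, Nat.cast_pow,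
      ← mul_div_assoc, div_le_div_iff₀ (by positivity) hN]
    nlinarith
  have h2 : ∀ p ∈ (univ : Finset (Fin M)).offDiag, 𝔼 b : Fin M × Fin 2 ≃ Fin N × Fin d,
      (if pr (om b) p.1 = pr (om b) p.2 then (1 : ℝ) else 0) ≤ 2 * (2 / N ^ 2) := fun p hp => by
    have h3 := (mem_offDiag.1 hp).2.2
    refine (marg hM (X := Fin 2 ⊕ Fin 2) (by simp; omega) (by omega)
      (Sum.elim (fun j => (p.2, j)) fun j => (p.1, j)) ?_
      (fun s => if s(s (.inr 0), s (.inr 1)) = s(s (.inl 0), s (.inl 1)) then 1 else 0)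
      fun s => by positivity).trans (mul_le_mul_of_nonneg_left ?_ two_pos.le)
    · rintro (a | a) (b | b) h <;> simp_all
    · refine (Fintype.expect_equiv (sumArrowEquivProdArrow (Fin 2) (Fin 2) (Fin N)) _ (fun q =>
        if s(q.2 0, q.2 1) = s(q.1 0, q.1 1) then (1 : ℝ) else 0) fun _ => rfl).trans_le ?_
      rw [expect_prod]
      have : Nonempty (Fin N) := ⟨⟨0, by exact_mod_cast hN⟩⟩
      refine expect_le univ_nonempty fun a _ => ?_
      rw [expect_ind, two_eq, Fintype.card_fun, Fintype.card_fin, Fintype.card_fin, Nat.cast_pow]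
      exact div_le_div_of_nonneg_right (by exact_mod_cast card_le_two) (by positivity)
  simp only [card_filter, Nat.cast_add, Nat.cast_sum, Nat.cast_ite, Nat.cast_one, Nat.cast_zero]
  rw [expect_add_distrib, expect_sum_comm, expect_sum_comm]
  refine add_le_add ((sum_le_card_nsmul _ _ _ fun k _ => h1 k).trans ?_)
    ((sum_le_card_nsmul _ _ _ h2).trans ?_)
  · rw [card_univ, Fintype.card_fin, nsmul_eq_mul, ← mul_div_assoc, div_le_iff₀ hN]
    linarith
  · have h3 : (#(univ : Finset (Fin M)).offDiag : ℝ) ≤ M * M := by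
      rw [offDiag_card, card_univ, Fintype.card_fin]
      exact_mod_cast Nat.sub_le _ _
    rw [nsmul_eq_mul]
    refine (mul_le_mul_of_nonneg_right h3 (by positivity)).trans (le_of_eq ?_)
    have h4 : (M : ℝ) = d * N / 2 := by linarith
    rw [h4]
    push_cast
    field_simp

theorem markov {A : Type} [Fintype A] (D : A → ℕ) {m : ℕ} (hm : 0 < m)
    (h : 𝔼 a, (D a : ℝ) ≤ m) : (Fintype.card A : ℝ) ≤ 2 * #{a | D a ≤ 2 * m} := by
  have h1 : ∀ a, (1 : ℝ) ≤ (if D a ≤ 2 * m then 1 else 0) + 1 / (2 * m) * D a := fun a => by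
    split_ifs with h2
    · exact le_add_of_nonneg_right (by positivity)
    · rw [zero_add, one_div, inv_mul_eq_div, one_le_div (by positivity)]
      exact_mod_cast (not_le.1 h2).le
  rcases isEmpty_or_nonempty A with hA | hA
  · simp
  have hn : (0 : ℝ) < Fintype.card A := by exact_mod_cast Fintype.card_pos
  have h2 := expect_mono h1
  rw [Fintype.expect_const, expect_add_distrib, ← mul_expect, expect_ind] at h2
  have h3 := mul_le_mul_of_nonneg_left h (show (0 : ℝ) ≤ 1 / (2 * m) by positivity)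
  have h4 : (1 : ℝ) / (2 * m) * m = 1 / 2 := by field_simp
  have h5 : 1 / 2 ≤ (#{a | D a ≤ 2 * m} : ℝ) / Fintype.card A := by linarith
  rw [le_div_iff₀ hn] at h5
  linarith

open Classical in
theorem card_good (hd : 1 ≤ d) (hM : 2 * M = d * N) (h16 : 16 ≤ M) (h4 : 4 * d ^ 2 < M) :
    (Fintype.card (Fin M × Fin 2 ≃ Fin N × Fin d) : ℝ) ≤ 2 * (M * 2) ^ (2 * (2 * (d + d ^ 2))) *
      #{b : Fin M × Fin 2 ≃ Fin N × Fin d | Good (pr (om b))} := by
  refine (markov _ (by positivity) (moment hM h16)).trans ?_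
  rw [mul_assoc]
  refine mul_le_mul_of_nonneg_left ?_ two_pos.le
  have h1 := card_level (N := N) h4 (2 * (d + d ^ 2))
  refine le_trans (Nat.cast_le.2 (le_trans (card_le_card fun b hb => ?_) h1)) (le_of_eq ?_)
  · have h2 := (mem_filter.1 hb).2
    have h3 := defect (om b)
    exact mem_filter.2 ⟨mem_univ _, Or.inr (by omega)⟩
  · push_cast
    rfl

end Vale.Agent.N168X.Sim
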