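import Vale.Agent.N168X.SimA
import Vale.Agent.N168X.SimC
import Mathlib.Analysis.SpecialFunctions.Pow.Asymptotics

/-! From the configuration model to uniform simple regular graphs. -/

set_option autoImplicit false

open Finset Filter
open scoped BigOperators

namespace Vale.Agent.N168X

open Sim

open Classical in
theorem simple_transfer (d : ℕ) (hd : 1 ≤ d) (c : ℝ)
    (F : ∀ N, (Fin (d * N / 2) → Fin 2 → Fin N) → ℝ) (G : ∀ N, SimpleGraph (Fin N) → ℝ)
    (hlip : ∀ N i i' k0, (∀ k, k ≠ k0 → i k = i' k) → |F N i - F N i'| ≤ c)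
    (hG : ∀ N i, (∀ k, i k 0 ≠ i k 1) → Function.Injective (fun k => s(i k 0, i k 1)) →
      F N i = G N (SimpleGraph.fromEdgeSet (Set.range fun k => s(i k 0, i k 1))))
    {ε : ℝ} (hε : 0 < ε) : ∀ᶠ N in atTop, Even (d * N) →
      |(𝔼 H ∈ {H : SimpleGraph (Fin N) | H.IsRegularOfDegree d}, G N H) -
        𝔼 e : Fin (d * N / 2) × Fin 2 ↪ Fin N × Fin d, F N fun k j => (e (k, j)).1| ≤ ε * N := by
  have hd' : (0 : ℝ) < d := by exact_mod_cast hd
  have hc := abs_nonneg c
  set D : ℝ := 4 * |c| * ε + 32 * |c| ^ 2 * d + 1 with hD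
  have hD0 : 0 < D := by positivity
  set t : ℝ := ε / D with ht
  have ht0 : 0 < t := by positivity
  have htD : t * D = ε := div_mul_cancel₀ _ hD0.ne'
  set T : ℕ := 2 * (2 * (d + d ^ 2)) with hT
  have h1 := (tendsto_natCast_atTop_atTop.const_mul_atTop hd').eventually
    (Real.isLittleO_log_id_atTop.bound (show 0 < t * ε / (2 * d * (T + 1)) by positivity))
  filter_upwards [h1, eventually_ge_atTop (8 * d ^ 2 + 34)] with N h2 h3 hev
  have hM : 2 * (d * N / 2) = d * N := Nat.two_mul_div_two_of_even hev
  have h4 : N ≤ d * N := Nat.le_mul_of_pos_left N hd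
  have hcard : Fintype.card (Fin (d * N / 2) × Fin 2) = Fintype.card (Fin N × Fin d) := by
    simp only [Fintype.card_prod, Fintype.card_fin]
    linarith
  have h5 := cond_abs hcard (c := 2 * |c|) ht0 (by nlinarith [mul_pos ht0 hε, sq_nonneg |c|])
    (fun b => F N (om b)) (fun b s s' => by
      set i' := om ((Equiv.swap s s').trans b) with hi'
      have h6 := hlip N (om b) (Function.update (om b) s.1 (i' s.1)) s.1 fun k hk => by
        rw [Function.update_of_ne hk]
      have h7 := hlip N (Function.update (om b) s.1 (i' s.1)) i' s'.1 fun k hk => by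
        by_cases h : k = s.1
        · rw [h, Function.update_self]
        · rw [Function.update_of_ne h]
          funext j
          rw [hi', om, om, Equiv.trans_apply, Equiv.swap_apply_of_ne_of_ne
            (fun e => h (congrArg Prod.fst e)) fun e => hk (congrArg Prod.fst e)]
      linarith [abs_sub_le (F N (om b)) (F N (Function.update (om b) s.1 (i' s.1))) (F N i'),
        le_abs_self c]) _ (card_good hd hM (by omega) (by omega))
  rw [← expect_reg hM, ← expect_equiv_emb hcard id Function.injective_id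
    fun e => F N fun k j => (e (k, j)).1, ← expect_congr rfl (f := fun b => F N (om b))
    (g := fun b => G N (gr (pr (om b)))) fun b hb => hG N _ (mem_filter.1 hb).2.2 (mem_filter.1 hb).2.1]
  have h6 : ((d * N / 2 : ℕ) : ℝ) * 2 = d * N := by exact_mod_cast (mul_comm _ _).trans hM
  have h7 : (2 : ℝ) ≤ d * N := by exact_mod_cast (by omega : 2 ≤ d * N)
  have h8 := Real.log_le_log two_pos h7
  rw [Fintype.card_prod, Fintype.card_fin, Fintype.card_fin, Nat.cast_mul, Nat.cast_ofNat, h6,
    Real.log_mul two_ne_zero (by positivity), Real.log_pow] at h5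
  rw [id, Real.norm_of_nonneg (Real.log_nonneg (by linarith)), Real.norm_of_nonneg (by linarith),
    div_mul_eq_mul_div, le_div_iff₀ (by positivity)] at h2
  have h9 : (T + 1) * Real.log (d * N) ≤ t * ε / 2 * N :=
    le_of_mul_le_mul_left (by linarith) hd'
  have h10 : t * (16 * |c| ^ 2 * d) ≤ ε / 2 := by nlinarith [mul_pos ht0 hε]
  have h11 := mul_le_mul_of_nonneg_left h10 (show 0 ≤ t * N by positivity)
  exact le_of_mul_le_mul_left (h5.trans (by linarith)) ht0

end Vale.Agent.N168X
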