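import Vale.Agent.N168X.Limit
import Vale.Agent.N168X.Simple

/-! The pressure on uniform simple regular graphs. -/

set_option autoImplicit false
set_option linter.unusedSectionVars false

open MeasureTheory ProbabilityTheory Finset Function Filter Sum
open scoped BigOperators Topology NNReal

namespace Vale.Agent.N168X

open N168I N168I.PT

theorem lz_add {V : Type} [Fintype V] [DecidableEq V] (H : En V) (c : ℝ) :
    lz (fun σ => H σ + c) = lz H + c := by
  have h1 := lz_mono (H := fun σ => H σ + c) (H' := H) (c := c) fun _ => le_rfl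
  have h2 := lz_mono (H := H) (H' := fun σ => H σ + c) (c := -c) fun _ => by simp
  linarith

/-- Normalisation of an interaction. -/
noncomputable def nz {K : ℕ} (θ : Fn K) : Fn K := fun σ => θ σ + -lz θ

theorem measurable_nz {K : ℕ} : Measurable (nz : Fn K → Fn K) :=
  measurable_pi_lambda _ fun σ => (measurable_pi_apply σ).add lz_lip.continuous.measurable.neg

section general

variable {K N : ℕ} {ρ : Measure (Fn K)} [IsProbabilityMeasure ρ] {ν : Measure ℝ}
  [IsProbabilityMeasure ν] (hρ : Integrable (fun θ : Fn K => ‖θ‖) ρ)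
  (hν : Integrable (fun h : ℝ => h) ν) {κ : Type} [Fintype κ] [DecidableEq κ]

include hρ in
theorem int_nz : Integrable (fun θ : Fn K => ‖θ‖) (ρ.map nz) := by
  have i1 := lip_int0 (lz_lip (V := Fin K))
    ((integrable_norm_iff measurable_id.aestronglyMeasurable).1 hρ)
  refine (integrable_map_measure measurable_norm.aestronglyMeasurable
    measurable_nz.aemeasurable).2 ((hρ.add i1.abs).mono'
    (measurable_norm.comp measurable_nz).aestronglyMeasurable (Eventually.of_forall fun θ => ?_))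
  rw [comp_apply, norm_norm]
  refine MP.norm_le_of (add_nonneg (norm_nonneg _) (abs_nonneg _)) fun σ => ?_
  exact (abs_add_le _ _).trans (add_le_add (MP.abs_le_norm θ σ) (abs_neg _).le)

include hρ hν in
theorem Z0_norm (I : κ × Fin K → Fin N) : Z0 ρ ν I - Z0 (ρ.map nz) ν I =
    ∫ ω, ∑ k, lz (ω.1 k) ∂(dis ρ ν κ (Fin N)) := by
  have := Measure.isProbabilityMeasure_map (μ := ρ) (measurable_nz (K := K)).aemeasurable
  have m1 : MeasurePreserving (fun ω : Dis K κ (Fin N) => ((fun k => nz (ω.1 k), ω.2) :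
      Dis K κ (Fin N))) (dis ρ ν κ (Fin N)) (dis (ρ.map nz) ν κ (Fin N)) :=
    (measurePreserving_pi (fun _ : κ => ρ) (fun _ => ρ.map nz) (f := fun _ => nz)
      fun _ => ⟨measurable_nz, rfl⟩).prod (MeasurePreserving.id _)
  have i1 := lip_int0 lz_lip (integrable_engI (int_nz hρ) hν I id)
  unfold Z0
  rw [← mp_integral m1 i1.aestronglyMeasurable]
  refine (integral_sub (lip_int0 lz_lip (integrable_engI hρ hν I id))
    (m1.integrable_comp_of_integrable i1)).symm.trans ?_
  congr 1
  funext ω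
  have e : engI I id ((fun k => nz (ω.1 k), ω.2) : Dis K κ (Fin N)) =
      fun σ => engI I id ω σ + -∑ k, lz (ω.1 k) := by
    funext σ
    simp only [engI, nz, sum_add_distrib, sum_neg_distrib]
    ring
  rw [comp_apply, e, lz_add]
  ring

include hρ hν in
theorem Z0_flip (hs : (ρ.map nz).map (pb Fin.rev) = ρ.map nz) (I : κ × Fin K → Fin N)
    (fl : κ → Prop) [DecidablePred fl] :
    Z0 ρ ν (fun p => if fl p.1 then I p else I (p.1, p.2.rev)) = Z0 ρ ν I := by
  have := Measure.isProbabilityMeasure_map (μ := ρ) (measurable_nz (K := K)).aemeasurable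
  have m1 : MeasurePreserving (fun ω : Dis K κ (Fin N) =>
      ((fun k => (if fl k then id else pb Fin.rev) (ω.1 k), ω.2) : Dis K κ (Fin N)))
      (dis (ρ.map nz) ν κ (Fin N)) (dis (ρ.map nz) ν κ (Fin N)) :=
    (measurePreserving_pi (fun _ : κ => ρ.map nz) (fun _ => ρ.map nz)
      (f := fun k => if fl k then id else pb Fin.rev) fun k => by
        split_ifs
        · exact MeasurePreserving.id _
        · exact ⟨measurable_pb _, hs⟩).prod (MeasurePreserving.id _)
  have h1 : Z0 (ρ.map nz) ν (fun p => if fl p.1 then I p else I (p.1, p.2.rev)) =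
      Z0 (ρ.map nz) ν I := by
    unfold Z0
    rw [← mp_integral m1 (lip_int0 lz_lip
      (integrable_engI (int_nz hρ) hν I id)).aestronglyMeasurable]
    congr 1
    funext ω
    congr 1
    funext σ
    unfold engI
    congr 1
    refine sum_congr rfl fun k _ => ?_
    by_cases h : fl k <;> simp only [h, if_true, if_false] <;> rfl
  linarith [Z0_norm hρ hν I, Z0_norm hρ hν fun p => if fl p.1 then I p else I (p.1, p.2.rev)]

include hρ hν in
theorem Z0_lip (I I' : κ × Fin K → Fin N) (k0 : κ) (h : ∀ k j, k ≠ k0 → I (k, j) = I' (k, j)) :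
    |Z0 ρ ν I - Z0 ρ ν I'| ≤ 2 * ∫ θ, ‖θ‖ ∂ρ := by
  have h1 := Z0_ext hρ hν (Equiv.sumCompl (· ≠ k0)) (Equiv.sumEmpty (Fin N) Empty) I
    (fun p => I (p.1.1, p.2)) fun _ _ => rfl
  have h2 := Z0_ext hρ hν (Equiv.sumCompl (· ≠ k0)) (Equiv.sumEmpty (Fin N) Empty) I'
    (fun p => I (p.1.1, p.2)) fun k j => (h k.1 j k.2).symm
  have e : Fintype.card {k // ¬k ≠ k0} = 1 := by simp
  rw [e, Fintype.card_empty] at h1 h2
  rw [abs_le] at h1 h2 ⊢
  push_cast at h1 h2
  constructor <;> linarith [h1.1, h1.2, h2.1, h2.2]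

end general

section graph

variable {N d : ℕ} {ρ : Measure (Fn 2)} [IsProbabilityMeasure ρ] {ν : Measure ℝ}
  [IsProbabilityMeasure ν] (hρ : Integrable (fun θ : Fn 2 => ‖θ‖) ρ)
  (hν : Integrable (fun h : ℝ => h) ν) {κ : Type} [Fintype κ] [DecidableEq κ]

include hρ hν in
theorem graph_eq {Φ : En (Fin N) → ℝ} (hΦ : LipschitzWith 1 Φ) (o : κ → Fin N × Fin N)
    (ho : Injective o) (T : Finset (Fin N × Fin N)) (hT : ∀ p, p ∈ T ↔ ∃ k, o k = p) :
    ∫ θ : Fin N × Fin N → Fn 2, (∫ h : Fin N → ℝ, Φ (fun σ =>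
      ∑ p ∈ T, θ p ![σ p.1, σ p.2] + ∑ v, h v * spin (σ v)) ∂(Measure.pi fun _ => ν))
      ∂(Measure.pi fun _ => ρ) =
    ∫ ω, Φ (engI (fun q => ![(o q.1).1, (o q.1).2] q.2) id ω) ∂(dis ρ ν κ (Fin N)) := by
  have m1 := (MP.mp_comp_inj ρ o ho).prod (MeasurePreserving.id (Measure.pi fun _ : Fin N => ν))
  refine Eq.trans ?_ (mp_prod m1 (lip_int0 hΦ (integrable_engI hρ hν _ id))).symm
  have e : T = univ.image o := by ext p; simp [hT]
  congr 1
  funext θ
  congr 1
  funext h
  congr 1
  funext σ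
  rw [e, sum_image fun _ _ _ _ h => ho h]
  refine congrArg (· + _) (sum_congr rfl fun k _ => congrArg (θ (o k)) (funext fun j => ?_))
  fin_cases j <;> rfl

include hρ hν in
theorem graph_near (hd : 1 ≤ d) (hs : (ρ.map nz).map (pb Fin.rev) = ρ.map nz) {ε : ℝ}
    (hε : 0 < ε) : ∀ᶠ N in atTop, Even (d * N) →
      |graphMean d ρ ν N (fun H => Real.log (∑ σ, Real.exp (H σ))) - regPressure d ρ ν N| ≤ ε := by
  classical
  have h1 := simple_transfer d hd (2 * ∫ θ, ‖θ‖ ∂ρ) (fun N i => meanLogZ ρ ν i)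
    (fun N G => ∫ θ : Fin N × Fin N → Fn 2, (∫ h : Fin N → ℝ, lz (fun σ =>
      ∑ p ∈ {p : Fin N × Fin N | p.1 < p.2 ∧ G.Adj p.1 p.2}, θ p ![σ p.1, σ p.2] +
        ∑ v, h v * spin (σ v)) ∂(Measure.pi fun _ => ν)) ∂(Measure.pi fun _ => ρ))
    (fun N i i' k0 h => by
      rw [meanLogZ_eq hρ hν fun p => i p.1 p.2, meanLogZ_eq hρ hν fun p => i' p.1 p.2]
      exact Z0_lip hρ hν _ _ k0 fun k j hk => congrFun (h k hk) j)
    (fun N i h1 h2 => by
      have hs2 : ∀ k, s((if i k 0 < i k 1 then (i k 0, i k 1) else (i k 1, i k 0)).1,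
          (if i k 0 < i k 1 then (i k 0, i k 1) else (i k 1, i k 0)).2) = s(i k 0, i k 1) :=
        fun k => by split_ifs; exacts [rfl, Sym2.eq_swap]
      rw [meanLogZ_eq hρ hν fun p => i p.1 p.2, graph_eq hρ hν lz_lip
        (fun k => if i k 0 < i k 1 then (i k 0, i k 1) else (i k 1, i k 0))
        (fun k k' h => h2 (by dsimp only at h ⊢; rw [← hs2 k, ← hs2 k', h])),
        ← Z0_flip hρ hν hs _ fun k => i k 0 < i k 1]
      · unfold Z0
        congr 4
        funext ω
        congr 2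
        funext ⟨k, j⟩
        by_cases h : i k 0 < i k 1 <;> fin_cases j <;> simp [h]
      · rintro ⟨u, v⟩
        simp only [mem_filter, mem_univ, true_and, SimpleGraph.fromEdgeSet_adj, Set.mem_range]
        constructor
        · rintro ⟨h3, ⟨k, hk⟩, -⟩
          refine ⟨k, ?_⟩
          rcases Sym2.eq_iff.1 hk with ⟨rfl, rfl⟩ | ⟨rfl, rfl⟩
          · rw [if_pos h3]
          · rw [if_neg h3.not_gt]
        · rintro ⟨k, hk⟩
          have h4 := hs2 k
          rw [hk] at h4
          have h5 : u < v := by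
            split_ifs at hk with h
            · obtain ⟨rfl, rfl⟩ := Prod.mk.inj hk
              exact h
            · obtain ⟨rfl, rfl⟩ := Prod.mk.inj hk
              exact lt_of_le_of_ne (not_lt.1 h) (h1 k).symm
          exact ⟨h5, ⟨k, h4.symm⟩, h5.ne⟩) hε
  filter_upwards [h1, eventually_gt_atTop 0] with N h2 hN hev
  have hN' : (0 : ℝ) < N := by exact_mod_cast hN
  unfold graphMean regPressure
  rw [← mul_sub, abs_mul, abs_of_pos (one_div_pos.2 hN'), one_div_mul_eq_div, div_le_iff₀ hN']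
  exact h2 hev

end graph

variable {Ω : Type} [MeasurableSpace Ω] {P : Measure Ω} [IsProbabilityMeasure P] {θ : Ω → Fn 2}
  {h : Ω → ℝ} {d : ℕ}

theorem class_symm (hc : InClass P θ h) :
    ((P.map θ).map nz).map (pb Fin.rev) = (P.map θ).map nz := by
  obtain ⟨hθ, -, -, -, a, b, f, hb, hf, hae, -, hind, hid, hbf⟩ := hc
  let g : ℝ × (Fin 2 → Bool → ℝ) → Fn 2 := fun z =>
    nz fun σ => Real.log (1 + z.1 * ∏ j, z.2 j (σ j))
  have hg : Measurable g := measurable_nz.comp (measurable_pi_lambda _ fun σ => by fun_prop)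
  have hF : Measurable fun ω j => f j ω := measurable_pi_lambda _ hf
  have hF' : Measurable fun ω (j : Fin 2) => f j.rev ω := measurable_pi_lambda _ fun j => hf _
  have e1 : nz ∘ θ =ᵐ[P] g ∘ fun ω => (b ω, fun j => f j ω) := hae.mono fun ω hω => by
    have e : θ ω = fun σ => Real.log (1 + b ω * ∏ j, f j ω (σ j)) + Real.log (a ω) := by
      funext σ
      have h1 := Real.exp_pos (θ ω σ)
      rw [hω.2.2.2 σ] at h1
      rw [← Real.log_mul ((mul_pos_iff_of_pos_left hω.1).1 h1).ne' hω.1.ne', mul_comm,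
        ← hω.2.2.2 σ, Real.log_exp]
    funext σ
    simp only [comp_apply, g, nz]
    rw [e, lz_add]
    ring
  have e2 : pb Fin.rev ∘ g ∘ (fun ω => (b ω, fun j => f j ω)) =
      g ∘ fun ω => (b ω, fun j : Fin 2 => f j.rev ω) := by
    funext ω σ
    have e : ∀ τ : Fin 2 → Bool, ∏ j : Fin 2, f j.rev ω (τ j) = ∏ j, f j ω (τ j.rev) := fun τ => by
      rw [Fin.prod_univ_two, Fin.prod_univ_two, mul_comm]
      rfl
    simp only [comp_apply, g, nz, pb, e]
    congr 2
    exact congrArg Real.log (Fintype.sum_equiv (Equiv.arrowCongr Fin.revPerm (Equiv.refl Bool))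
      _ _ fun τ => by simp)
  have e3 : P.map (fun ω => (b ω, fun j : Fin 2 => f j.rev ω)) =
      P.map fun ω => (b ω, fun j => f j ω) := by
    have h1 : IndepFun b (fun ω (j : Fin 2) => f j.rev ω) P :=
      hbf.comp measurable_id (measurable_pi_lambda (fun (u : Fin 2 → Bool → ℝ) (j : Fin 2) =>
        u j.rev) fun j => measurable_pi_apply _)
    rw [h1.map_prod_eq_prod_map_map hb.aemeasurable hF'.aemeasurable,
      hbf.map_prod_eq_prod_map_map hb.aemeasurable hF.aemeasurable,
      (hind.precomp Fin.rev_injective).map_fun_eq_pi_map fun j => (hf _).aemeasurable,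
      hind.map_fun_eq_pi_map fun j => (hf _).aemeasurable]
    congr 2
    funext j
    exact (hid _ _).map_eq
  rw [Measure.map_map measurable_nz hθ, Measure.map_congr e1,
    Measure.map_map (measurable_pb _) (hg.comp (hb.prodMk hF)), e2,
    ← Measure.map_map hg (hb.prodMk hF'), e3, Measure.map_map hg (hb.prodMk hF)]

theorem graph_class (hd : 1 ≤ d) (hc : InClass P θ h) :
    ∃ L : ℝ, Tendsto (fun N => graphMean d (P.map θ) (P.map h) N
      fun H => Real.log (∑ σ, Real.exp (H σ))) (atTop ⊓ 𝓟 {N | Even (d * N)}) (𝓝 L) ∧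
      ⨅ r, regPhi d (P.map θ) (P.map h) r = (L : EReal) := by
  obtain ⟨L, h1, h2⟩ := reg_class le_rfl even_two hd hc
  have := Measure.isProbabilityMeasure_map (μ := P) hc.1.aemeasurable
  have := Measure.isProbabilityMeasure_map (μ := P) hc.2.1.aemeasurable
  refine ⟨L, Metric.tendsto_nhds.2 fun ε hε => eventually_inf_principal.2 ?_, h2⟩
  filter_upwards [Metric.tendsto_nhds.1 h1 _ (half_pos hε), graph_near (int_norm hc.1 hc.2.2.1)
    (N168.int_field hc.2.1 hc.2.2.2.1) hd (class_symm hc) (half_pos hε)] with N h3 h4 hN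
  have h5 := abs_le.1 (h4 hN)
  rw [Real.dist_eq, abs_lt] at h3 ⊢
  constructor <;> linarith [h3.1, h3.2, h5.1, h5.2]

end Vale.Agent.N168X
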