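import Vale.Agent.N168X.Graph

/-! Ground states of spin glasses on uniform simple regular graphs. -/

set_option autoImplicit false
set_option linter.unusedSectionVars false

open MeasureTheory ProbabilityTheory Finset Function Filter Sum
open scoped BigOperators Topology NNReal

namespace Vale.Agent.N168X

open N168I N168I.PT

theorem zero_temp {F : Filter ℕ} [F.NeBot] {g : ℕ → ℝ} {q : ℝ → ℕ → ℝ} {p : ℝ → ℝ} {c : ℝ}
    (hq : ∀ β, 0 < β → Tendsto (q β) F (𝓝 (p β)))
    (h : ∀ β, 0 < β → ∀ᶠ N in F, β * g N ≤ q β N ∧ q β N ≤ β * g N + c) :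
    ∃ e : ℝ, Tendsto (fun β => p β / β) atTop (𝓝 e) ∧ Tendsto g F (𝓝 e) := by
  have h0 : ∀ β, 0 < β → ∀ᶠ N in F, g N ≤ q β N / β ∧ q β N / β - c / β ≤ g N := fun β hβ =>
    (h β hβ).mono fun N hN => by
      rw [le_div_iff₀ hβ, ← sub_div, div_le_iff₀ hβ]
      constructor <;> linarith [hN.1, hN.2]
  have h1 : ∀ β γ, 0 < β → 0 < γ → p β / β - c / β ≤ p γ / γ := fun β γ hβ hγ =>
    le_of_tendsto_of_tendsto (((hq β hβ).div_const β).sub_const _) ((hq γ hγ).div_const γ)
      (((h0 β hβ).and (h0 γ hγ)).mono fun N hN => hN.1.2.trans hN.2.1)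
  let S : Set ℝ := (fun β => p β / β) '' Set.Ioi 0
  have hb : ∀ β, 0 < β → p β / β - c / β ∈ lowerBounds S := by
    rintro β hβ _ ⟨γ, hγ, rfl⟩
    exact h1 β γ hβ hγ
  have h2 : ∀ β, 0 < β → sInf S ≤ p β / β := fun β hβ => csInf_le ⟨_, hb 1 one_pos⟩ ⟨β, hβ, rfl⟩
  have h3 : ∀ β, 0 < β → p β / β - c / β ≤ sInf S := fun β hβ =>
    le_csInf ⟨_, 1, Set.mem_Ioi.2 one_pos, rfl⟩ (hb β hβ)
  have h4 : Tendsto (fun β : ℝ => c / β) atTop (𝓝 0) := tendsto_const_nhds.div_atTop tendsto_id
  refine ⟨sInf S, Metric.tendsto_nhds.2 fun ε hε => ?_, Metric.tendsto_nhds.2 fun ε hε => ?_⟩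
  · filter_upwards [h4.eventually (gt_mem_nhds hε), eventually_gt_atTop 0] with β h5 hβ
    rw [Real.dist_eq, abs_lt]
    constructor <;> linarith [h2 β hβ, h3 β hβ]
  · obtain ⟨β, h5, hβ⟩ := ((h4.eventually (gt_mem_nhds (half_pos hε))).and
      (eventually_gt_atTop 0)).exists
    filter_upwards [h0 β hβ, Metric.tendsto_nhds.1 ((hq β hβ).div_const β) _ (half_pos hε)]
      with N h6 h7
    rw [Real.dist_eq, abs_lt] at h7 ⊢
    constructor <;> linarith [h2 β hβ, h3 β hβ, h6.1, h6.2, h7.1, h7.2]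

section

variable {V : Type} [Fintype V] [DecidableEq V]

theorem sup_lip : LipschitzWith 1 fun H : En V => ⨆ σ, H σ :=
  lip_of_mono fun _ H' _ h => ciSup_le fun σ => (h σ).trans
    (add_le_add (le_ciSup (Finite.bddAbove_range H') σ) le_rfl)

theorem lz_smul {β : ℝ} (hβ : 0 < β) (H : En V) :
    β * ⨆ σ, H σ ≤ lz (β • H) ∧ lz (β • H) ≤ β * (⨆ σ, H σ) + Fintype.card V * Real.log 2 := by
  obtain ⟨σ0, h0⟩ := exists_eq_ciSup_of_finite (f := H)
  constructor
  · rw [← h0, ← Real.log_exp (β * H σ0)]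
    exact Real.log_le_log (Real.exp_pos _) (single_le_sum (f := fun σ => Real.exp ((β • H) σ))
      (fun _ _ => (Real.exp_pos _).le) (mem_univ σ0))
  · have h1 := lz_mono (H := β • H) (H' := 0) (c := β * ⨆ σ, H σ) fun σ => by
      rw [Pi.zero_apply, zero_add]
      exact mul_le_mul_of_nonneg_left (le_ciSup (Finite.bddAbove_range H) σ) hβ.le
    have e0 : lz (0 : En V) = Fintype.card V * Real.log 2 := by
      unfold lz
      simp
    linarith

end

theorem graph_sandwich {N d : ℕ} {ρ : Measure (Fn 2)} [IsProbabilityMeasure ρ] {ν : Measure ℝ}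
    [IsProbabilityMeasure ν] (hρ : Integrable (fun θ : Fn 2 => ‖θ‖) ρ)
    (hν : Integrable (fun h : ℝ => h) ν) {β : ℝ} (hβ : 0 < β) (hN : 0 < N) :
    β * graphMean d ρ ν N (fun H => ⨆ σ, H σ) ≤ graphMean d (ρ.map (β • ·)) (ν.map (β • ·)) N
      (fun H => Real.log (∑ σ, Real.exp (H σ))) ∧ graphMean d (ρ.map (β • ·)) (ν.map (β • ·)) N
      (fun H => Real.log (∑ σ, Real.exp (H σ))) ≤
      β * graphMean d ρ ν N (fun H => ⨆ σ, H σ) + Real.log 2 := by
  classical
  have m1 : Measurable fun θ : Fn 2 => β • θ := measurable_const_smul β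
  have m2 : Measurable fun t : ℝ => β • t := measurable_const_smul β
  have := Measure.isProbabilityMeasure_map (μ := ρ) m1.aemeasurable
  have := Measure.isProbabilityMeasure_map (μ := ν) m2.aemeasurable
  have hρ' : Integrable (fun θ : Fn 2 => ‖θ‖) (ρ.map (β • ·)) :=
    (integrable_map_measure measurable_norm.aestronglyMeasurable m1.aemeasurable).2
      ((hρ.const_mul ‖β‖).congr (Eventually.of_forall fun θ => (norm_smul β θ).symm))
  have hν' : Integrable (fun t : ℝ => t) (ν.map (β • ·)) :=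
    (integrable_map_measure aestronglyMeasurable_id m2.aemeasurable).2 (hν.const_mul β)
  have key : ∀ T : Finset (Fin N × Fin N), ∀ A B : ℝ,
      A = ∫ θ : Fin N × Fin N → Fn 2, (∫ h : Fin N → ℝ, (fun H : En (Fin N) => ⨆ σ, H σ)
        (fun σ => ∑ p ∈ T, θ p ![σ p.1, σ p.2] + ∑ v, h v * spin (σ v))
        ∂(Measure.pi fun _ => ν)) ∂(Measure.pi fun _ => ρ) →
      B = ∫ θ : Fin N × Fin N → Fn 2, (∫ h : Fin N → ℝ, lz
        (fun σ => ∑ p ∈ T, θ p ![σ p.1, σ p.2] + ∑ v, h v * spin (σ v))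
        ∂(Measure.pi fun _ => ν.map (β • ·))) ∂(Measure.pi fun _ => ρ.map (β • ·)) →
      β * A ≤ B ∧ B ≤ β * A + N * Real.log 2 := by
    intro T A B hA hB
    rw [graph_eq hρ hν sup_lip (Subtype.val : T → _) Subtype.val_injective T (by simp)] at hA
    rw [graph_eq hρ' hν' lz_lip (Subtype.val : T → _) Subtype.val_injective T (by simp)] at hB
    set I : T × Fin 2 → Fin N := fun q => ![q.1.1.1, q.1.1.2] q.2 with hI
    have m3 : MeasurePreserving (fun ω : Dis 2 T (Fin N) =>
        ((fun k => β • ω.1 k, fun v => β • ω.2 v) : Dis 2 T (Fin N))) (dis ρ ν T (Fin N))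
        (dis (ρ.map (β • ·)) (ν.map (β • ·)) T (Fin N)) :=
      (measurePreserving_pi (fun _ : T => ρ) (fun _ => ρ.map (β • ·)) (f := fun _ θ => β • θ)
        fun _ => ⟨m1, rfl⟩).prod (measurePreserving_pi (fun _ : Fin N => ν)
        (fun _ => ν.map (β • ·)) (f := fun _ t => β • t) fun _ => ⟨m2, rfl⟩)
    have e : ∀ ω : Dis 2 T (Fin N), engI I id ((fun k => β • ω.1 k, fun v => β • ω.2 v) :
        Dis 2 T (Fin N)) = β • engI I id ω := fun ω => by
      funext σ
      simp only [engI, Pi.smul_apply, smul_eq_mul, mul_add, mul_sum, mul_assoc]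
    rw [← mp_integral m3 (lip_int0 lz_lip (integrable_engI hρ' hν' I id)).aestronglyMeasurable]
      at hB
    simp only [e] at hB
    have i1 := (lip_int0 sup_lip (integrable_engI hρ hν I id)).const_mul β
    have i2 := lip_int0 lz_lip ((integrable_engI hρ hν I id).smul β)
    have h1 := integral_mono i1 i2 fun ω => (lz_smul hβ _).1
    have h2 := integral_mono i2 (i1.add (integrable_const _)) fun ω => (lz_smul hβ _).2
    simp only [Pi.add_apply] at h2
    rw [integral_add i1 (integrable_const _), integral_const, probReal_univ, one_smul,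
      Fintype.card_fin] at h2
    rw [integral_const_mul] at h1 h2
    rw [hA, hB]
    exact ⟨h1, h2⟩
  have hN' : (0 : ℝ) < N := by exact_mod_cast hN
  have hl : 0 ≤ N * Real.log 2 := mul_nonneg hN'.le (Real.log_nonneg one_le_two)
  unfold graphMean
  rw [mul_left_comm, mul_expect]
  refine ⟨mul_le_mul_of_nonneg_left (expect_le_expect fun G _ => (key _ _ _ rfl rfl).1)
    (by positivity), ?_⟩
  refine (mul_le_mul_of_nonneg_left (expect_le_expect fun G _ => (key _ _ _ rfl rfl).2)
    (by positivity)).trans ?_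
  rw [expect_add_distrib, mul_add]
  refine add_le_add le_rfl ?_
  rw [one_div_mul_eq_div, div_le_iff₀ hN', mul_comm (Real.log 2)]
  rcases Finset.eq_empty_or_nonempty {G : SimpleGraph (Fin N) | G.IsRegularOfDegree d} with h | h
  · rw [h, expect_empty]
    exact hl
  · exact (expect_const h _).le

variable {Ω : Type} [MeasurableSpace Ω] {P : Measure Ω} [IsProbabilityMeasure P] {θ : Ω → Fn 2}
  {J h : Ω → ℝ} {d : ℕ}

theorem glass_class (hθ : ∀ ω σ, θ ω σ = J ω * spin (σ 0) * spin (σ 1)) (hJ : Measurable J)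
    (hh : Measurable h) (hJi : Integrable J P) (hhi : Integrable h P)
    (hs : IdentDistrib J (-J) P P ∨ ∀ᵐ ω ∂P, J ω ≤ 0) : InClass P θ h := by
  have hm : Measurable θ := measurable_pi_lambda _ fun σ => by
    simp only [hθ]
    exact (hJ.mul_const _).mul_const _
  have hsp : ∀ s, |spin s| = 1 := KS.spin_abs
  have ht : Measurable Real.tanh := by
    have e : Real.tanh = fun t => Real.sinh t / Real.cosh t := funext Real.tanh_eq_sinh_div_cosh
    rw [e]
    exact Real.measurable_sinh.div Real.measurable_cosh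
  refine ⟨hm, hh, hJi.abs.mono' hm.aestronglyMeasurable (Eventually.of_forall fun ω =>
    MP.norm_le_of (abs_nonneg _) fun σ => by rw [hθ, abs_mul, abs_mul, hsp, hsp]; simp), hhi,
    fun ω => Real.cosh (J ω), fun ω => Real.tanh (J ω), fun _ _ => spin, ht.comp hJ,
    fun _ => measurable_const, Eventually.of_forall fun ω => ⟨Real.cosh_pos _,
      Real.abs_tanh_lt_one _, fun _ s => (hsp s).le, fun σ => ?_⟩, fun n _ => ?_, ?_,
    fun _ _ => IdentDistrib.refl aemeasurable_const, indepFun_const_right _ _⟩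
  · dsimp only
    rw [hθ, Fin.prod_univ_two, mul_add, ← mul_assoc (Real.cosh _), Real.tanh_eq_sinh_div_cosh,
      mul_div_cancel₀ _ (Real.cosh_pos _).ne']
    cases σ 0 <;> cases σ 1 <;> simp [spin, ← sub_eq_add_neg]
  · rcases hs with hs | hs
    · rcases Nat.even_or_odd n with hn | hn
      · exact integral_nonneg fun ω => hn.pow_nonneg _
      · have h1 := (hs.comp (ht.pow_const n)).integral_eq
        simp only [comp_apply, Pi.neg_apply, Real.tanh_neg, hn.neg_pow, integral_neg] at h1 ⊢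
        linarith
    · refine integral_nonneg_of_ae (hs.mono fun ω hω => pow_nonneg (neg_nonneg.2 ?_) _)
      dsimp only
      rw [Real.tanh_eq_sinh_div_cosh, Real.sinh_eq]
      have h1 := Real.exp_le_exp.2 (show J ω ≤ -J ω by linarith)
      exact div_nonpos_of_nonpos_of_nonneg (by linarith) (Real.cosh_pos _).le
  · refine iIndepFun_iff_measure_inter_preimage_eq_mul.2 fun S sets _ => ?_
    by_cases h1 : ∀ i ∈ S, spin ∈ sets i
    · rw [prod_eq_one fun i hi => by simp [Set.preimage_const_of_mem (h1 i hi)]]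
      have e : ⋂ i ∈ S, (fun _ : Ω => spin) ⁻¹' sets i = Set.univ :=
        Set.eq_univ_of_forall fun ω => Set.mem_biInter h1
      rw [e, measure_univ]
    · push Not at h1
      obtain ⟨i, hi, h2⟩ := h1
      rw [prod_eq_zero hi (by simp [Set.preimage_const_of_notMem h2])]
      exact measure_mono_null (Set.biInter_subset_of_mem hi)
        (by simp [Set.preimage_const_of_notMem h2])

theorem ground (hd : 1 ≤ d) (hθ : ∀ ω σ, θ ω σ = J ω * spin (σ 0) * spin (σ 1))
    (hJ : Measurable J) (hh : Measurable h) (hJi : Integrable J P) (hhi : Integrable h P)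
    (hs : IdentDistrib J (-J) P P ∨ ∀ᵐ ω ∂P, J ω ≤ 0) :
    ∃ (p : ℝ → ℝ) (e : ℝ), (∀ β : ℝ, 0 < β → InClass P (β • θ) (β • h) ∧
        ⨅ r, regPhi d (P.map (β • θ)) (P.map (β • h)) r = (p β : EReal)) ∧
      Tendsto (fun β => p β / β) atTop (𝓝 e) ∧
      Tendsto (fun N => graphMean d (P.map θ) (P.map h) N fun H => ⨆ σ, H σ)
        (atTop ⊓ 𝓟 {N | Even (d * N)}) (𝓝 e) := by
  have hc : ∀ β : ℝ, 0 < β → InClass P (β • θ) (β • h) := fun β hβ =>
    glass_class (J := β • J) (fun ω σ => by simp [hθ, mul_assoc]) (hJ.const_smul β)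
      (hh.const_smul β) (hJi.smul β) (hhi.smul β) (hs.imp (fun hs => by
        rw [← smul_neg]
        exact hs.comp (measurable_const_smul β)) fun hs => hs.mono fun ω hω =>
        mul_nonpos_of_nonneg_of_nonpos hβ.le hω)
  have h1 := glass_class hθ hJ hh hJi hhi hs
  have := Measure.isProbabilityMeasure_map (μ := P) h1.1.aemeasurable
  have := Measure.isProbabilityMeasure_map (μ := P) hh.aemeasurable
  have : (atTop ⊓ 𝓟 {N | Even (d * N)}).NeBot := frequently_iff_neBot.1
    (frequently_atTop.2 fun a => ⟨2 * a, by omega, (even_two_mul a).mul_left d⟩)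
  choose! p hp using fun β hβ => graph_class hd (hc β hβ)
  obtain ⟨e, he⟩ := zero_temp (g := fun N => graphMean d (P.map θ) (P.map h) N fun H => ⨆ σ, H σ)
    (fun β hβ => (hp β hβ).1) fun β hβ =>
    ((eventually_gt_atTop 0).filter_mono inf_le_left).mono fun N hN => by
      have h2 := graph_sandwich (d := d) (int_norm h1.1 h1.2.2.1) (N168.int_field hh hhi) hβ hN
      rwa [Measure.map_map (measurable_const_smul β) h1.1,
        Measure.map_map (measurable_const_smul β) hh] at h2
  exact ⟨p, e, fun β hβ => ⟨hc β hβ, (hp β hβ).2⟩, he⟩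

end Vale.Agent.N168X
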