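import Vale.Agent.N168X.Star

/-! The interpolating system with given sites. -/

set_option autoImplicit false
set_option linter.unusedSectionVars false

open MeasureTheory Finset Function Filter Sum
open scoped BigOperators Topology NNReal

namespace Vale.Agent.N168X

open N168I N168I.PT

variable {K N n r a c : ℕ}

theorem abs_int_near {Ω : Type} [MeasurableSpace Ω] {μ : Measure Ω} [IsProbabilityMeasure μ]
    {F b : Ω → ℝ} {t : ℝ} (hF : Measurable F) (hb : Integrable b μ) (h : ∀ z, |F z - t| ≤ b z) :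
    |∫ z, F z ∂μ - t| ≤ ∫ z, b z ∂μ := by
  have i1 : Integrable (fun z => F z - t) μ :=
    hb.mono' (hF.sub_const t).aestronglyMeasurable (Eventually.of_forall h)
  have i2 : Integrable F μ :=
    (i1.add (integrable_const t)).congr (Eventually.of_forall fun z => sub_add_cancel _ _)
  have e : ∫ z, F z ∂μ - t = ∫ z, (F z - t) ∂μ := by
    rw [integral_sub i2 (integrable_const _)]
    simp
  rw [e]
  exact abs_integral_le_integral_abs.trans (integral_mono i1.abs hb h)

/-- The randomness of the interpolating system, except the sites. -/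
abbrev Env (K N a c : ℕ) : Type :=
  (Fin a → Clause K × Lv K) × ((Fin c → TU.DD K) × (Fin N → ℝ))

/-- Its law. -/
noncomputable def env (ρ : Measure (Clause K)) (ν : Measure ℝ) (N a c : ℕ) :
    Measure (Env K N a c) :=
  (Measure.pi fun _ => ρ.prod (lvM K)).prod
    ((Measure.pi fun _ => TU.dd ρ).prod (Measure.pi fun _ => ν))

/-- Placing the interactions and the cavity clauses at the given sites. -/
def mkO (I : Fin a → Fin K → Fin N) (s : Fin c → Fin N) (η : Env K N a c) : Om K N a c :=
  (fun k => mkY (I k) (η.1 k), (fun k => (η.2.1 k, s k), η.2.2))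

theorem measurable_mkY (t : Fin K → Fin N) : Measurable (mkY t) :=
  (measurable_fst.prodMk measurable_const).prodMk measurable_snd

theorem measurable_mkO (I : Fin a → Fin K → Fin N) (s : Fin c → Fin N) : Measurable (mkO I s) :=
  (measurable_pi_lambda _ fun k => (measurable_mkY _).comp
    ((measurable_pi_apply k).comp measurable_fst)).prodMk
    ((measurable_pi_lambda _ fun k => ((measurable_pi_apply k).comp measurable_snd.fst).prodMk
      measurable_const).prodMk measurable_snd.snd)

/-- The interpolating free energy with given sites. -/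
noncomputable def Wd (ρ : Measure (Clause K)) (ν : Measure ℝ) (m : Fin r → ℝ)
    (x : (Fin (r + 1) → U01) → ℝ) (I : Fin a → Fin K → Fin N) (s : Fin c → Fin N) : ℝ :=
  ∫ η, FF m x (mkO I s η) ∂(env ρ ν N a c)

variable {ρ : Measure (Clause K)} {ν : Measure ℝ} [IsProbabilityMeasure ρ]
  [IsProbabilityMeasure ν] [NeZero K] [NeZero N] {m : Fin r → ℝ} {x : (Fin (r + 1) → U01) → ℝ}
  (h : N168I.InClass K ρ ν) (hx : IsTrial r m x)

instance env_prob : IsProbabilityMeasure (env ρ ν N a c) := by
  unfold env; infer_instance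

include h hx in
theorem int_FF (I : Fin a → Fin K → Fin N) (s : Fin c → Fin N) :
    Integrable (fun η => FF m x (mkO I s η)) (env ρ ν N a c) := by
  have hρ := maxTheta_int h
  have i1 := integrable_finsetSum univ fun (k : Fin a) _ =>
    integrable_comp_eval (μ := fun _ : Fin a => ρ.prod (lvM K)) (i := k) (hρ.comp_fst _)
  have i2 := integrable_finsetSum univ fun (k : Fin c) _ => TU.integrable_theta_dd hρ k
  have i3 := integrable_finsetSum univ fun (v : Fin N) _ =>
    integrable_comp_eval (μ := fun _ : Fin N => ν) (i := v) h.field_int.abs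
  exact Integrable.mono' (((i1.comp_fst _).add (((i3.comp_snd _).add (i2.comp_fst _)).comp_snd
    _)).add (integrable_const _))
    ((measurable_FF m hx.2.2.1).comp (measurable_mkO I s)).aestronglyMeasurable
    (Eventually.of_forall fun η => abs_FF_le hx (mkO I s η))

theorem envA_mp : MeasurePreserving (fun p : Env K N a c × (Clause K × Lv K) =>
    ((Fin.cons p.2 p.1.1, p.1.2) : Env K N (a + 1) c)) ((env ρ ν N a c).prod (ρ.prod (lvM K)))
    (env ρ ν N (a + 1) c) :=
  ((cons_mp (ρ.prod (lvM K)) a).prod (MeasurePreserving.id _)).comp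
    ((measurePreserving_prodAssoc _ _ _).symm.comp Measure.measurePreserving_swap)

theorem envC_mp : MeasurePreserving (fun p : Env K N a c × TU.DD K =>
    ((p.1.1, (Fin.cons p.2 p.1.2.1, p.1.2.2)) : Env K N a (c + 1)))
    ((env ρ ν N a c).prod (TU.dd ρ)) (env ρ ν N a (c + 1)) :=
  ((MeasurePreserving.id _).prod (((cons_mp (TU.dd ρ) c).prod (MeasurePreserving.id _)).comp
    ((measurePreserving_prodAssoc _ _ _).symm.comp Measure.measurePreserving_swap))).comp
    (measurePreserving_prodAssoc _ _ _)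

theorem mkO_consA (I : Fin a → Fin K → Fin N) (s : Fin c → Fin N) (t : Fin K → Fin N)
    (η : Env K N a c) (z : Clause K × Lv K) :
    mkO (Fin.cons t I) s (Fin.cons z η.1, η.2) = insA (mkO I s η, mkY t z) :=
  Prod.ext (funext fun k => Fin.cases rfl (fun _ => rfl) k) rfl

theorem mkO_consC (I : Fin a → Fin K → Fin N) (s : Fin c → Fin N) (u : Fin N)
    (η : Env K N a c) (δ : TU.DD K) :
    mkO I (Fin.cons u s) (η.1, (Fin.cons δ η.2.1, η.2.2)) = insC (mkO I s η, (δ, u)) :=
  Prod.ext rfl (Prod.ext (funext fun k => Fin.cases rfl (fun _ => rfl) k) rfl)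

include h hx in
theorem Wd_consA (I : Fin a → Fin K → Fin N) (s : Fin c → Fin N) (t : Fin K → Fin N) :
    Integrable (fun η => ∫ z, FF m x (insA (mkO I s η, mkY t z)) ∂(ρ.prod (lvM K)))
      (env ρ ν N a c) ∧ Wd ρ ν m x (Fin.cons t I) s =
      ∫ η, (∫ z, FF m x (insA (mkO I s η, mkY t z)) ∂(ρ.prod (lvM K))) ∂(env ρ ν N a c) := by
  have i1 := int_FF h hx (Fin.cons t I) s
  simp only [← mkO_consA]
  exact ⟨(envA_mp.integrable_comp_of_integrable i1).integral_prod_left, mp_prod envA_mp i1⟩

include h hx in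
theorem Wd_consC (I : Fin a → Fin K → Fin N) (s : Fin c → Fin N) (u : Fin N) :
    Integrable (fun η => ∫ δ, FF m x (insC (mkO I s η, (δ, u))) ∂(TU.dd ρ))
      (env ρ ν N a c) ∧ Wd ρ ν m x I (Fin.cons u s) =
      ∫ η, (∫ δ, FF m x (insC (mkO I s η, (δ, u))) ∂(TU.dd ρ)) ∂(env ρ ν N a c) := by
  have i1 := int_FF h hx I (Fin.cons u s)
  simp only [← mkO_consC]
  exact ⟨(envC_mp.integrable_comp_of_integrable i1).integral_prod_left, mp_prod envC_mp i1⟩

include h hx in
theorem Wd_lipA (I : Fin a → Fin K → Fin N) (s : Fin c → Fin N) (t : Fin K → Fin N) :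
    |Wd ρ ν m x (Fin.cons t I) s - Wd ρ ν m x I s| ≤ ∫ θ, maxTheta θ ∂ρ := by
  rw [(Wd_consA h hx I s t).2]
  refine abs_integral_sub_le (Wd_consA h hx I s t).1 (int_FF h hx I s) fun η => ?_
  refine (abs_int_near ((measurable_FF m hx.2.2.1).comp ((insA_mp ρ ν a c).measurable.comp
    (measurable_const.prodMk (measurable_mkY t)))) ((maxTheta_int h).comp_fst _)
    fun z => FF_insA_close hx _ _).trans (le_of_eq ?_)
  rw [integral_fun_fst]
  simp

include h hx in
theorem Wd_lipC (I : Fin a → Fin K → Fin N) (s : Fin c → Fin N) (u : Fin N) :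
    |Wd ρ ν m x I (Fin.cons u s) - Wd ρ ν m x I s| ≤ ∫ θ, maxTheta θ ∂ρ := by
  rw [(Wd_consC h hx I s u).2]
  refine abs_integral_sub_le (Wd_consC h hx I s u).1 (int_FF h hx I s) fun η => ?_
  have m1 : MeasurePreserving (fun δ : TU.DD K => δ.1.1) (TU.dd ρ) ρ :=
    measurePreserving_fst.comp measurePreserving_fst
  exact (abs_int_near ((measurable_FF m hx.2.2.1).comp ((insC_mp ρ ν a c).measurable.comp
    (measurable_const.prodMk (measurable_id.prodMk measurable_const))))
    (m1.integrable_comp_of_integrable (maxTheta_int h)) fun z => FF_insC_close hx _ _).trans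
    (mp_integral m1 (maxTheta_int h).aestronglyMeasurable).le

include h hx in
theorem Wd_step [NeZero n] (π : Fin n → Fin N) (I : Fin a → Fin K → Fin N) (s : Fin c → Fin N) :
    (𝔼 t : Fin K → Fin n, Wd ρ ν m x (Fin.cons (π ∘ t) I) s) +
      ((K : ℝ) - 1) * (Wd ρ ν m x I s + tV0 ρ r m x) ≤
      K * 𝔼 u : Fin n, Wd ρ ν m x I (Fin.cons (π u) s) := by
  have hint : ∀ {A : Type} [Fintype A] {F : A → Env K N a c → ℝ},
      (∀ i, Integrable (F i) (env ρ ν N a c)) → Integrable (fun η => 𝔼 i, F i η) (env ρ ν N a c) := by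
    intro A _ F hF
    simp only [Fintype.expect_eq_sum_div_card]
    exact (integrable_finsetSum _ fun i _ => hF i).div_const _
  have iA := fun t : Fin K → Fin n => (Wd_consA h hx I s (π ∘ t)).1
  have iC := fun u : Fin n => (Wd_consC h hx I s (π u)).1
  have i0 : Integrable (fun η => ((K : ℝ) - 1) * (FF m x (mkO I s η) + tV0 ρ r m x))
      (env ρ ν N a c) := ((int_FF h hx I s).add (integrable_const _)).const_mul _
  have h1 := integral_mono ((hint iA).add i0) ((hint iC).const_mul (K : ℝ)) fun η =>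
    step_fixed hx h π (mkO I s η)
  simp only [Pi.add_apply] at h1
  rw [integral_add (hint iA) i0, integral_const_mul, integral_const_mul, integral_expect iA,
    integral_expect iC, integral_add (int_FF h hx I s) (integrable_const _), integral_const,
    probReal_univ, one_smul] at h1
  simp only [fun t => (Wd_consA h hx I s t).2, fun u => (Wd_consC h hx I s u).2]
  exact h1

include hx in
theorem Wd_right (hρ : Integrable (fun θ : Fn K => ‖θ‖) ρ) (hν : Integrable (fun h : ℝ => h) ν)
    (I : Fin a × Fin K → Fin N) (s : Fin 0 → Fin N) :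
    Wd ρ ν m x (fun k j => I (k, j)) s = Z0 ρ ν I := by
  have m1 : MeasurePreserving (fun η : Env K N a 0 => ((fun k => (η.1 k).1, η.2.2) :
      Dis K (Fin a) (Fin N))) (env ρ ν N a 0) (dis ρ ν (Fin a) (Fin N)) :=
    (measurePreserving_pi (fun _ : Fin a => ρ.prod (lvM K)) (fun _ => ρ) (f := fun _ => Prod.fst)
      fun _ => measurePreserving_fst).prod measurePreserving_snd
  unfold Wd Z0
  rw [← mp_integral m1 (lip_int0 lz_lip (integrable_engI hρ hν I id)).aestronglyMeasurable]
  simp only [PT.FF_zero hx]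
  rfl

include h hx in
theorem Wd_left (I : Fin 0 → Fin K → Fin N) (s : Fin c → Fin N) :
    Wd ρ ν m x I s = ∑ u, TU.uC ρ ν m x (TU.cnt s u) := by
  have hm : ∀ p, 0 < m p := fun p => (hx.2.1 p).1
  have m1 : ∀ u, MeasurePreserving (fun η : Env K N 0 c =>
      ((fun i => η.2.1 (TU.enm s u i), η.2.2 u) : (Fin (TU.cnt s u) → TU.DD K) × ℝ))
      (env ρ ν N 0 c) ((Measure.pi fun _ => TU.dd ρ).prod ν) := fun u =>
    ((TU.mp_inj (TU.dd ρ) (TU.enm_inj s u)).prod
      (measurePreserving_eval (fun _ : Fin N => ν) u)).comp measurePreserving_snd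
  have i1 := TU.integrable_GS (maxTheta_int h) h.field_int hm hx.2.2.1 hx.2.2.2
  unfold Wd
  simp only [TU.FF_zero hm hx.2.2.1 hx.2.2.2]
  exact (integral_finsetSum (f := fun u (η : Env K N 0 c) =>
    TU.GS m x (fun i => η.2.1 (TU.enm s u i)) (η.2.2 u)) _ fun u _ =>
    (m1 u).integrable_comp_of_integrable (i1 _)).trans
    (sum_congr rfl fun u _ => mp_integral (m1 u) (i1 _).aestronglyMeasurable)

end Vale.Agent.N168X
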