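import Vale.Agent.N168X.Upper

/-! The limit of the pressure on the Bethe lattice, and the pressure of the problem. -/

set_option autoImplicit false
set_option linter.unusedSectionVars false

open MeasureTheory ProbabilityTheory Finset Function Filter Sum
open scoped BigOperators Topology NNReal

namespace Vale.Agent.N168X

open N168I N168I.PT

variable {K d : ℕ} {ρ : Measure (Fn K)} [IsProbabilityMeasure ρ] {ν : Measure ℝ}
  [IsProbabilityMeasure ν] (hρ : Integrable (fun θ : Fn K => ‖θ‖) ρ)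
  (hν : Integrable (fun h : ℝ => h) ν)

theorem regPhi_le {r : ℕ} {m : Fin r → ℝ} {x : (Fin (r + 1) → U01) → ℝ} (hx : IsTrial r m x) :
    ⨅ r, regPhi d ρ ν r ≤ ((tU ρ ν m x d - d * (K - 1) / K * tV ρ m x 1 : ℝ) : EReal) :=
  (iInf_le _ r).trans ((iInf_le _ m).trans ((iInf_le _ x).trans (iInf_le _ hx)))

include hρ hν in
theorem reg_lower [NeZero K] (hd : 1 ≤ d) :
    ⨅ r, regPhi d ρ ν r ≤ liminf (fun N => ((regPressure d ρ ν N : ℝ) : EReal)) atTop := by
  refine EReal.ge_of_forall_gt_iff_ge.1 fun z hz => ?_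
  obtain ⟨z', h1, h2⟩ := EReal.lt_iff_exists_real_btwn.1 hz
  have h3 := lower hρ hν hd (M0 := z') (fun r m x hx =>
    EReal.coe_le_coe_iff.1 (h2.le.trans (regPhi_le hx))) (sub_pos.2 (EReal.coe_lt_coe_iff.1 h1))
  refine le_liminf_of_le (by isBoundedDefault) (h3.mono fun N hN => EReal.coe_le_coe_iff.2 ?_)
  linarith

include hρ in
theorem reg_formula [NeZero K] (h : N168I.InClass K ρ ν) (hd : 1 ≤ d) :
    ∃ L : ℝ, Tendsto (regPressure d ρ ν) atTop (𝓝 L) ∧ ⨅ r, regPhi d ρ ν r = (L : EReal) := by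
  have hν := h.field_int
  let S : Set ℝ := {s | ∃ (r : ℕ) (m : Fin r → ℝ) (x : (Fin (r + 1) → U01) → ℝ), IsTrial r m x ∧
    s = tU ρ ν m x d - d * (K - 1) / K * tV ρ m x 1}
  have hne : S.Nonempty := ⟨_, 0, Fin.elim0, fun _ => 0, ⟨fun i => i.elim0, fun i => i.elim0,
    measurable_const, fun _ => by constructor <;> norm_num⟩, rfl⟩
  have hbd : BddBelow S := by
    refine ⟨-cost ρ ν d 1 - 1, ?_⟩
    rintro s ⟨r, m, x, hx, rfl⟩
    obtain ⟨N, h1, h2⟩ := ((upper h hx hρ hd one_pos).and (eventually_ge_atTop 1)).exists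
    have h3 := E0_ge hρ hν (d := d) (a := d * N / K) (N := N)
      (by rw [mul_comm N]; exact Nat.div_mul_le_self _ _)
    have h4 := cost_mono (ρ := ρ) (ν := ν) (Nat.div_le_self (d * N) K) (le_refl N)
    have h5 : cost ρ ν (d * N) N = cost ρ ν d 1 * N := by unfold cost; push_cast; ring
    have hN : (0 : ℝ) < N := by exact_mod_cast h2
    have h6 : -cost ρ ν d 1 ≤ regPressure d ρ ν N := by
      rw [regPressure_eq hρ hν, one_div_mul_eq_div, le_div_iff₀ hN]
      linarith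
    linarith
  have hL : ∀ (r : ℕ) (m : Fin r → ℝ) (x : (Fin (r + 1) → U01) → ℝ), IsTrial r m x →
      sInf S ≤ tU ρ ν m x d - d * (K - 1) / K * tV ρ m x 1 := fun r m x hx =>
    csInf_le hbd ⟨r, m, x, hx, rfl⟩
  refine ⟨sInf S, Metric.tendsto_nhds.2 fun ε hε => ?_, le_antisymm ?_ ?_⟩
  · obtain ⟨s, ⟨r, m, x, hx, rfl⟩, hs⟩ := exists_lt_of_csInf_lt hne (lt_add_of_pos_right _
      (half_pos hε))
    filter_upwards [lower hρ hν hd hL (half_pos hε), upper h hx hρ hd (half_pos hε)] with N h1 h2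
    rw [Real.dist_eq, abs_lt]
    constructor <;> linarith
  · refine EReal.le_of_forall_lt_iff_le.1 fun z hz => ?_
    obtain ⟨s, ⟨r, m, x, hx, rfl⟩, hs⟩ := exists_lt_of_csInf_lt hne (EReal.coe_lt_coe_iff.1 hz)
    exact (regPhi_le hx).trans (EReal.coe_le_coe_iff.2 hs.le)
  · exact le_iInf fun r => le_iInf fun m => le_iInf fun x => le_iInf fun hx =>
      EReal.coe_le_coe_iff.2 (hL r m x hx)

include hρ hν in
theorem pressure_eq (lam : ℝ≥0) : pressure lam ρ ν = N168.pressure lam ρ ν := by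
  funext N
  unfold pressure N168.pressure
  rcases Nat.eq_zero_or_pos N with rfl | hN
  · simp
  have : NeZero N := ⟨hN.ne'⟩
  congr 2
  funext M
  have m1 : MeasurePreserving (fun p : (Fin M → Fin K → Fin N) × (Fin M → Fn K) =>
      fun k => (p.2 k, p.1 k)) ((Measure.pi fun _ => KS.unifK K N).prod (Measure.pi fun _ => ρ))
      (Measure.pi fun _ => ρ.prod (KS.unifK K N)) :=
    (measurePreserving_arrowProdEquivProdArrow (Fn K) (Fin K → Fin N) (Fin M) (fun _ => ρ)
      fun _ => KS.unifK K N).symm.comp Measure.measurePreserving_swap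
  have i1 := (Cc.integrable_X (K := K) (N := N) (M := M) (int_maxTheta hρ) hν).integral_prod_left
  refine Eq.trans ?_ (mp_prod m1 i1).symm
  refine Eq.trans ?_ (integral_unifK_pi fun I => meanLogZ ρ ν fun k j => I (k, j)).symm
  rw [integral_pi_unif_eq]
  exact (Fintype.expect_equiv (Equiv.curry _ _ _) _ _ fun _ => rfl).symm

section rv

variable {Ω : Type} [MeasurableSpace Ω] {P : Measure Ω} [IsProbabilityMeasure P] {θ : Ω → Fn K}
  {h : Ω → ℝ}

theorem int_norm (hθ : Measurable θ) (hθi : Integrable θ P) :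
    Integrable (fun θ : Fn K => ‖θ‖) (P.map θ) :=
  (integrable_map_measure measurable_norm.aestronglyMeasurable hθ.aemeasurable).2 hθi.norm

theorem question (lam : ℝ≥0) (hK : 2 ≤ K) (he : Even K) (hc : InClass P θ h) :
    ∃ L : ℝ, Tendsto (pressure lam (P.map θ) (P.map h)) atTop (𝓝 L) ∧
      ⨅ r, phi lam (P.map θ) (P.map h) r = (L : EReal) := by
  obtain ⟨hθ, hh, hθi, hhi, a, b, f, hb, hf, hae, hpos, hind, hid, hbf⟩ := hc
  have := Measure.isProbabilityMeasure_map (μ := P) hθ.aemeasurable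
  have := Measure.isProbabilityMeasure_map (μ := P) hh.aemeasurable
  rw [pressure_eq (int_norm hθ hθi) (N168.int_field hh hhi)]
  exact N168.question hK he lam hθ hh hb hf hae hpos hind hid hbf hθi hhi

theorem reg_rv (hK : 1 ≤ K) (hd : 1 ≤ d) (hθ : Measurable θ) (hh : Measurable h)
    (hθi : Integrable θ P) (hhi : Integrable h P) :
    ⨅ r, regPhi d (P.map θ) (P.map h) r ≤
      liminf (fun N => (regPressure d (P.map θ) (P.map h) N : EReal)) atTop ∧
    ∀ (a : Ω → ℝ) (ψ : Ω → Fn K), Measurable ψ →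
      (∀ᵐ ω ∂P, 0 < a ω ∧ ∀ σ, |ψ ω σ| < 1 ∧ Real.exp (θ ω σ) = a ω * (1 - ψ ω σ)) →
      ReplicaConvex P ψ → ∃ L : ℝ, Tendsto (regPressure d (P.map θ) (P.map h)) atTop (𝓝 L) ∧
        ⨅ r, regPhi d (P.map θ) (P.map h) r = (L : EReal) := by
  have := Measure.isProbabilityMeasure_map (μ := P) hθ.aemeasurable
  have := Measure.isProbabilityMeasure_map (μ := P) hh.aemeasurable
  have : NeZero K := ⟨by omega⟩
  exact ⟨reg_lower (int_norm hθ hθi) (N168.int_field hh hhi) hd, fun a ψ hψ hae hc =>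
    reg_formula (int_norm hθ hθi) (N168.inClass hK hθ hψ (fun σ => N168.int_eval hθi σ)
      (N168.int_field hh hhi) hae hc) hd⟩

theorem reg_class (hK : 2 ≤ K) (he : Even K) (hd : 1 ≤ d) (hc : InClass P θ h) :
    ∃ L : ℝ, Tendsto (regPressure d (P.map θ) (P.map h)) atTop (𝓝 L) ∧
      ⨅ r, regPhi d (P.map θ) (P.map h) r = (L : EReal) := by
  obtain ⟨hθ, hh, hθi, hhi, a, b, f, hb, hf, hae, hpos, hind, hid, hbf⟩ := hc
  refine (reg_rv (one_le_two.trans hK) hd hθ hh hθi hhi).2 a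
    (fun ω σ => -b ω * ∏ j, f j ω (σ j)) (measurable_pi_lambda _ fun σ => hb.neg.mul
      (Finset.measurable_fun_prod _ fun j _ => (measurable_pi_apply (σ j)).comp (hf j)))
    (hae.mono fun ω hω => ⟨hω.1, fun σ => ⟨?_, by rw [hω.2.2.2 σ]; ring⟩⟩)
    (N168.product_convex he hb hf hpos hind hid hbf)
  rw [abs_mul, abs_neg]
  exact mul_lt_one_of_nonneg_of_lt_one_left (abs_nonneg _) hω.2.1
    (abs_prod_le_one _ fun j _ => hω.2.2.1 j _)

end rv

end Vale.Agent.N168X
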