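import Vale.Agent.N168X.Trial

/-! The lower bound on the Bethe lattice. -/

set_option autoImplicit false
set_option linter.unusedSectionVars false

open MeasureTheory Finset Function Filter Sum
open scoped BigOperators Topology NNReal

namespace Vale.Agent.N168X

open N168I N168I.MP

variable {K d : ℕ} {ρ : Measure (Fn K)} [IsProbabilityMeasure ρ] {ν : Measure ℝ}
  [IsProbabilityMeasure ν] (hρ : Integrable (fun θ : Fn K => ‖θ‖) ρ)
  (hν : Integrable (fun h : ℝ => h) ν)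

theorem cost_mono {a b a' b' : ℕ} (ha : a ≤ a') (hb : b ≤ b') : cost ρ ν a b ≤ cost ρ ν a' b' := by
  have h1 : 0 ≤ ∫ θ, ‖θ‖ ∂ρ := integral_nonneg fun _ => norm_nonneg _
  have h2 : 0 ≤ ∫ h, |h| ∂ν := integral_nonneg fun _ => abs_nonneg _
  have h3 : 0 ≤ Real.log 2 := Real.log_nonneg one_le_two
  unfold cost
  gcongr

include hρ hν in
theorem E0_ext {a M N : ℕ} (h1 : a ≤ M) (h2 : M * K ≤ N * d) :
    |E0 d ρ ν (Fin M) (Fin N) - E0 d ρ ν (Fin a) (Fin N)| ≤ cost ρ ν (M - a) 0 := by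
  have hc : Fintype.card ((Fin M × Fin K) ⊕ Fin (N * d - M * K)) =
      Fintype.card (Fin N × Fin d) := by
    simp only [Fintype.card_sum, Fintype.card_prod, Fintype.card_fin]; omega
  have : Nonempty (_ ≃ _) := ⟨Fintype.equivOfCardEq hc⟩
  have e : Fin a ⊕ Fin (M - a) ≃ Fin M := Fintype.equivOfCardEq (by
    simp only [Fintype.card_sum, Fintype.card_fin]; omega)
  rw [E0_eq hc inl inl_injective, E0_eq hc (fun p : Fin a × Fin K => inl (e (inl p.1), p.2))
    fun p p' h => by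
      simp only [inl.injEq, Prod.mk.injEq, EmbeddingLike.apply_eq_iff_eq] at h
      exact Prod.ext h.1 h.2]
  refine abs_expect_sub_le fun b => ?_
  refine (Z0_ext hρ hν e (Equiv.sumEmpty (Fin N) Empty) _ _ fun k j => rfl).trans (le_of_eq ?_)
  simp [cost]

include hρ hν in
theorem E0_ge {a N : ℕ} (h : a * K ≤ N * d) : -cost ρ ν a N ≤ E0 d ρ ν (Fin a) (Fin N) := by
  have : Nonempty (Fin a × Fin K ↪ Fin N × Fin d) :=
    Function.Embedding.nonempty_of_card_le (by simpa using h)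
  refine le_expect univ_nonempty fun e _ => ?_
  have h1 := (abs_le.1 (abs_Z0_le hρ hν fun p => (e p).1)).1
  simpa [cost] using h1

include hρ hν in
theorem regPressure_eq (N : ℕ) :
    regPressure d ρ ν N = 1 / (N : ℝ) * E0 d ρ ν (Fin (d * N / K)) (Fin N) := by
  unfold regPressure E0
  congr 1
  exact expect_congr rfl fun e _ => meanLogZ_eq hρ hν fun p => (e p).1

variable [NeZero K]

include hρ hν in
theorem exists_step (hd : 1 ≤ d) {M0 : ℝ}
    (hM0 : ∀ (r : ℕ) (m : Fin r → ℝ) (x : (Fin (r + 1) → U01) → ℝ), IsTrial r m x →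
      M0 ≤ tU ρ ν m x d - d * (K - 1) / K * tV ρ m x 1) {ε : ℝ} (hε : 0 < ε) :
    ∃ (G : CavFun) (D : ℝ), 0 ≤ D ∧ ∀ N a n : ℕ, a * K + n = N * d → (K - 1) * d ≤ a → 1 ≤ n →
      AA d ρ ν G (Fin a) (Fin N) (Fin n) + (K * M0 - 6 * ε - D / n - D * (1 + n) / (a + d : ℕ)) ≤
        AA d ρ ν G (Fin (a + d)) (Fin (N + K)) (Fin n) := by
  have hK := NeZero.pos K
  set L := (K - 1) * d with hL
  obtain ⟨f⟩ : Nonempty (Fin L × Fin K ↪ Fin K × (Fin d × Fin K)) :=
    Function.Embedding.nonempty_of_card_le (by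
      simp only [Fintype.card_prod, Fintype.card_fin, ← mul_assoc]
      exact Nat.mul_le_mul_right _ (Nat.mul_le_mul_right _ (Nat.sub_le _ _)))
  obtain ⟨G, hG⟩ := exists_compare hρ hν f f.injective hM0 hε
  have hKL : K * d = L + d := by
    obtain ⟨k, rfl⟩ : ∃ k, K = k + 1 := ⟨K - 1, by omega⟩
    simp [hL, add_mul]
  have hc0 := G.c0_nonneg
  have hc1 := G.c1_nonneg
  set cU := cost ρ ν (K * d) K with hcU
  set cV := cost ρ ν L 0 with hcV
  have hU0 : 0 ≤ cU := cost_nonneg _ _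
  have hV0 : 0 ≤ cV := cost_nonneg _ _
  set DU : ℝ := 2 * cU * ((K * d * K : ℕ) : ℝ) ^ 2 + G.c1 * (L * K : ℕ) with hDU
  set DV : ℝ := 2 * cV * ((L * K : ℕ) : ℝ) ^ 2 + G.c1 * (L * K : ℕ) with hDV
  set k : ℝ := ((K * d : ℕ) : ℝ) with hk
  have hDU0 : 0 ≤ DU := by positivity
  have hDV0 : 0 ≤ DV := by positivity
  have hk0 : 0 ≤ k := by positivity
  refine ⟨G, DU + DV + 2 * (G.c0 + cU + DU) * (k ^ 2 + k), by positivity,
    fun N a n h1 h2 h3 => ?_⟩
  obtain ⟨a0, rfl⟩ : ∃ a0, a = a0 + L := ⟨a - L, by omega⟩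
  have : NeZero n := ⟨by omega⟩
  have : NeZero (n + L * K) := ⟨by omega⟩
  have : NeZero (a0 + L + d) := ⟨by omega⟩
  have hc : Fintype.card ((Fin a0 × Fin K) ⊕ Fin (n + L * K)) = Fintype.card (Fin N × Fin d) := by
    simp only [Fintype.card_sum, Fintype.card_prod, Fintype.card_fin]
    rw [← h1]; ring
  have z : (Fin L × Fin K) ⊕ Fin n ≃ Fin (n + L * K) := Fintype.equivOfCardEq (by
    simp only [Fintype.card_sum, Fintype.card_prod, Fintype.card_fin]; omega)
  have a1 := (abs_le.1 (stepV hρ hν G hc finSumFinEquiv z f f.injective)).1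
  have a2 := stepU hρ hν G (κ' := Fin (a0 + L + d)) (C' := Fin n) hc (by
      simp only [Fintype.card_sum, Fintype.card_prod, Fintype.card_fin]
      rw [← h1, add_mul (a0 + L) d K, mul_comm d K]; ring) (by simp)
    (by simp only [Fintype.card_sum, Fintype.card_prod, Fintype.card_fin]; omega)
    finSumFinEquiv (Equiv.prodAssoc (Fin K) (Fin d) (Fin K)) (Equiv.injective _) rfl rfl
  have a3 := hG a0 N (n + L * K) hc
  simp only [errA, Fintype.card_prod, Fintype.card_fin, ← hcU, ← hcV, ← hk] at a1 a2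
  have hn : (1 : ℝ) ≤ n := by exact_mod_cast h3
  have hnn : (n : ℝ) ≤ (n + L * K : ℕ) := by exact_mod_cast Nat.le_add_right _ _
  have e1 : (((n + L * K : ℕ) : ℝ) - n) = (L * K : ℕ) := by push_cast; ring
  rw [e1] at a1 a2
  have b1 : ∀ c t : ℝ, 0 ≤ c → 2 * c * (t ^ 2 / (n + L * K : ℕ)) +
      G.c1 * ((L * K : ℕ) / (n + L * K : ℕ)) ≤ (2 * c * t ^ 2 + G.c1 * (L * K : ℕ)) / n := by
    intro c t hc
    rw [← mul_div_assoc, ← mul_div_assoc, ← add_div]
    exact div_le_div_of_nonneg_left (by positivity) (by linarith) hnn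
  have b2 := b1 cU (K * d * K : ℕ) hU0
  have b3 := b1 cV (L * K : ℕ) hV0
  rw [← hDU] at b2
  rw [← hDV] at b3
  have b4 : DU / n ≤ DU := div_le_self hDU0 hn
  have ha : (0 : ℝ) < (a0 + L + d : ℕ) := by exact_mod_cast NeZero.pos _
  have b5 : k ^ 2 / (a0 + L + d : ℕ) + k * (n / ((a0 + L + d) * K + n : ℕ)) ≤
      (k ^ 2 + k) * (1 + n) / (a0 + L + d : ℕ) := by
    have : (n : ℝ) / ((a0 + L + d) * K + n : ℕ) ≤ n / (a0 + L + d : ℕ) :=
      div_le_div_of_nonneg_left (by linarith) ha (by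
        exact_mod_cast (Nat.le_mul_of_pos_right _ hK).trans (Nat.le_add_right _ _))
    refine (add_le_add le_rfl (mul_le_mul_of_nonneg_left this hk0)).trans ?_
    rw [← mul_div_assoc, ← add_div]
    refine div_le_div_of_nonneg_right ?_ ha.le
    nlinarith [sq_nonneg k]
  have b6 := mul_le_mul (mul_le_mul_of_nonneg_left (add_le_add (le_refl (G.c0 + cU))
    (b2.trans b4)) zero_le_two) b5 (by positivity) (by positivity)
  have b7 : 0 ≤ 2 * (G.c0 + cU + DU) * (k ^ 2 + k) / n := by positivity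
  have b8 : 0 ≤ (DU + DV) * (1 + n) / (a0 + L + d : ℕ) := by positivity
  have e2 : (DU + DV + 2 * (G.c0 + cU + DU) * (k ^ 2 + k)) / n =
      DU / n + DV / n + 2 * (G.c0 + cU + DU) * (k ^ 2 + k) / n := by ring
  have e3 : (DU + DV + 2 * (G.c0 + cU + DU) * (k ^ 2 + k)) * (1 + n) / (a0 + L + d : ℕ) =
      (DU + DV) * (1 + n) / (a0 + L + d : ℕ) +
        2 * (G.c0 + cU + DU) * ((k ^ 2 + k) * (1 + n) / (a0 + L + d : ℕ)) := by ring
  rw [e2, e3]
  linarith

include hρ hν in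
/-- The lower bound on the Bethe lattice. -/
theorem lower (hd : 1 ≤ d) {M0 : ℝ}
    (hM0 : ∀ (r : ℕ) (m : Fin r → ℝ) (x : (Fin (r + 1) → U01) → ℝ), IsTrial r m x →
      M0 ≤ tU ρ ν m x d - d * (K - 1) / K * tV ρ m x 1) {ε : ℝ} (hε : 0 < ε) :
    ∀ᶠ N in atTop, M0 - ε ≤ regPressure d ρ ν N := by
  have hK := NeZero.pos K
  obtain ⟨G, D, hD, hs⟩ := exists_step hρ hν hd hM0 (ε := ε / 9) (by positivity)
  obtain ⟨n1, hn1⟩ := exists_nat_gt (D / (ε / 9))
  have hn0 : (0 : ℝ) < n1 := lt_of_le_of_lt (by positivity) hn1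
  obtain ⟨a1, ha1⟩ := exists_nat_gt (D * (1 + (n1 + K)) / (ε / 9) + ((K - 1) * d : ℕ))
  have hq : 0 ≤ D * (1 + (n1 + K)) / (ε / 9) := by positivity
  have ha0 : (0 : ℝ) < a1 := lt_of_le_of_lt (by positivity) ha1
  have haL : (K - 1) * d ≤ a1 := by
    have : (((K - 1) * d : ℕ) : ℝ) ≤ a1 := by linarith
    exact_mod_cast this
  have hit : ∀ N a n : ℕ, a * K + n = N * d → a1 ≤ a → n1 ≤ n → n ≤ n1 + K → ∀ j : ℕ,
      AA d ρ ν G (Fin a) (Fin N) (Fin n) + j * (K * M0 - 8 * (ε / 9)) ≤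
        AA d ρ ν G (Fin (a + j * d)) (Fin (N + j * K)) (Fin n) := by
    intro N a n h1 h2 h3 h4 j
    have h3' : (n1 : ℝ) ≤ n := by exact_mod_cast h3
    have h4' : (n : ℝ) ≤ n1 + K := by exact_mod_cast h4
    induction j with
    | zero => rw [zero_mul, zero_mul]; simp
    | succ j ih =>
      have h5 := hs (N + j * K) (a + j * d) n (by rw [add_mul, add_mul, ← h1]; ring) (by omega)
        (by have : 0 < n1 := by exact_mod_cast hn0
            omega)
      have h6 : D / n ≤ ε / 9 := by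
        rw [div_lt_iff₀ (by positivity)] at hn1
        rw [div_le_iff₀ (by linarith)]
        nlinarith
      have h7 : D * (1 + n) / (a + j * d + d : ℕ) ≤ ε / 9 := by
        have h8 : (a1 : ℝ) ≤ (a + j * d + d : ℕ) := by exact_mod_cast (by omega)
        have h9 : D * (1 + (n1 + K)) / (ε / 9) ≤ a1 := by
          linarith [Nat.cast_nonneg (α := ℝ) ((K - 1) * d)]
        rw [div_le_iff₀ (by positivity)] at h9
        rw [div_le_iff₀ (by linarith)]
        nlinarith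
      rw [add_one_mul, add_one_mul, ← add_assoc, ← add_assoc]
      push_cast at h5 h7 ⊢
      linarith
  set N1 := K * a1 + n1 with hN1
  set B : ℝ := 2 * G.c0 + cost ρ ν (n1 + K) 0 + cost ρ ν ((N1 + K) * d) (N1 + K) +
    |M0| * (N1 + K : ℕ) with hB
  obtain ⟨N2, hN2⟩ := exists_nat_gt (B / (ε / 9))
  filter_upwards [eventually_ge_atTop (N1 + N2 + 1)] with N hN
  obtain ⟨N0, j, rfl, h1, h2⟩ : ∃ N0 j, N = N0 + j * K ∧ N1 ≤ N0 ∧ N0 ≤ N1 + K :=
    ⟨N1 + (N - N1) % K, (N - N1) / K, by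
      have := Nat.mod_add_div' (N - N1) K; omega, by omega,
      Nat.add_le_add_left (Nat.mod_lt _ hK).le _⟩
  have h3 : N0 ≤ N0 * d := Nat.le_mul_of_pos_right _ hd
  obtain ⟨a, n, h4, h5, h6, h7⟩ : ∃ a n, a * K + n = N0 * d ∧ a1 ≤ a ∧ n1 ≤ n ∧ n ≤ n1 + K :=
    ⟨(N0 * d - n1) / K, n1 + (N0 * d - n1) % K, by
      have := Nat.mod_add_div' (N0 * d - n1) K; omega,
      (Nat.le_div_iff_mul_le hK).2 (by rw [mul_comm]; omega), by omega,
      Nat.add_le_add_left (Nat.mod_lt _ hK).le _⟩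
  have : NeZero n := ⟨by have : 0 < n1 := by exact_mod_cast hn0
                         omega⟩
  have h8 : (a + j * d) * K + n = (N0 + j * K) * d := by rw [add_mul, add_mul, ← h4]; ring
  have c1 := hit N0 a n h4 h5 h6 h7 j
  have c2 := (abs_le.1 (AA_near hρ hν G (d := d) (κ := Fin a) (V := Fin N0) (C := Fin n)
    (by simpa using h4))).1
  have c3 := (abs_le.1 (AA_near hρ hν G (d := d) (κ := Fin (a + j * d)) (V := Fin (N0 + j * K))
    (C := Fin n) (by simpa using h8))).2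
  have c4 := E0_ge hρ hν (d := d) (a := a) (N := N0) (by omega)
  have c5 := cost_mono (ρ := ρ) (ν := ν) (a := a) (a' := (N1 + K) * d) (((Nat.le_mul_of_pos_right
    _ hK).trans (by omega)).trans (Nat.mul_le_mul_right d h2)) h2
  have h9 : a + j * d ≤ d * (N0 + j * K) / K :=
    (Nat.le_div_iff_mul_le hK).2 (by rw [mul_comm d]; omega)
  have h10 : d * (N0 + j * K) / K * K ≤ (N0 + j * K) * d := by
    rw [mul_comm _ d]; exact Nat.div_mul_le_self _ _
  have c6 := (abs_le.1 (E0_ext hρ hν h9 h10)).1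
  have c7 := cost_mono (ρ := ρ) (ν := ν) (a := d * (N0 + j * K) / K - (a + j * d))
    (a' := n1 + K) (by
      have := Nat.le_mul_of_pos_right (d * (N0 + j * K) / K - (a + j * d)) hK
      rw [Nat.sub_mul] at this
      omega) (le_refl 0)
  have hNp : (0 : ℝ) < (N0 + j * K : ℕ) := by exact_mod_cast (by omega)
  have hN' : (N2 : ℝ) ≤ (N0 + j * K : ℕ) := by exact_mod_cast (by omega)
  have h2' : (N0 : ℝ) ≤ (N1 + K : ℕ) := by exact_mod_cast h2
  have hj : (j : ℝ) ≤ (N0 + j * K : ℕ) := by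
    exact_mod_cast (Nat.le_mul_of_pos_right _ hK).trans (Nat.le_add_left _ _)
  rw [div_lt_iff₀ (by positivity)] at hN2
  rw [regPressure_eq hρ hν, one_div_mul_eq_div, le_div_iff₀ hNp]
  have c8 : M0 * N0 ≤ |M0| * (N1 + K : ℕ) :=
    mul_le_mul (le_abs_self _) h2' (Nat.cast_nonneg _) (abs_nonneg _)
  have c9 := mul_le_mul_of_nonneg_left hj (show 0 ≤ ε / 9 by positivity)
  have c10 := mul_le_mul_of_nonneg_left hN' (show 0 ≤ ε / 9 by positivity)
  have e : M0 * (N0 + j * K : ℕ) = M0 * N0 + j * (K * M0) := by push_cast; ring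
  nlinarith

end Vale.Agent.N168X
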