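import Vale.Agent.N168X.Step

/-! Adding interactions, and adding sites with their interactions. -/

set_option autoImplicit false
set_option linter.unusedSectionVars false

open MeasureTheory Finset Function Filter Sum
open scoped BigOperators Topology NNReal

namespace Vale.Agent.N168X

open N168I N168I.MP

variable {K d : ℕ} {ρ : Measure (Fn K)} [IsProbabilityMeasure ρ] {ν : Measure ℝ}
  [IsProbabilityMeasure ν] (hρ : Integrable (fun θ : Fn K => ‖θ‖) ρ)
  (hν : Integrable (fun h : ℝ => h) ν) (G : CavFun)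
  {κ κ1 κ' V V1 V' C C' X J : Type} [Fintype κ] [DecidableEq κ] [Fintype κ1] [DecidableEq κ1]
  [Fintype κ'] [DecidableEq κ'] [Fintype V] [DecidableEq V] [Fintype V1] [DecidableEq V1]
  [Fintype V'] [DecidableEq V'] [Fintype C] [DecidableEq C] [Fintype C'] [DecidableEq C']
  [Fintype X] [DecidableEq X] [Fintype J] [DecidableEq J]

include hρ hν in
/-- Adding interactions. -/
theorem stepV [Nonempty C'] (hc : Fintype.card ((κ × Fin K) ⊕ C) = Fintype.card (V × Fin d))
    (e : κ ⊕ κ1 ≃ κ') (z : (κ1 × Fin K) ⊕ C' ≃ C) (f : κ1 × Fin K → J) (hf : Injective f) :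
    |XA d ρ ν G κ V C (inl : κ1 × Fin K → (κ1 × Fin K) ⊕ Empty) f - AA d ρ ν G κ' V C'| ≤
      2 * cost ρ ν (Fintype.card κ1) 0 *
        ((Fintype.card (κ1 × Fin K) : ℝ) ^ 2 / Fintype.card C) +
      G.c1 * (((Fintype.card C : ℝ) - Fintype.card C') / Fintype.card C) := by
  let y : (κ' × Fin K) ⊕ C' ≃ (κ × Fin K) ⊕ C :=
    ((((e.symm.prodCongr (Equiv.refl _)).trans (Equiv.sumProdDistrib κ κ1 (Fin K))).sumCongr
      (Equiv.refl C')).trans (Equiv.sumAssoc _ _ _)).trans ((Equiv.refl _).sumCongr z)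
  have h := attach hρ hν G hc e (Equiv.sumEmpty V Empty) inl (fun x => z (inl x))
    (z.injective.comp inl_injective) (fun c => z (inr c)) (z.injective.comp inr_injective) f hf
    (fun w x => w (y x)) (fun w k j => by simp [y]) (fun w k j => by simp [y])
    (fun w c => by simp [y])
  unfold AA
  rw [expect_trans_left y]
  exact h

/-- The positions which are not taken by the new sites. -/
abbrev XS {N : Type} (l : N → Fin K) : Type := {p : N × Fin K // p.2 ≠ l p.1}

/-- The structure of the new part. -/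
def stU (l : V1 × Fin d → Fin K) (p : (V1 × Fin d) × Fin K) : XS l ⊕ V1 :=
  if h : p.2 = l p.1 then inr p.1.1 else inl ⟨p, h⟩

theorem pat_setup {S' N H : Type} [Fintype S'] [DecidableEq S'] [Fintype N] [DecidableEq N]
    [Fintype H] [DecidableEq H] (hc : Fintype.card (X ⊕ C) = Fintype.card H) (b : S' ≃ H ⊕ N)
    (r : X → S') (hr : Injective r) (hav : ∀ x u, b (r x) ≠ inr u) :
    ∃ q : S' ≃ (X ⊕ C) ⊕ N, (∀ x, q (r x) = inl (inl x)) ∧ (∀ x u, b x = inr u → q x = inr u) ∧
      ∀ Φ : (S' → H ⊕ N) → ℝ, 𝔼 y : H ≃ H, Φ (fun x => Sum.map y id (b x)) =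
        𝔼 b1 : X ⊕ C ≃ H, Φ fun x => Sum.map b1 id (q x) := by
  have h1 : ∀ x, ∃ a, b (r x) = inl a := fun x => by
    rcases hb : b (r x) with a | u
    · exact ⟨a, rfl⟩
    · exact absurd hb (hav x u)
  choose β hβ using h1
  have hβi : Injective β := fun x x' h => hr (b.injective (by rw [hβ, hβ, h]))
  obtain ⟨y0, hy0⟩ := ext_equiv hc inl β inl_injective hβi
  refine ⟨b.trans (y0.symm.sumCongr (Equiv.refl N)), fun x => ?_, fun x u h => ?_, fun Φ => ?_⟩
  · simp [hβ, ← hy0]
  · simp [h]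
  · rw [expect_trans_left y0.symm]
    refine expect_congr rfl fun b1 _ => ?_
    congr 1
    funext x
    simp only [Equiv.trans_apply, Equiv.sumCongr_apply]
    cases b x <;> rfl

variable (ρ ν) in
/-- The conditional mean given the half-edges of the new sites. -/
noncomputable def Wb (υ : V ⊕ V1 ≃ V') (b : (κ' × Fin K) ⊕ C' ≃ (V × Fin d) ⊕ (V1 × Fin d)) : ℝ :=
  𝔼 y : V × Fin d ≃ V × Fin d,
    Gam ρ ν G (fun p => υ (Sum.map Prod.fst Prod.fst (Sum.map y id (b (inl p)))))
      fun c => υ (Sum.map Prod.fst Prod.fst (Sum.map y id (b (inr c))))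

theorem AA_eq (υ : V ⊕ V1 ≃ V') : AA d ρ ν G κ' V' C' =
    𝔼 b : (κ' × Fin K) ⊕ C' ≃ (V × Fin d) ⊕ (V1 × Fin d), Wb ρ ν G υ b := by
  unfold AA Wb
  rw [expect_trans_right ((Equiv.sumProdDistrib V V1 (Fin d)).symm.trans
    (υ.prodCongr (Equiv.refl _))),
    expect_sym_right fun y : V × Fin d ≃ V × Fin d => y.sumCongr (Equiv.refl (V1 × Fin d))]
  have e : ∀ a : (V × Fin d) ⊕ (V1 × Fin d), (((Equiv.sumProdDistrib V V1 (Fin d)).symm.trans
      (υ.prodCongr (Equiv.refl _))) a).1 = υ (Sum.map Prod.fst Prod.fst a) := fun a => by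
    cases a <;> rfl
  simp only [Equiv.trans_apply] at e ⊢
  simp only [e]
  rfl

include hρ hν in
theorem Wb_any [Nonempty C'] (hc : Fintype.card ((κ × Fin K) ⊕ C) = Fintype.card (V × Fin d))
    (hκ : Fintype.card (κ ⊕ (V1 × Fin d)) = Fintype.card κ') (υ : V ⊕ V1 ≃ V')
    (b : (κ' × Fin K) ⊕ C' ≃ (V × Fin d) ⊕ (V1 × Fin d)) :
    E0 d ρ ν κ V - (G.c0 + cost ρ ν (Fintype.card (V1 × Fin d)) (Fintype.card V1)) ≤
      Wb ρ ν G υ b := by
  classical
  have : Nonempty ((κ × Fin K) ⊕ C ≃ V × Fin d) := ⟨Fintype.equivOfCardEq hc⟩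
  let T : Finset κ' := univ.biUnion fun u : V1 × Fin d =>
    Sum.elim (fun p : κ' × Fin K => ({p.1} : Finset κ')) (fun _ => ∅) (b.symm (inr u))
  have hT : T.card ≤ Fintype.card (V1 × Fin d) := by
    refine card_biUnion_le.trans ?_
    rw [← card_univ, card_eq_sum_ones]
    refine sum_le_sum fun u _ => ?_
    cases b.symm (inr u) <;> simp
  have hle : Fintype.card κ ≤ Fintype.card {k : κ' // k ∉ T} := by
    rw [Fintype.card_subtype_compl, Fintype.card_coe]
    rw [Fintype.card_sum] at hκ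
    omega
  obtain ⟨r0⟩ := Function.Embedding.nonempty_of_card_le hle
  obtain ⟨e, he⟩ := ext_equiv hκ inl (fun k => (r0 k : κ')) inl_injective
    (Subtype.val_injective.comp r0.injective)
  obtain ⟨q, hq1, -, hq3⟩ := pat_setup hc b
    (fun p : κ × Fin K => inl (e (inl p.1), p.2))
    (fun p p' h => by
      simp only [inl.injEq, Prod.mk.injEq, EmbeddingLike.apply_eq_iff_eq] at h
      exact Prod.ext h.1 h.2)
    (fun p u h => by
      refine (r0 p.1).2 (mem_biUnion.2 ⟨u, mem_univ _, ?_⟩)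
      rw [← h, Equiv.symm_apply_apply, he]
      simp)
  unfold Wb
  rw [hq3 fun w => Gam ρ ν G (fun p => υ (Sum.map Prod.fst Prod.fst (w (inl p))))
    fun c => υ (Sum.map Prod.fst Prod.fst (w (inr c))), E0_eq hc inl inl_injective,
    ← Fintype.expect_const (ι := (κ × Fin K) ⊕ C ≃ V × Fin d) (G.c0 + _), ← expect_sub_distrib]
  refine expect_mono fun b1 => ?_
  have a1 := (abs_le.1 (Gam_near hρ hν G
    (fun p => υ (Sum.map Prod.fst Prod.fst (Sum.map b1 id (q (inl p)))))
    fun c => υ (Sum.map Prod.fst Prod.fst (Sum.map b1 id (q (inr c)))))).1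
  have a2 := (abs_le.1 (Z0_ext hρ hν e υ
    (fun p => υ (Sum.map Prod.fst Prod.fst (Sum.map b1 id (q (inl p)))))
    (fun p => (b1 (inl p)).1) fun k j => by rw [hq1 (k, j)]; rfl)).1
  unfold cost
  linarith

variable (ρ ν) in
/-- The error of one attachment. -/
noncomputable def errA (a b : ℕ) (k n n' : ℝ) : ℝ :=
  2 * cost ρ ν a b * (k ^ 2 / n) + G.c1 * ((n - n') / n)

include hρ hν in
theorem Wb_good [Nonempty C'] (hc : Fintype.card ((κ × Fin K) ⊕ C) = Fintype.card (V × Fin d))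
    (hκ : Fintype.card (κ ⊕ (V1 × Fin d)) = Fintype.card κ') (υ : V ⊕ V1 ≃ V')
    (f0 : (V1 × Fin d) × Fin K → J) (hf0 : Injective f0)
    (b : (κ' × Fin K) ⊕ C' ≃ (V × Fin d) ⊕ (V1 × Fin d)) (t : V1 × Fin d → κ')
    (ht : Injective t) (l : V1 × Fin d → Fin K) (hb : ∀ u, b (inl (t u, l u)) = inr u) :
    XA d ρ ν G κ V C (stU l) (fun x => f0 x.1) -
      errA ρ ν G (Fintype.card (V1 × Fin d)) (Fintype.card V1)
        (Fintype.card ((V1 × Fin d) × Fin K)) (Fintype.card C) (Fintype.card C') ≤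
      Wb ρ ν G υ b := by
  obtain ⟨e, he⟩ := ext_equiv hκ inr t inr_injective ht
  obtain ⟨q, hq1, hq2, hq3⟩ := pat_setup hc b
    (fun p : κ × Fin K => inl (e (inl p.1), p.2))
    (fun p p' h => by
      simp only [inl.injEq, Prod.mk.injEq, EmbeddingLike.apply_eq_iff_eq] at h
      exact Prod.ext h.1 h.2)
    (fun p u h => by
      rw [← hb u, ← he] at h
      simp at h)
  have hq4 : ∀ u, q (inl (e (inr u), l u)) = inr u := fun u => hq2 _ _ (by rw [he, hb])
  have hfree : ∀ x, (∀ p : κ × Fin K, x ≠ inl (e (inl p.1), p.2)) →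
      (∀ u, x ≠ inl (e (inr u), l u)) → ∃ c, q x = inl (inr c) := by
    intro x h1 h2
    rcases hx : q x with (p | c) | u
    · exact absurd (q.injective (hx.trans (hq1 p).symm)) (h1 p)
    · exact ⟨c, rfl⟩
    · exact absurd (q.injective (hx.trans (hq4 u).symm)) (h2 u)
  have hX : ∀ x : XS l, ∃ c, q (inl (e (inr x.1.1), x.1.2)) = inl (inr c) := fun x =>
    hfree _ (fun p h => by simp at h) fun u h => by
      simp only [inl.injEq, Prod.mk.injEq, EmbeddingLike.apply_eq_iff_eq, inr.injEq] at h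
      exact x.2 (by rw [h.2, h.1])
  have hC : ∀ c : C', ∃ c0, q (inr c) = inl (inr c0) := fun c =>
    hfree _ (fun p h => by simp at h) fun u h => by simp at h
  choose i hi using hX
  choose cv hcv using hC
  have hii : Injective i := fun x x' h => by
    have h1 := q.injective ((hi x).trans (h ▸ (hi x').symm))
    simp only [inl.injEq, Prod.mk.injEq, EmbeddingLike.apply_eq_iff_eq, inr.injEq] at h1
    exact Subtype.ext (Prod.ext h1.1 h1.2)
  have hcvi : Injective cv := fun c c' h =>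
    inr_injective (q.injective ((hcv c).trans (h ▸ (hcv c').symm)))
  have h := attach hρ hν G hc e υ (stU l) i hii cv hcvi (fun x => f0 x.1)
    (hf0.comp Subtype.val_injective) (fun w x => υ (Sum.map w Prod.fst (q x)))
    (fun w k j => by rw [hq1 (k, j)]; rfl)
    (fun w k j => by
      unfold stU
      split_ifs with hj
      · have hj' : j = l k := hj
        rw [hj', hq4]; rfl
      · rw [hi ⟨(k, j), hj⟩]; rfl)
    (fun w c => by rw [hcv]; rfl)
  unfold Wb
  rw [hq3 fun w => Gam ρ ν G (fun p => υ (Sum.map Prod.fst Prod.fst (w (inl p))))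
    fun c => υ (Sum.map Prod.fst Prod.fst (w (inr c)))]
  simp only [Sum.map_map, comp_id]
  have a1 := (abs_le.1 h).2
  have a2 : (Fintype.card (XS l) : ℝ) ^ 2 / Fintype.card C ≤
      (Fintype.card ((V1 × Fin d) × Fin K) : ℝ) ^ 2 / Fintype.card C := by
    refine div_le_div_of_nonneg_right (pow_le_pow_left₀ (Nat.cast_nonneg _) ?_ 2)
      (Nat.cast_nonneg _)
    exact_mod_cast Fintype.card_subtype_le _
  have a3 := mul_le_mul_of_nonneg_left a2 (mul_nonneg zero_le_two
    (cost_nonneg (ρ := ρ) (ν := ν) (Fintype.card (V1 × Fin d)) (Fintype.card V1)))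
  unfold errA
  have a4 : ∀ b1 : (κ × Fin K) ⊕ C ≃ V × Fin d, (Prod.fst ∘ b1) = fun y => (b1 y).1 :=
    fun _ => rfl
  simp only [a4]
  linarith

theorem good_ratio (k a n K : ℕ) (ha : 0 < a) (hK : 0 < K) :
    (1 - ((k : ℝ) ^ 2 / a + k * (n / (a * K + n : ℕ)))) * ((a * K + n).descFactorial k : ℝ) ≤
      (a.descFactorial k * K ^ k : ℕ) := by
  have ha' : (0 : ℝ) < a := by exact_mod_cast ha
  have hK' : (0 : ℝ) < K := by exact_mod_cast hK
  set x : ℝ := (k : ℝ) ^ 2 / a with hx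
  set y : ℝ := k * (n / (a * K + n : ℕ)) with hy
  have hx0 : 0 ≤ x := by positivity
  have hy0 : 0 ≤ y := by positivity
  rcases le_or_gt (1 - (x + y)) 0 with h | h
  · exact (mul_nonpos_of_nonpos_of_nonneg h (Nat.cast_nonneg _)).trans (Nat.cast_nonneg _)
  have h1 : (((a * K + n).descFactorial k : ℕ) : ℝ) ≤ ((a * K + n : ℕ) : ℝ) ^ k := by
    exact_mod_cast Nat.descFactorial_le_pow _ _
  have h2 := desc_ge a k ha
  have h3 := pow_ratio (n := ((a * K + n : ℕ) : ℝ)) (n' := a * K) (by positivity)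
    (by push_cast; linarith [Nat.cast_nonneg (α := ℝ) n]) k
  have e : ((a * K + n : ℕ) : ℝ) - a * K = n := by push_cast; ring
  rw [e, ← hy, mul_pow] at h3
  have h4 : 0 ≤ ((a * K + n : ℕ) : ℝ) ^ k := by positivity
  rw [Nat.cast_mul, Nat.cast_pow]
  calc (1 - (x + y)) * ((a * K + n).descFactorial k : ℝ)
      ≤ (1 - (x + y)) * ((a * K + n : ℕ) : ℝ) ^ k := mul_le_mul_of_nonneg_left h1 h.le
    _ ≤ (1 - x) * ((1 - y) * ((a * K + n : ℕ) : ℝ) ^ k) := by
        rw [← mul_assoc]
        exact mul_le_mul_of_nonneg_right (by nlinarith) h4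
    _ ≤ (1 - x) * ((a : ℝ) ^ k * (K : ℝ) ^ k) := mul_le_mul_of_nonneg_left h3 (by linarith)
    _ ≤ _ := by
        rw [← mul_assoc]
        exact mul_le_mul_of_nonneg_right h2 (by positivity)

include hρ hν in
/-- Adding sites with their interactions. -/
theorem stepU [NeZero K] [Nonempty C'] [Nonempty κ']
    (hc : Fintype.card ((κ × Fin K) ⊕ C) = Fintype.card (V × Fin d))
    (hc' : Fintype.card ((κ' × Fin K) ⊕ C') = Fintype.card ((V × Fin d) ⊕ (V1 × Fin d)))
    (hCC : Fintype.card C' ≤ Fintype.card C)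
    (hκ : Fintype.card (κ ⊕ (V1 × Fin d)) = Fintype.card κ') (υ : V ⊕ V1 ≃ V')
    (f0 : (V1 × Fin d) × Fin K → J) (hf0 : Injective f0) {er k : ℝ}
    (her : er = errA ρ ν G (Fintype.card (V1 × Fin d)) (Fintype.card V1)
      (Fintype.card ((V1 × Fin d) × Fin K)) (Fintype.card C) (Fintype.card C'))
    (hk : k = Fintype.card (V1 × Fin d)) :
    (𝔼 l : V1 × Fin d → Fin K, XA d ρ ν G κ V C (stU l) fun x => f0 x.1) - er -
      2 * (G.c0 + cost ρ ν (Fintype.card (V1 × Fin d)) (Fintype.card V1) + er) *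
        (k ^ 2 / Fintype.card κ' + k * (Fintype.card C' /
          (Fintype.card κ' * K + Fintype.card C' : ℕ))) ≤ AA d ρ ν G κ' V' C' := by
  classical
  have : Nonempty C := Fintype.card_pos_iff.1 (Fintype.card_pos.trans_le hCC)
  have hCC' : (Fintype.card C' : ℝ) ≤ Fintype.card C := by exact_mod_cast hCC
  have hc0 := G.c0_nonneg
  have hc1 := G.c1_nonneg
  have hco := cost_nonneg (ρ := ρ) (ν := ν) (Fintype.card (V1 × Fin d)) (Fintype.card V1)
  have her0 : 0 ≤ er := by
    rw [her]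
    unfold errA
    have : (0 : ℝ) ≤ Fintype.card C - Fintype.card C' := by linarith
    positivity
  set co := cost ρ ν (Fintype.card (V1 × Fin d)) (Fintype.card V1) with hcod
  let pos : (V1 × Fin d → (κ' × Fin K) ⊕ C') → V1 × Fin d → Fin K := fun p u =>
    Sum.elim Prod.snd (fun _ => 0) (p u)
  let Lo : (V1 × Fin d → (κ' × Fin K) ⊕ C') → ℝ := fun p =>
    if ∃ t : V1 × Fin d → κ', Injective t ∧ ∀ u, p u = inl (t u, pos p u) then
      XA d ρ ν G κ V C (stU (pos p)) (fun x => f0 x.1) - er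
    else E0 d ρ ν κ V - (G.c0 + co)
  have h1 : ∀ b : (κ' × Fin K) ⊕ C' ≃ (V × Fin d) ⊕ (V1 × Fin d),
      Lo (b.symm ∘ inr) ≤ Wb ρ ν G υ b := by
    intro b
    simp only [Lo]
    split_ifs with h
    · obtain ⟨t, ht, hp⟩ := h
      rw [her]
      exact Wb_good hρ hν G hc hκ υ f0 hf0 b t ht _ fun u => by
        rw [← hp u]; exact b.apply_symm_apply _
    · exact Wb_any hρ hν G hc hκ υ b
  have h2 : 𝔼 p : V1 × Fin d ↪ (κ' × Fin K) ⊕ C', Lo p ≤ AA d ρ ν G κ' V' C' := by
    rw [AA_eq G υ, ← expect_equiv_emb hc'.symm inr inr_injective Lo, expect_symm]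
    exact expect_mono h1
  have hLo : ∀ p : V1 × Fin d ↪ (κ' × Fin K) ⊕ C', |Lo p - E0 d ρ ν κ V| ≤ G.c0 + co + er := by
    intro p
    simp only [Lo]
    split_ifs with h
    · have a1 := abs_le.1 (XA_near hρ hν G hc (stU (pos p)) fun x => f0 x.1)
      have a2 := abs_le.1 (AA_near hρ hν G hc)
      rw [abs_le]
      constructor <;> linarith [a1.1, a1.2, a2.1, a2.2]
    · rw [abs_le]
      constructor <;> linarith
  have hne : Nonempty (V1 × Fin d ↪ κ') := Function.Embedding.nonempty_of_card_le (by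
    rw [← hκ, Fintype.card_sum]; omega)
  let gp : (V1 × Fin d ↪ κ') × (V1 × Fin d → Fin K) → (V1 × Fin d ↪ (κ' × Fin K) ⊕ C') :=
    fun a => ⟨fun u => inl (a.1 u, a.2 u), fun u u' h => a.1.injective (by
      simp only [inl.injEq, Prod.mk.injEq] at h
      exact h.1)⟩
  have hgp : Injective gp := by
    intro a a' h
    have h3 : ∀ u, a.1 u = a'.1 u ∧ a.2 u = a'.2 u := fun u => by
      have h5 : (inl (a.1 u, a.2 u) : (κ' × Fin K) ⊕ C') = inl (a'.1 u, a'.2 u) :=
        DFunLike.congr_fun h u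
      simpa using h5
    exact Prod.ext (DFunLike.ext _ _ fun u => (h3 u).1) (funext fun u => (h3 u).2)
  have h3 := expect_sub_le gp hgp (fun p => Lo p) hLo
    (δ := k ^ 2 / Fintype.card κ' + k * (Fintype.card C' /
      (Fintype.card κ' * K + Fintype.card C' : ℕ))) (by
      rw [Fintype.card_embedding_eq, Fintype.card_prod (V1 × Fin d ↪ κ'),
        Fintype.card_embedding_eq, Fintype.card_fun, Fintype.card_sum,
        Fintype.card_prod κ', Fintype.card_fin, hk]
      exact good_ratio _ _ _ _ Fintype.card_pos (NeZero.pos K))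
  have h4 : ∀ a, Lo (gp a) = XA d ρ ν G κ V C (stU a.2) (fun x => f0 x.1) - er := by
    intro a
    simp only [Lo]
    rw [if_pos ⟨a.1, a.1.injective, fun u => rfl⟩]
    rfl
  simp only [h4] at h3
  rw [expect_prod] at h3
  simp only [Fintype.expect_const] at h3
  rw [expect_sub_distrib, Fintype.expect_const] at h3
  linarith [(abs_le.1 h3).1]

end Vale.Agent.N168X
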