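import Vale.Agent.N168X.Urn
import Mathlib.GroupTheory.Perm.Fin
import Mathlib.Analysis.SpecialFunctions.Log.Basic

/-! Concentration for functions of a uniform bijection. -/

set_option autoImplicit false

open Finset Equiv
open scoped BigOperators

namespace Vale.Agent.N168X.Sim

theorem exp_mean {A : Type} [Fintype A] [Nonempty A] (m : A → ℝ) {t r : ℝ}
    (h : ∀ p q, |m p - m q| ≤ r) (ht : |t| * r ≤ 1) :
    𝔼 p, Real.exp (t * (m p - 𝔼 q, m q)) ≤ Real.exp (t ^ 2 * r ^ 2) := by
  have h1 : ∀ p, |m p - 𝔼 q, m q| ≤ r := fun p => by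
    rw [abs_sub_comm]
    exact abs_expect_sub_const fun q => h q p
  have h2 : ∀ p, Real.exp (t * (m p - 𝔼 q, m q)) ≤
      (1 + t ^ 2 * r ^ 2 - t * 𝔼 q, m q) + t * m p := fun p => by
    have h3 : |t * (m p - 𝔼 q, m q)| ≤ |t| * r := by
      rw [abs_mul]
      exact mul_le_mul_of_nonneg_left (h1 p) (abs_nonneg _)
    have h4 := (abs_le.1 (Real.abs_exp_sub_one_sub_id_le (h3.trans ht))).2
    have h5 : (t * (m p - 𝔼 q, m q)) ^ 2 ≤ (|t| * r) ^ 2 := by
      rw [← sq_abs]
      exact pow_le_pow_left₀ (abs_nonneg _) h3 2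
    rw [mul_pow |t|, sq_abs] at h5
    linarith
  refine (expect_mono h2).trans ?_
  rw [expect_add_distrib, Fintype.expect_const, ← mul_expect]
  linarith [Real.add_one_le_exp (t ^ 2 * r ^ 2)]

theorem azuma {c t : ℝ} (ht : |t| * (2 * c) ≤ 1) (n : ℕ) : ∀ f : Perm (Fin n) → ℝ,
    (∀ σ a b, |f σ - f (σ * swap a b)| ≤ c) →
      𝔼 σ, Real.exp (t * (f σ - 𝔼 τ, f τ)) ≤ Real.exp (t ^ 2 * (2 * c) ^ 2 * n) := by
  induction n with
  | zero =>
    intro f _
    have h : ∀ σ : Perm (Fin 0), σ = 1 := fun σ => Subsingleton.elim _ _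
    simp only [h, Fintype.expect_const]
    simp
  | succ n ih =>
    intro f hf
    have hD : ∀ F : Perm (Fin (n + 1)) → ℝ,
        𝔼 σ, F σ = 𝔼 p, 𝔼 e, F (Perm.decomposeFin.symm (p, e)) := fun F => by
      rw [← expect_prod fun x => F (Perm.decomposeFin.symm x)]
      exact (Fintype.expect_equiv Perm.decomposeFin.symm _ _ fun _ => rfl).symm
    have hL : ∀ σ a b, |f σ - f (swap a b * σ)| ≤ c := fun σ a b => by
      rw [swap_mul_eq_mul_swap]
      exact hf _ _ _
    set m : Fin (n + 1) → ℝ := fun p => 𝔼 e, f (Perm.decomposeFin.symm (p, e)) with hm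
    have h1 : ∀ p q, |m p - m q| ≤ 2 * c := fun p q => abs_expect_sub_le fun e => by
      have h2 : Perm.decomposeFin.symm (q, e) =
          swap 0 q * (swap 0 p * Perm.decomposeFin.symm (p, e)) := by
        ext1 x
        cases x using Fin.cases <;> simp
      rw [h2]
      refine (abs_sub_le _ (f (swap 0 p * Perm.decomposeFin.symm (p, e))) _).trans ?_
      linarith [hL (Perm.decomposeFin.symm (p, e)) 0 p,
        hL (swap 0 p * Perm.decomposeFin.symm (p, e)) 0 q]
    have h2 : ∀ p, 𝔼 e, Real.exp (t * (f (Perm.decomposeFin.symm (p, e)) - 𝔼 q, m q)) ≤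
        Real.exp (t ^ 2 * (2 * c) ^ 2 * n) * Real.exp (t * (m p - 𝔼 q, m q)) := fun p => by
      have h3 := ih (fun e => f (Perm.decomposeFin.symm (p, e))) fun e a b => by
        have h4 : Perm.decomposeFin.symm (p, e * swap a b) =
            Perm.decomposeFin.symm (p, e) * swap a.succ b.succ := by
          ext1 x
          cases x using Fin.cases with
          | zero =>
            rw [Perm.mul_apply, swap_apply_of_ne_of_ne (Fin.succ_ne_zero a).symm
              (Fin.succ_ne_zero b).symm]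
            simp
          | succ x =>
            rw [Perm.mul_apply, (Fin.succ_injective n).swap_apply]
            simp
        rw [h4]
        exact hf _ _ _
      refine le_trans (le_of_eq ?_)
        (mul_le_mul_of_nonneg_right h3 (Real.exp_pos (t * (m p - 𝔼 q, m q))).le)
      rw [expect_mul]
      refine expect_congr rfl fun e _ => ?_
      rw [← Real.exp_add]
      congr 1
      simp only [hm]
      ring
    rw [hD, hD f]
    refine (expect_mono h2).trans ?_
    rw [← mul_expect]
    refine (mul_le_mul_of_nonneg_left (exp_mean m h1 ht) (Real.exp_pos _).le).trans (le_of_eq ?_)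
    rw [← Real.exp_add]
    congr 1
    push_cast
    ring

theorem azuma_equiv {S H : Type} [Fintype S] [DecidableEq S] [Fintype H] [DecidableEq H]
    (hc : Fintype.card S = Fintype.card H) {c t : ℝ} (ht : |t| * (2 * c) ≤ 1) (f : (S ≃ H) → ℝ)
    (hf : ∀ b s s', |f b - f ((swap s s').trans b)| ≤ c) :
    𝔼 b, Real.exp (t * (f b - 𝔼 b', f b')) ≤ Real.exp (t ^ 2 * (2 * c) ^ 2 * Fintype.card S) := by
  let x : S ≃ Fin (Fintype.card S) := Fintype.equivFin S
  let y : Fin (Fintype.card S) ≃ H := x.symm.trans (Fintype.equivOfCardEq hc)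
  have h1 : ∀ F : (S ≃ H) → ℝ,
      𝔼 b, F b = 𝔼 σ : Perm (Fin (Fintype.card S)), F ((x.trans σ).trans y) := fun F => by
    rw [expect_trans_right y, expect_trans_left x]
  rw [h1, h1 f]
  refine azuma ht _ (fun σ => f ((x.trans σ).trans y)) fun σ a b => ?_
  have h2 : (x.trans (σ * swap a b)).trans y =
      (swap (x.symm a) (x.symm b)).trans ((x.trans σ).trans y) := by
    ext s
    simp [x.injective.map_swap]
  rw [h2]
  exact hf _ _ _

/-- The mean over a subset that is not too small. -/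
theorem cond_mean {A : Type} [Fintype A] [Nonempty A] (T : Finset A) (g : A → ℝ) {P L : ℝ}
    (hP : (Fintype.card A : ℝ) ≤ P * T.card) (hL : 𝔼 a, Real.exp (g a) ≤ Real.exp L) :
    𝔼 a ∈ T, g a ≤ Real.log P + L := by
  have hn : (0 : ℝ) < Fintype.card A := by exact_mod_cast Fintype.card_pos
  have hT : T.Nonempty := by
    rw [nonempty_iff_ne_empty]
    rintro rfl
    simp only [card_empty, Nat.cast_zero, mul_zero] at hP
    linarith
  have hT' : (0 : ℝ) < T.card := by exact_mod_cast hT.card_pos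
  have hP0 : 0 < P := by
    by_contra h
    nlinarith [not_lt.1 h]
  set y := 𝔼 a ∈ T, g a with hy
  have h1 : Real.exp y ≤ 𝔼 a ∈ T, Real.exp (g a) := by
    have h2 : 𝔼 a ∈ T, (Real.exp y * (1 - y) + Real.exp y * g a) ≤ 𝔼 a ∈ T, Real.exp (g a) := by
      refine expect_le_expect fun a _ => ?_
      have h3 := mul_le_mul_of_nonneg_left (Real.add_one_le_exp (g a - y)) (Real.exp_pos y).le
      rw [← Real.exp_add, add_sub_cancel] at h3
      linarith
    rw [expect_add_distrib, expect_const hT, ← mul_expect] at h2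
    linarith
  have h2 : 𝔼 a ∈ T, Real.exp (g a) ≤ P * 𝔼 a, Real.exp (g a) := by
    rw [expect_eq_sum_div_card, Fintype.expect_eq_sum_div_card, div_le_iff₀ hT']
    have h3 : ∑ a ∈ T, Real.exp (g a) ≤ ∑ a, Real.exp (g a) :=
      sum_le_sum_of_subset_of_nonneg (subset_univ _) fun a _ _ => (Real.exp_pos _).le
    have h4 : 0 ≤ (∑ a, Real.exp (g a)) / Fintype.card A := by positivity
    have h5 := mul_le_mul_of_nonneg_left hP h4
    rw [div_mul_cancel₀ _ hn.ne'] at h5
    linarith
  have h3 : Real.exp y ≤ Real.exp (Real.log P + L) := by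
    rw [Real.exp_add, Real.exp_log hP0]
    exact h1.trans (h2.trans (mul_le_mul_of_nonneg_left hL hP0.le))
  exact Real.exp_le_exp.1 h3

theorem cond_abs {S H : Type} [Fintype S] [DecidableEq S] [Fintype H] [DecidableEq H]
    (hc : Fintype.card S = Fintype.card H) {c t P : ℝ} (h0 : 0 < t) (ht : t * (2 * c) ≤ 1)
    (f : (S ≃ H) → ℝ) (hf : ∀ b s s', |f b - f ((swap s s').trans b)| ≤ c) (T : Finset (S ≃ H))
    (hP : (Fintype.card (S ≃ H) : ℝ) ≤ P * T.card) :
    t * |𝔼 b ∈ T, f b - 𝔼 b, f b| ≤ Real.log P + t ^ 2 * (2 * c) ^ 2 * Fintype.card S := by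
  have : Nonempty (S ≃ H) := ⟨Fintype.equivOfCardEq hc⟩
  have hT : T.Nonempty := by
    rw [nonempty_iff_ne_empty]
    rintro rfl
    have hn : (0 : ℝ) < Fintype.card (S ≃ H) := by exact_mod_cast Fintype.card_pos
    simp only [card_empty, Nat.cast_zero, mul_zero] at hP
    linarith
  have h1 := cond_mean T _ hP (azuma_equiv hc (t := t) (by rwa [abs_of_pos h0]) f hf)
  have h2 := cond_mean T _ hP (azuma_equiv hc (t := -t) (by rwa [abs_neg, abs_of_pos h0]) f hf)
  rw [← mul_expect, expect_sub_distrib, expect_const hT] at h1 h2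
  rw [neg_sq] at h2
  rcases abs_cases (𝔼 b ∈ T, f b - 𝔼 b, f b) with h | h <;> rw [h.1] <;> linarith

end Vale.Agent.N168X.Sim
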