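import Vale.Agent.N168X.Urn
import Mathlib.Combinatorics.SimpleGraph.DegreeSum

/-! Every simple `d`-regular graph comes from the same number of configurations. -/

set_option autoImplicit false

open Finset Equiv
open scoped BigOperators

namespace Vale.Agent.N168X.Sim

variable {N M d : ℕ}

/-- The unordered pairs of a sequence of ordered pairs. -/
def pr (ω : Fin M → Fin 2 → Fin N) : Fin M → Sym2 (Fin N) := fun k => s(ω k 0, ω k 1)

/-- Distinct edges, no loops. -/
def Good (f : Fin M → Sym2 (Fin N)) : Prop := Function.Injective f ∧ ∀ k, ¬ (f k).IsDiag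

/-- The graph with the edges `f k`. -/
def gr (f : Fin M → Sym2 (Fin N)) : SimpleGraph (Fin N) := SimpleGraph.fromEdgeSet (Set.range f)

/-- The sites of a configuration. -/
def om (b : Fin M × Fin 2 ≃ Fin N × Fin d) : Fin M → Fin 2 → Fin N := fun k j => (b (k, j)).1

theorem edge_gr {f : Fin M → Sym2 (Fin N)} (h : Good f) : (gr f).edgeSet = Set.range f := by
  unfold gr
  rw [SimpleGraph.edgeSet_fromEdgeSet]
  ext z
  constructor
  · exact fun h => h.1
  · rintro ⟨k, rfl⟩
    exact ⟨⟨k, rfl⟩, h.2 k⟩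

theorem ncard_gr {f : Fin M → Sym2 (Fin N)} (h : Good f) : (gr f).edgeSet.ncard = M := by
  rw [edge_gr h, ← Set.image_univ, Set.ncard_image_of_injective _ h.1, Set.ncard_univ]
  simp

theorem two_eq (a b : Fin N) : ({x : Fin 2 → Fin N | s(x 0, x 1) = s(a, b)} : Finset _) =
    {![a, b], ![b, a]} := by
  ext x
  simp only [mem_filter, mem_univ, true_and, mem_insert, mem_singleton, Sym2.eq_iff]
  constructor
  · rintro (⟨h1, h2⟩ | ⟨h1, h2⟩)
    · left; funext i; fin_cases i <;> simp [h1, h2]
    · right; funext i; fin_cases i <;> simp [h1, h2]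
  · rintro (rfl | rfl)
    · left; simp
    · right; simp

theorem card_two {z : Sym2 (Fin N)} (hz : ¬ z.IsDiag) :
    #{x : Fin 2 → Fin N | s(x 0, x 1) = z} = 2 := by
  induction z with
  | _ a b =>
    have hab : a ≠ b := hz
    rw [two_eq, card_pair]
    intro h
    exact hab (by simpa using congrFun h 0)

theorem card_fiber {f : Fin M → Sym2 (Fin N)} (h : Good f) :
    #{ω : Fin M → Fin 2 → Fin N | pr ω = f} = 2 ^ M := by
  have e : ({ω : Fin M → Fin 2 → Fin N | pr ω = f} : Finset (Fin M → Fin 2 → Fin N)) =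
      Fintype.piFinset fun k => ({x : Fin 2 → Fin N | s(x 0, x 1) = f k} :
        Finset (Fin 2 → Fin N)) := by
    ext ω
    simp only [mem_filter, mem_univ, true_and, Fintype.mem_piFinset]
    exact funext_iff
  rw [e, Fintype.card_piFinset]
  simp [card_two (h.2 _)]

/-- Sums along a map with fibres of constant size. -/
theorem sum_fib {A B : Type} [DecidableEq B] (s : Finset A) (t : Finset B) (g : A → B) (C : ℕ)
    (h1 : ∀ a ∈ s, g a ∈ t) (h2 : ∀ b ∈ t, #{a ∈ s | g a = b} = C) (F : B → ℝ) :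
    ∑ a ∈ s, F (g a) = C * ∑ b ∈ t, F b := by
  rw [← sum_fiberwise_of_maps_to h1, mul_sum]
  refine sum_congr rfl fun b hb => ?_
  rw [sum_congr rfl (g := fun _ => F b) fun a ha => by rw [(mem_filter.1 ha).2], sum_const,
    h2 b hb, nsmul_eq_mul]

open Classical in
theorem card_list (G : SimpleGraph (Fin N)) (hG : G.edgeSet.ncard = M) :
    #{f : Fin M → Sym2 (Fin N) | Good f ∧ gr f = G} = M.factorial := by
  have hc : Nat.card G.edgeSet = M := by rw [← hG]; rfl
  let e0 : Fin M ≃ G.edgeSet := (Finite.equivFinOfCardEq hc).symm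
  have e1 : {f : Fin M → Sym2 (Fin N) // Good f ∧ gr f = G} ≃ (Fin M ≃ G.edgeSet) :=
    { toFun := fun f => (Equiv.ofInjective f.1 f.2.1.1).trans
        (Equiv.setCongr (by rw [← edge_gr f.2.1, f.2.2]))
      invFun := fun e => ⟨fun k => (e k : Sym2 (Fin N)), by
        have hg : Good fun k => (e k : Sym2 (Fin N)) :=
          ⟨fun a b h => e.injective (Subtype.ext h), fun k => G.not_isDiag_of_mem_edgeSet (e k).2⟩
        refine ⟨hg, ?_⟩
        rw [← SimpleGraph.edgeSet_inj, edge_gr hg]
        ext z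
        constructor
        · rintro ⟨k, rfl⟩; exact (e k).2
        · intro hz
          exact ⟨e.symm ⟨z, hz⟩, by simp⟩⟩
      left_inv := fun f => by
        apply Subtype.ext
        funext k
        rfl
      right_inv := fun e => by
        ext k
        rfl }
  rw [← Fintype.card_subtype, Fintype.card_congr e1, Fintype.card_equiv e0, Fintype.card_fin]

theorem card_fst (V : Finset (Fin N)) (b : Fin M × Fin 2 ≃ Fin N × Fin d) :
    #{s | (b s).1 ∈ V} = #V * d := by
  have h : #(V ×ˢ (univ : Finset (Fin d))) = #V * d := by simp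
  rw [← h]
  exact card_equiv b fun s => by simp

open Classical in
theorem degree_gr {ω : Fin M → Fin 2 → Fin N} (h : Good (pr ω)) (v : Fin N) :
    (gr (pr ω)).degree v = #{s : Fin M × Fin 2 | ω s.1 s.2 = v} := by
  rw [← SimpleGraph.card_incidenceFinset_eq_degree]
  refine (card_bij (fun s _ => pr ω s.1) ?_ ?_ ?_).symm
  · rintro ⟨k, j⟩ hs
    rw [SimpleGraph.mem_incidenceFinset, SimpleGraph.incidenceSet, edge_gr h]
    refine ⟨⟨k, rfl⟩, ?_⟩
    rw [← (mem_filter.1 hs).2]
    fin_cases j <;> simp [pr]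
  · rintro ⟨k, j⟩ hs ⟨k', j'⟩ hs' hk
    obtain rfl : k = k' := h.1 hk
    have h1 : ω k j = ω k j' := (mem_filter.1 hs).2.trans (mem_filter.1 hs').2.symm
    have h2 : ω k 0 ≠ ω k 1 := h.2 k
    fin_cases j <;> fin_cases j' <;> simp_all
  · intro z hz
    rw [SimpleGraph.mem_incidenceFinset, SimpleGraph.incidenceSet, edge_gr h] at hz
    obtain ⟨⟨k, rfl⟩, h1⟩ := hz
    rcases Sym2.mem_iff.1 h1 with h1 | h1
    · exact ⟨(k, 0), by simp [h1], rfl⟩
    · exact ⟨(k, 1), by simp [h1], rfl⟩

open Classical in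
theorem reg_om {b : Fin M × Fin 2 ≃ Fin N × Fin d} (h : Good (pr (om b))) :
    (gr (pr (om b))).IsRegularOfDegree d := fun v => by
  have h1 := card_fst {v} b
  simp only [mem_singleton, card_singleton, one_mul] at h1
  exact (degree_gr h v).trans h1

open Classical in
theorem card_om (b0 : Fin M × Fin 2 ≃ Fin N × Fin d) {ω : Fin M → Fin 2 → Fin N} (h : Good (pr ω))
    (hr : (gr (pr ω)).IsRegularOfDegree d) : #{b : Fin M × Fin 2 ≃ Fin N × Fin d | om b = ω} =
      #{τ : Fin N × Fin d ≃ Fin N × Fin d | ∀ x, (τ x).1 = x.1} := by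
  have e : ∀ v, {s : Fin M × Fin 2 // ω s.1 s.2 = v} ≃ {x : Fin N × Fin d // x.1 = v} := fun v => by
    refine Fintype.equivOfCardEq ?_
    have h1 := card_fst {v} b0
    simp only [mem_singleton, card_singleton, one_mul] at h1
    rw [Fintype.card_subtype, Fintype.card_subtype, ← degree_gr h, hr v]
    exact h1.symm.trans (card_equiv b0 fun s => by simp)
  obtain ⟨q, h0⟩ : ∃ q : Fin M × Fin 2 ≃ Fin N × Fin d, ∀ s, (q s).1 = ω s.1 s.2 :=
    ⟨ofFiberEquiv e, ofFiberEquiv_map e⟩
  refine card_equiv (equivCongr q (Equiv.refl _)) fun b => ?_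
  simp only [mem_filter, mem_univ, true_and]
  constructor
  · intro hb x
    have h1 := h0 (q.symm x)
    rw [apply_symm_apply, ← hb] at h1
    exact h1.symm
  · intro hb
    funext k j
    rw [← h0 (k, j), ← hb]
    simp [om]

open Classical in
theorem expect_reg (hM : 2 * M = d * N) (G : SimpleGraph (Fin N) → ℝ) :
    𝔼 b ∈ {b : Fin M × Fin 2 ≃ Fin N × Fin d | Good (pr (om b))}, G (gr (pr (om b))) =
      𝔼 H ∈ {H : SimpleGraph (Fin N) | H.IsRegularOfDegree d}, G H := by
  set C := #{τ : Fin N × Fin d ≃ Fin N × Fin d | ∀ x, (τ x).1 = x.1}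
  have hC : (0 : ℝ) < C := by
    exact_mod_cast card_pos.2 ⟨Equiv.refl _, by simp⟩
  have h : ∀ G : SimpleGraph (Fin N) → ℝ,
      ∑ b ∈ {b : Fin M × Fin 2 ≃ Fin N × Fin d | Good (pr (om b))}, G (gr (pr (om b))) =
      C * ((2 ^ M : ℕ) * (M.factorial *
        ∑ H ∈ {H : SimpleGraph (Fin N) | H.IsRegularOfDegree d}, G H)) := fun G => by
    rw [sum_fib _ {ω | Good (pr ω) ∧ (gr (pr ω)).IsRegularOfDegree d} om C _ _
      fun ω => G (gr (pr ω)), sum_fib _ {f | Good f ∧ (gr f).IsRegularOfDegree d} pr (2 ^ M) _ _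
      fun f => G (gr f), sum_fib _ {H | H.IsRegularOfDegree d} gr M.factorial _ _ G]
    · exact fun f hf => mem_filter.2 ⟨mem_univ _, (mem_filter.1 hf).2.2⟩
    · intro H hH
      have h1 := (mem_filter.1 hH).2
      have h2 := H.sum_degrees_eq_twice_card_edges
      simp only [h1.degree_eq, sum_const, card_univ, Fintype.card_fin, smul_eq_mul] at h2
      rw [← card_list H (by
        rw [← H.coe_edgeFinset, Set.ncard_coe_finset]
        rw [mul_comm, ← hM] at h2
        omega)]
      congr 1
      ext f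
      simp only [mem_filter, mem_univ, true_and]
      exact ⟨fun h => ⟨h.1.1, h.2⟩, fun h => ⟨⟨h.1, by rw [h.2]; exact h1⟩, h.2⟩⟩
    · exact fun ω hω => mem_filter.2 ⟨mem_univ _, (mem_filter.1 hω).2⟩
    · intro f hf
      have h1 := (mem_filter.1 hf).2
      rw [← card_fiber h1.1]
      congr 1
      ext ω
      simp only [mem_filter, mem_univ, true_and, and_iff_right_iff_imp]
      rintro rfl
      exact h1
    · exact fun b hb => mem_filter.2 ⟨mem_univ _, (mem_filter.1 hb).2, reg_om (mem_filter.1 hb).2⟩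
    · intro ω hω
      have h1 := (mem_filter.1 hω).2
      rw [show C = _ from (card_om (Fintype.equivOfCardEq (by simp; linarith)) h1.1 h1.2).symm]
      congr 1
      ext b
      simp only [mem_filter, mem_univ, true_and, and_iff_right_iff_imp]
      rintro rfl
      exact h1.1
  have h1 := h fun _ => 1
  simp only [sum_const, nsmul_eq_mul, mul_one] at h1
  have h2 : (0 : ℝ) < M.factorial := by exact_mod_cast M.factorial_pos
  rw [expect_eq_sum_div_card, expect_eq_sum_div_card, h, h1, mul_div_mul_left _ _ hC.ne',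
    mul_div_mul_left _ _ (by positivity), mul_div_mul_left _ _ h2.ne']

end Vale.Agent.N168X.Sim
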