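import Vale.Agent.N168X.Urn
import Vale.Agent.N168.Main

/-! The slot functional of the lower bound, with the slots placed on a family of cavities. -/

set_option autoImplicit false
set_option linter.unusedSectionVars false

open MeasureTheory Finset Function Filter
open scoped BigOperators Topology NNReal

namespace Vale.Agent.N168X

open N168I N168I.MP

/-- Energies. -/
abbrev En (V : Type) : Type := (V → Bool) → ℝ

/-- Pull back of an energy. -/
def pb {C V : Type} (π : C → V) (φ : En C) : En V := fun σ => φ fun c => σ (π c)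

theorem pb_add {C V : Type} (π : C → V) (φ φ' : En C) : pb π (φ + φ') = pb π φ + pb π φ' := rfl

theorem pb_zero {C V : Type} (π : C → V) : pb π (0 : En C) = 0 := rfl

theorem pb_comp {C' C V : Type} (π : C → V) (f : C' → C) (φ : En C') :
    pb (π ∘ f) φ = pb π (pb f φ) := rfl

theorem norm_pb_le {C V : Type} [Fintype C] [DecidableEq C] [Fintype V] [DecidableEq V]
    (π : C → V) (φ : En C) : ‖pb π φ‖ ≤ ‖φ‖ :=
  norm_le_of (norm_nonneg _) fun _ => abs_le_norm φ _

/-- The log partition function. -/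
noncomputable def lz {V : Type} [Fintype V] [DecidableEq V] (H : En V) : ℝ :=
  Real.log (∑ σ, Real.exp (H σ))

theorem sum_exp_pos {V : Type} [Fintype V] [DecidableEq V] (H : En V) :
    0 < ∑ σ, Real.exp (H σ) := sum_pos (fun _ _ => Real.exp_pos _) univ_nonempty

theorem lz_mono {V : Type} [Fintype V] [DecidableEq V] {H H' : En V} {c : ℝ}
    (h : ∀ σ, H σ ≤ H' σ + c) : lz H ≤ lz H' + c := by
  unfold lz
  have h1 : ∑ σ, Real.exp (H σ) ≤ (∑ σ, Real.exp (H' σ)) * Real.exp c := by
    rw [sum_mul]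
    exact sum_le_sum fun σ _ => by rw [← Real.exp_add]; exact Real.exp_le_exp.2 (h σ)
  have h2 := Real.log_le_log (sum_exp_pos H) h1
  rwa [Real.log_mul (sum_exp_pos H').ne' (Real.exp_pos _).ne', Real.log_exp] at h2

theorem lip_of_mono {V : Type} [Fintype V] [DecidableEq V] {F : En V → ℝ}
    (h : ∀ (H H' : En V) (c : ℝ), (∀ σ, H σ ≤ H' σ + c) → F H ≤ F H' + c) : LipschitzWith 1 F := by
  refine LipschitzWith.of_dist_le_mul fun H H' => ?_
  rw [NNReal.coe_one, one_mul, Real.dist_eq, dist_eq_norm, abs_le]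
  have h1 := h H H' ‖H - H'‖ fun σ => by
    have := (abs_le.1 (abs_le_norm (H - H') σ)).2
    rw [Pi.sub_apply] at this
    linarith
  have h2 := h H' H ‖H - H'‖ fun σ => by
    have := (abs_le.1 (abs_le_norm (H - H') σ)).1
    rw [Pi.sub_apply] at this
    linarith
  constructor <;> linarith

theorem lz_lip {V : Type} [Fintype V] [DecidableEq V] : LipschitzWith 1 (lz : En V → ℝ) :=
  lip_of_mono fun _ _ _ h => lz_mono h

section lam

variable {W J C C' : Type} (ψ : W → En J)

/-- The nested power mean over a list of slots, for a base functional `B`. -/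
noncomputable def lamB (B : En C → ℝ) (L : List (ℝ × (W × (J → C)))) : En C → ℝ :=
  L.foldr (fun s F φ => (1 / s.1) * Real.log ((Real.exp (s.1 * F φ) +
    Real.exp (s.1 * F (φ + pb s.2.2 (ψ s.2.1)))) / 2)) B

theorem lamB_nil (B : En C → ℝ) : lamB ψ B [] = B := rfl

theorem lamB_cons (B : En C → ℝ) (s : ℝ × (W × (J → C))) (L : List (ℝ × (W × (J → C))))
    (φ : En C) : lamB ψ B (s :: L) φ = (1 / s.1) * Real.log ((Real.exp (s.1 * lamB ψ B L φ) +
      Real.exp (s.1 * lamB ψ B L (φ + pb s.2.2 (ψ s.2.1)))) / 2) := rfl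

theorem lamB_mono {B B' : En C → ℝ} {D : ℝ} (h : ∀ φ, B φ ≤ B' φ + D)
    {L : List (ℝ × (W × (J → C)))} (hL : Pos L) (φ : En C) :
    lamB ψ B L φ ≤ lamB ψ B' L φ + D := by
  induction L generalizing φ with
  | nil => exact h φ
  | cons s L ih =>
    rw [lamB_cons, lamB_cons]
    exact Slots.lamstep_le (Slots.Pos_head hL).1 (ih (Slots.Pos_tail hL) _)
      (ih (Slots.Pos_tail hL) _)

theorem lamB_map (B : En C → ℝ) (f : C' → C) (L : List (ℝ × (W × (J → C')))) (φ : En C') :
    lamB ψ B (L.map (Prod.map id fun τ => (τ.1, f ∘ τ.2))) (pb f φ) =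
      lamB ψ (fun φ' => B (pb f φ')) L φ := by
  induction L generalizing φ with
  | nil => rfl
  | cons s L ih =>
    rw [List.map_cons, lamB_cons, lamB_cons, ← ih, ← ih]
    rfl

theorem lamB_tendsto {α : Type} {l : Filter α} {B : α → En C → ℝ} {B0 : En C → ℝ}
    (h : ∀ φ, Tendsto (fun a => B a φ) l (𝓝 (B0 φ))) (L : List (ℝ × (W × (J → C)))) (φ : En C) :
    Tendsto (fun a => lamB ψ (B a) L φ) l (𝓝 (lamB ψ B0 L φ)) := by
  induction L generalizing φ with
  | nil => exact h φ
  | cons s L ih =>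
    simp only [lamB_cons]
    refine Tendsto.const_mul _ (Tendsto.log ?_ (by positivity))
    exact ((((ih _).const_mul _).rexp).add (((ih _).const_mul _).rexp)).div_const _

variable {M : ℝ} (hM : 0 ≤ M) (hψ : ∀ w τ, |ψ w τ| ≤ M)

theorem lamB_egy {n : ℕ} (H : Egy n) (L : List (ℝ × (W × (J → Fin n)))) (φ : En (Fin n)) :
    lamB ψ (fun φ' => logZ (H + φ')) L φ = (egySlots ψ M hM hψ n).lam L (H + φ) := by
  induction L generalizing φ with
  | nil => rfl
  | cons s L ih =>
    obtain ⟨μ, τ⟩ := s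
    rw [lamB_cons, Slots.lam_cons, ih, ih, egySlots_act, add_assoc]
    rfl

variable [Fintype C] [DecidableEq C]

include hM hψ in
theorem lamB_near {B : En C → ℝ} (hB : LipschitzWith 1 B) {L : List (ℝ × (W × (J → C)))}
    (hL : Pos L) (φ : En C) : |lamB ψ B L φ - B φ| ≤ L.length * M := by
  let S : Slots (En C) (W × (J → C)) :=
    { act := fun τ φ => φ + pb τ.2 (ψ τ.1)
      comm := fun τ τ' φ => add_right_comm _ _ _
      base := B
      M := M
      M_nonneg := hM
      bd := fun τ φ => by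
        have h := lip_bound hB φ (pb τ.2 (ψ τ.1))
        rw [NNReal.coe_one, one_mul] at h
        exact h.trans (norm_le_of hM fun _ => hψ _ _) }
  exact S.lam_base_near hL φ

end lam

/-- The properties of a cavity functional which the lower bound uses. -/
structure CavFun where
  g : ∀ (V C : Type) [Fintype V] [DecidableEq V] [Fintype C] [DecidableEq C],
    (C → V) → En V → ℝ
  c0 : ℝ
  c1 : ℝ
  c0_nonneg : 0 ≤ c0
  c1_nonneg : 0 ≤ c1
  lip : ∀ (V C : Type) [Fintype V] [DecidableEq V] [Fintype C] [DecidableEq C] [Nonempty C]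
    (π : C → V), LipschitzWith 1 (g V C π)
  near : ∀ (V C : Type) [Fintype V] [DecidableEq V] [Fintype C] [DecidableEq C] [Nonempty C]
    (π : C → V) (H : En V), |g V C π H - lz H| ≤ c0
  cav : ∀ (V C C' : Type) [Fintype V] [DecidableEq V] [Fintype C] [DecidableEq C] [Fintype C']
    [DecidableEq C'] [Nonempty C'] (π : C → V) (f : C' → C), Injective f → ∀ H : En V,
    |g V C π H - g V C' (π ∘ f) H| ≤
      c1 * (((Fintype.card C : ℝ) - Fintype.card C') / Fintype.card C)
  marg : ∀ (V V' C : Type) [Fintype V] [DecidableEq V] [Fintype V'] [DecidableEq V'] [Fintype C]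
    [DecidableEq C] (π : C → V) (ι : V → V') (H : En V) (H' : En V'),
    (∀ φ : En V, lz (H' + pb ι φ) = lz (H + φ)) → g V' C (ι ∘ π) H' = g V C π H

section GB

variable {W J I : Type} [Fintype W] [Nonempty W] [Fintype J] [DecidableEq J] [Fintype I]
  [DecidableEq I] (ψ : W → En J) (M : ℝ) (hM : 0 ≤ M) (hψ : ∀ w τ, |ψ w τ| ≤ M)
  (pat : List (ℝ × I)) (hpat : Pos pat)

/-- The averaged functional. -/
noncomputable def GB {C : Type} [Fintype C] (B : En C → ℝ) : ℝ :=
  𝔼 τ : I → W × (J → C), lamB ψ B (patL pat τ) 0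

theorem pow_ratio {n n' : ℝ} (hn' : 0 < n') (h : n' ≤ n) (k : ℕ) :
    (1 - k * ((n - n') / n)) * n ^ k ≤ n' ^ k := by
  have hn : 0 < n := hn'.trans_le h
  have h1 : (n - n') / n ≤ 1 := by rw [div_le_one hn]; linarith
  have h2 := one_add_mul_le_pow (a := -((n - n') / n)) (by linarith) k
  have h3 : n' = (1 + -((n - n') / n)) * n := by field_simp; ring
  calc (1 - k * ((n - n') / n)) * n ^ k ≤ (1 + -((n - n') / n)) ^ k * n ^ k := by
        refine mul_le_mul_of_nonneg_right (le_trans (le_of_eq ?_) h2) (by positivity)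
        ring
    _ = n' ^ k := by rw [← mul_pow, ← h3]

/-- The cavity functional of a family of slots. -/
noncomputable def slotFun : CavFun where
  g V C _ _ _ _ π H := GB ψ pat fun φ => lz (H + pb π φ)
  c0 := pat.length * M
  c1 := 2 * (pat.length * M) * (Fintype.card J * Fintype.card I)
  c0_nonneg := by positivity
  c1_nonneg := by positivity
  lip V C _ _ _ _ _ π := by
    refine lip_of_mono fun H H' c h => ?_
    unfold GB
    rw [← Fintype.expect_const (ι := I → W × (J → C)) c, ← expect_add_distrib]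
    refine expect_mono fun τ => lamB_mono ψ (fun φ => lz_mono fun σ => ?_)
      (patL_pos pat hpat τ) 0
    have := h σ
    simp only [Pi.add_apply]
    linarith
  near V C _ _ _ _ _ π H := by
    refine abs_expect_sub_const fun τ => ?_
    have h := lamB_near ψ hM hψ (B := fun φ => lz (H + pb π φ))
      (lip_of_mono fun φ φ' c h => lz_mono fun σ => by
        have := h fun c => σ (π c)
        simp only [Pi.add_apply, pb]
        linarith) (patL_pos pat hpat τ) 0
    rwa [patL_length, pb_zero, add_zero] at h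
  cav V C C' _ _ _ _ _ _ _ π f hf H := by
    have hn' : (0 : ℝ) < Fintype.card C' := by exact_mod_cast Fintype.card_pos
    have hle : (Fintype.card C' : ℝ) ≤ Fintype.card C := by
      exact_mod_cast Fintype.card_le_of_injective f hf
    have hinj : Injective fun (τ : I → W × (J → C')) (i : I) =>
        (((τ i).1, f ∘ (τ i).2) : W × (J → C)) := by
      intro τ τ' h
      funext i
      have h1 := congrFun h i
      simp only [Prod.mk.injEq] at h1
      exact Prod.ext h1.1 (hf.comp_left h1.2)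
    have h := expect_sub_le _ hinj
      (fun τ => lamB ψ (fun φ => lz (H + pb π φ)) (patL pat τ) 0) (B := pat.length * M)
      (c := lz H) (δ := (Fintype.card J * Fintype.card I : ℕ) *
        (((Fintype.card C : ℝ) - Fintype.card C') / Fintype.card C)) (fun τ => ?_) ?_
    · have e : ∀ τ : I → W × (J → C'), lamB ψ (fun φ => lz (H + pb π φ))
          (patL pat fun i => ((τ i).1, f ∘ (τ i).2)) 0 =
          lamB ψ (fun φ => lz (H + pb (π ∘ f) φ)) (patL pat τ) 0 := by
        intro τ
        rw [patL_comp pat (fun t : W × (J → C') => ((t.1, f ∘ t.2) : W × (J → C))) τ]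
        exact lamB_map ψ (fun φ => lz (H + pb π φ)) f _ 0
      simp only [e] at h
      refine h.trans (le_of_eq ?_)
      push_cast
      ring
    · have h := lamB_near ψ hM hψ (B := fun φ => lz (H + pb π φ))
        (lip_of_mono fun φ φ' c h => lz_mono fun σ => by
          have := h fun c => σ (π c)
          simp only [Pi.add_apply, pb]
          linarith) (patL_pos pat hpat τ) 0
      rwa [patL_length, pb_zero, add_zero] at h
    · simp only [Fintype.card_pi, Fintype.card_prod, prod_const, card_univ]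
      push_cast
      have h1 := pow_ratio hn' hle (Fintype.card J * Fintype.card I)
      push_cast at h1
      rw [mul_pow, mul_pow, ← pow_mul, ← pow_mul, mul_left_comm]
      exact mul_le_mul_of_nonneg_left h1 (by positivity)
  marg V V' C _ _ _ _ _ _ π ι H H' h := by
    simp only [pb_comp, h]

theorem GB_egy {n : ℕ} (H : Egy n) :
    GB ψ pat (fun φ => logZ (H + φ)) = GP ψ M hM hψ pat n H := by
  unfold GB GP
  rw [Fintype.expect_eq_sum_div_card]
  simp only [lamB_egy ψ hM hψ, add_zero]

theorem GB_tendsto {C : Type} [Fintype C] {α : Type} {l : Filter α} {B : α → En C → ℝ}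
    {B0 : En C → ℝ} (h : ∀ φ, Tendsto (fun a => B a φ) l (𝓝 (B0 φ))) :
    Tendsto (fun a => GB ψ pat (B a)) l (𝓝 (GB ψ pat B0)) := by
  unfold GB
  simp only [Fintype.expect_eq_sum_div_card]
  exact (tendsto_finsetSum _ fun τ _ => lamB_tendsto ψ h _ _).div_const _

end GB

/-- A system seen from the cavities is a limit of systems on the cavities. -/
theorem exists_approx {V : Type} [Fintype V] [DecidableEq V] {n : ℕ} (π : Fin n → V) (H : En V) :
    ∃ Hd : ℝ → Egy n, ∀ φ : En (Fin n),
      Tendsto (fun δ => logZ (Hd δ + φ)) (𝓝[>] 0) (𝓝 (lz (H + pb π φ))) := by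
  let w : (Fin n → Bool) → ℝ := fun τ => ∑ σ with (fun c => σ (π c)) = τ, Real.exp (H σ)
  have hw : ∀ τ, 0 ≤ w τ := fun τ => sum_nonneg fun _ _ => (Real.exp_pos _).le
  refine ⟨fun δ τ => Real.log (w τ + δ), fun φ => ?_⟩
  have e1 : ∑ σ, Real.exp ((H + pb π φ) σ) = ∑ τ, (w τ + 0) * Real.exp (φ τ) := by
    rw [← sum_fiberwise (s := univ) (g := fun (σ : V → Bool) c => σ (π c))]
    refine sum_congr rfl fun τ _ => ?_
    rw [add_zero, sum_mul]
    refine sum_congr rfl fun σ hσ => ?_
    rw [Pi.add_apply, Real.exp_add, pb, (mem_filter.1 hσ).2]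
  have h1 : Tendsto (fun δ : ℝ => Real.log (∑ τ, (w τ + δ) * Real.exp (φ τ))) (𝓝[>] 0)
      (𝓝 (lz (H + pb π φ))) := by
    unfold lz
    refine Tendsto.log ?_ (sum_exp_pos _).ne'
    rw [e1]
    refine tendsto_finsetSum _ fun τ _ => Tendsto.mul_const _ (Tendsto.const_add _ ?_)
    exact tendsto_nhdsWithin_of_tendsto_nhds tendsto_id
  refine h1.congr' ?_
  filter_upwards [self_mem_nhdsWithin] with δ hδ
  unfold logZ
  congr 1
  refine sum_congr rfl fun τ _ => ?_
  have : 0 < w τ + δ := add_pos_of_nonneg_of_pos (hw τ) hδ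
  rw [Pi.add_apply, Real.exp_add, Real.exp_log this]

/-- Finite approximation of a random vector, for all 1-Lipschitz test functions. -/
theorem quant {Ω E : Type} [MeasurableSpace Ω] (μ : Measure Ω) [IsProbabilityMeasure μ]
    [NormedAddCommGroup E] [MeasurableSpace E] [BorelSpace E] [SecondCountableTopology E]
    {u : Ω → E} (hu : Measurable u) (hi : Integrable u μ) {ε : ℝ} (hε : 0 < ε) :
    ∃ (T : Finset E) (w : E → ℝ), (∀ y, 0 ≤ w y) ∧ ∑ y ∈ T, w y = 1 ∧
      ∀ F : E → ℝ, LipschitzWith 1 F → |∫ ω, F (u ω) ∂μ - ∑ y ∈ T, w y * F y| ≤ ε := by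
  classical
  have h1 := tendsto_integral_norm_approxOn_sub hu hi
  obtain ⟨k, hk⟩ := (h1.eventually (gt_mem_nhds hε)).exists
  set s := SimpleFunc.approxOn u hu (Set.range u ∪ {0}) 0 (by simp) k with hs
  have hsi : Integrable s μ := s.integrable_of_isFiniteMeasure
  have key : ∀ F : E → ℝ, ∫ ω, F (s ω) ∂μ = ∑ y ∈ s.range, μ.real (s ⁻¹' {y}) * F y := by
    intro F
    have e : ∀ ω, F (s ω) = ∑ y ∈ s.range, (s ⁻¹' {y}).indicator (fun _ => F y) ω := by
      intro ω
      rw [sum_eq_single (s ω)]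
      · rw [Set.indicator_of_mem]; rfl
      · intro y _ hy
        rw [Set.indicator_of_notMem]
        exact fun h => hy (Eq.symm h)
      · intro h
        exact absurd (s.mem_range_self ω) h
    simp_rw [e]
    rw [integral_finsetSum _ fun y _ =>
      (integrable_const _).indicator (s.measurableSet_fiber y)]
    refine sum_congr rfl fun y _ => ?_
    rw [integral_indicator_const _ (s.measurableSet_fiber y), smul_eq_mul]
  refine ⟨s.range, fun y => μ.real (s ⁻¹' {y}), fun y => measureReal_nonneg, ?_, fun F hF => ?_⟩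
  · have h2 := key fun _ => 1
    simpa using h2.symm
  · rw [← key]
    have i1 : Integrable (fun ω => F (u ω)) μ := by
      simpa using lip_integrable hF hi 0
    have i2 : Integrable (fun ω => F (s ω)) μ := by
      simpa using lip_integrable hF hsi 0
    rw [← integral_sub i1 i2]
    refine abs_integral_le_integral_abs.trans (le_trans ?_ hk.le)
    refine integral_mono (i1.sub i2).abs (hsi.sub hi).norm fun ω => ?_
    have := hF.dist_le_mul (u ω) (s ω)
    rw [NNReal.coe_one, one_mul, Real.dist_eq, dist_eq_norm, norm_sub_rev] at this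
    exact this

/-- The core of the lower bound, for slots on cavities. -/
theorem exists_cavFun {J ΩU ΩV : Type} [Fintype J] [DecidableEq J] [MeasurableSpace ΩU]
    [MeasurableSpace ΩV] (PU : Measure ΩU) [IsProbabilityMeasure PU] (PV : Measure ΩV)
    [IsProbabilityMeasure PV] {u : ΩU → En J} {v : ΩV → En J} (hu : Measurable u)
    (hui : Integrable u PU) (hv : Measurable v) (hvi : Integrable v PV) {M0 : ℝ}
    (hM0 : ∀ (r : ℕ) (m : Fin r → ℝ) (x : (Fin (r + 1) → U01) → ℝ), IsTrial r m x →
      M0 ≤ ∫ ω, trF m x (u ω) ∂PU - ∫ ω, trF m x (v ω) ∂PV) {ε : ℝ} (hε : 0 < ε) :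
    ∃ G : CavFun, ∀ (V : Type) [Fintype V] [DecidableEq V] (n : ℕ) [NeZero n] (π : Fin n → V)
      (H : En V), M0 - 6 * ε ≤
        ∫ ω, (𝔼 s : J → Fin n, G.g V (Fin n) π (H + pb (π ∘ s) (u ω))) ∂PU -
        ∫ ω, (𝔼 s : J → Fin n, G.g V (Fin n) π (H + pb (π ∘ s) (v ω))) ∂PV := by
  classical
  obtain ⟨TU, wU, hwU, sU, qU⟩ := quant PU hu hui hε
  obtain ⟨TV, wV, hwV, sV, qV⟩ := quant PV hv hvi hε
  obtain ⟨W, iW, nW, ψ, M, hM, hψ, I, iI, dI, pat, hpat, r, m, hcore⟩ :=
    core_of_decoupling (J := J) (W0 := ↥(TU ∪ TV)) (fun y => (y : En J)) hε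
  refine ⟨slotFun ψ M hM hψ pat hpat, fun V _ _ n _ π H => ?_⟩
  set G := slotFun ψ M hM hψ pat hpat with hG
  set S : En J → ℝ := fun φ => 𝔼 s : J → Fin n, G.g V (Fin n) π (H + pb (π ∘ s) φ) with hS
  have hSl : LipschitzWith 1 S := by
    refine lip_of_mono fun φ φ' c h => ?_
    rw [hS]
    dsimp only
    rw [← Fintype.expect_const (ι := J → Fin n) c, ← expect_add_distrib]
    refine expect_mono fun s => ?_
    have h1 := (G.lip V (Fin n) π).dist_le_mul
    unfold slotFun at hG
    rw [hG]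
    dsimp only
    unfold GB
    rw [← Fintype.expect_const (ι := I → W × (J → Fin n)) c, ← expect_add_distrib]
    refine expect_mono fun τ => lamB_mono ψ (fun φ0 => lz_mono fun σ => ?_)
      (patL_pos pat hpat τ) 0
    have := h fun j => σ (π (s j))
    simp only [Pi.add_apply, pb, comp_apply]
    linarith
  obtain ⟨Hd, hHd⟩ := exists_approx π H
  set Sd : ℝ → En J → ℝ := fun δ φ =>
    𝔼 s : J → Fin n, GP ψ M hM hψ pat n (Hd δ + shE φ s) with hSd
  have hlim : ∀ φ, Tendsto (fun δ => Sd δ φ) (𝓝[>] 0) (𝓝 (S φ)) := by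
    intro φ
    simp only [hSd, hS, Fintype.expect_eq_sum_div_card]
    refine (tendsto_finsetSum _ fun s _ => ?_).div_const _
    simp only [← GB_egy ψ M hM hψ pat]
    refine GB_tendsto ψ pat fun φ0 => ?_
    have h1 := hHd (shE φ s + φ0)
    simp only [add_assoc]
    exact h1
  have hδ : ∀ δ, M0 - 4 * ε ≤ ∑ y ∈ TU, wU y * Sd δ y - ∑ y ∈ TV, wV y * Sd δ y := by
    intro δ
    obtain ⟨α, P, x, hx, hw⟩ := hcore n (Hd δ)
    set g0 := GP ψ M hM hψ pat n (Hd δ) with hg0
    have hw' : ∀ y ∈ TU ∪ TV, |Sd δ y - g0 - P.E fun a => trF m (x a) y| ≤ ε := by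
      intro y hy
      have h1 := hw ⟨y, hy⟩
      rw [PE.unif_E] at h1
      simp only [hSd, Fintype.expect_eq_sum_div_card]
      exact h1
    have hP : ∀ (T : Finset (En J)) (w : En J → ℝ),
        P.E (fun a => ∑ y ∈ T, w y * trF m (x a) y) =
          ∑ y ∈ T, w y * P.E fun a => trF m (x a) y := by
      intro T w
      rw [PE.sum]
      exact sum_congr rfl fun y _ => PE.smul _ _ _
    have hlow : M0 - 2 * ε ≤ P.E fun a => (∑ y ∈ TU, wU y * trF m (x a) y) -
        ∑ y ∈ TV, wV y * trF m (x a) y := by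
      refine P.const_le fun a => ?_
      have h1 := hM0 r m (x a) (hx a)
      have h2 := (abs_le.1 (qU _ (trF_lip (hx a)))).2
      have h3 := (abs_le.1 (qV _ (trF_lip (hx a)))).1
      linarith
    rw [P.sub, hP, hP] at hlow
    have dU : ∑ y ∈ TU, wU y * (P.E fun a => trF m (x a) y) ≤
        ∑ y ∈ TU, wU y * (Sd δ y + (ε - g0)) :=
      sum_le_sum fun y hy => mul_le_mul_of_nonneg_left
        (by linarith [(abs_le.1 (hw' y (mem_union_left _ hy))).1]) (hwU y)
    have dV : ∑ y ∈ TV, wV y * (Sd δ y + (-ε - g0)) ≤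
        ∑ y ∈ TV, wV y * (P.E fun a => trF m (x a) y) :=
      sum_le_sum fun y hy => mul_le_mul_of_nonneg_left
        (by linarith [(abs_le.1 (hw' y (mem_union_right _ hy))).2]) (hwV y)
    simp only [mul_add, sum_add_distrib, ← sum_mul, sU, sV, one_mul] at dU dV
    linarith
  have h4 : M0 - 4 * ε ≤ ∑ y ∈ TU, wU y * S y - ∑ y ∈ TV, wV y * S y :=
    ge_of_tendsto' ((tendsto_finsetSum _ fun y _ => (hlim y).const_mul _).sub
      (tendsto_finsetSum _ fun y _ => (hlim y).const_mul _)) hδ
  have h5 := (abs_le.1 (qU S hSl)).1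
  have h6 := (abs_le.1 (qV S hSl)).2
  show M0 - 6 * ε ≤ ∫ ω, S (u ω) ∂PU - ∫ ω, S (v ω) ∂PV
  linarith

end Vale.Agent.N168X
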