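import Vale.Agent.N168X.Sys

/-! The one-step interpolation inequality, the sites being drawn from a family of cavities. -/

set_option autoImplicit false
set_option linter.unusedSectionVars false

open MeasureTheory Finset Function Filter Sum
open scoped BigOperators Topology NNReal

namespace Vale.Agent.N168X

open N168I N168I.PT

variable {K N n r a c : ℕ}

theorem integral_unif_eq [NeZero n] (F : Fin n → ℝ) : ∫ u, F u ∂(unif n) = 𝔼 u, F u := by
  rw [KS.integral_unif, Fintype.expect_eq_sum_div_card, Fintype.card_fin, one_div_mul_eq_div]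

theorem integral_pi_unif_eq {ι : Type} [Fintype ι] [DecidableEq ι] [NeZero n]
    (F : (ι → Fin n) → ℝ) : ∫ t, F t ∂(Measure.pi fun _ => unif n) = 𝔼 t, F t := by
  rw [integral_pi_unif, Fintype.expect_eq_sum_div_card, Fintype.card_fun, Fintype.card_fin n]
  push_cast
  rw [one_div, inv_pow, div_eq_inv_mul]

theorem mp_prod {A B C : Type} [MeasurableSpace A] [MeasurableSpace B] [MeasurableSpace C]
    {μ : Measure A} {μ' : Measure B} [SFinite μ] [SFinite μ'] {P : Measure C} {φ : A × B → C}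
    (h : MeasurePreserving φ (μ.prod μ') P) {F : C → ℝ} (hF : Integrable F P) :
    ∫ z, F z ∂P = ∫ u, (∫ v, F (φ (u, v)) ∂μ') ∂μ := by
  rw [← mp_integral h hF.aestronglyMeasurable]
  exact integral_prod (fun z => F (φ z)) (h.integrable_comp_of_integrable hF)

/-- Moving the sites. -/
def mapY (π : Fin n → Fin N) (y : Y3 K n) : Y3 K N := ((y.1.1, π ∘ y.1.2), y.2)

theorem measurable_mapY (π : Fin n → Fin N) : Measurable (mapY (K := K) π) :=
  (measurable_fst.fst.prodMk ((measurable_of_finite fun t : Fin K → Fin n => π ∘ t).comp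
    measurable_fst.snd)).prodMk measurable_snd

section star

variable {ρ : Measure (Clause K)} {ν : Measure ℝ} {m : Fin r → ℝ} {x : (Fin (r + 1) → U01) → ℝ}
  {W : Type} [MeasurableSpace W] {P : Measure W} [IsProbabilityMeasure P] {z0 z1 : ℝ}
  {Z : (Fin r → W) → (Fin N → Bool) → ℝ}

theorem LG_int [IsProbabilityMeasure ρ] [NeZero n] (hρ : Integrable (maxTheta : Clause K → ℝ) ρ)
    (hx : IsTrial r m x) (hz : 0 < z0) (hz1 : 0 < z1) (hZ : ∀ σ, Bd z0 z1 fun v => Z v σ)
    (π : Fin n → Fin N) (τ : Fin K → Bool) :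
    Integrable (fun y => LG P m x Z τ (mapY π y)) (cl3 ρ n) :=
  Integrable.mono' (((hρ.comp_fst _).comp_fst _).add (integrable_const _))
    ((measurable_LG hx.2.2.1 hx.2.2.2 hZ τ).comp (measurable_mapY π)).aestronglyMeasurable
    (Eventually.of_forall fun y =>
      LG_abs hx.2.2.1 hx.2.2.2 hz hz1 (fun p => (hx.2.1 p).1) hZ τ (mapY π y))

theorem starP (h : N168I.InClass K ρ ν) (hx : IsTrial r m x) [NeZero n] (π : Fin n → Fin N)
    (hz : 0 < z0) (hz1 : 0 < z1) (hZ : ∀ σ, Bd z0 z1 fun v => Z v σ) :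
    (∫ y, LG P m x Z (fun _ => true) (mapY π y) ∂(cl3 ρ n)) + ((K : ℝ) - 1) *
      (∫ y, LG P m x Z (fun _ => false) (mapY π y) ∂(cl3 ρ n)) ≤
      ∑ l : Fin K, ∫ y, LG P m x Z (fun j => decide (j = l)) (mapY π y) ∂(cl3 ρ n) := by
  have := h.prob_clause
  have hρ := maxTheta_int h
  have hI := fun τ : Fin K → Bool => LG_int (P := P) hρ hx hz hz1 hZ π τ
  obtain ⟨Ω, _, Q, _, θ, a, ψ, hθ, hψm, hψ1, hae, hfo⟩ := h.conv
  have hψ : Measurable ψ := measurable_pi_lambda _ hψm
  have hψn : ∀ ω, ‖ψ ω‖ ≤ 1 := fun ω => (pi_norm_le_iff_of_nonneg zero_le_one).2 (hψ1 ω)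
  have hae1 : ∀ᵐ ω ∂Q, 0 < a ω ∧ ‖ψ ω‖ < 1 ∧ ∀ σ, Real.exp (θ ω σ) = a ω * (1 - ψ ω σ) :=
    hae.mono fun ω hω => ⟨hω.1, (pi_norm_lt_iff one_pos).2 fun σ => (hω.2 σ).1,
      fun σ => (hω.2 σ).2⟩
  have hae2 : ∀ᵐ z ∂(mm K Q ((unif n).prod (volume : Measure U01))), 0 < a z.1 ∧ ‖ψ z.1‖ < 1 ∧
      ∀ σ, Real.exp (θ z.1 σ) = a z.1 * (1 - ψ z.1 σ) :=
    Measure.quasiMeasurePreserving_fst.ae hae1
  obtain ⟨hmono, hm, hxm, hx1⟩ := hx
  have hmp : ∀ p, 0 < m p := fun p => (hm p).1
  have hΨ := Phi_mp (N := n) hθ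
  have hE : Integrable (fun z : Ω × (Fin K → XX n) => EE (ψ z.1))
      (mm K Q ((unif n).prod (volume : Measure U01))) := by
    have h1 : Integrable (fun ω => maxTheta (θ ω)) Q := hθ.integrable_comp_of_integrable hρ
    exact Integrable.mono' ((h1.comp_fst _).const_mul (Fintype.card (Fin K → Bool) * 2))
      (measurable_EE.comp (hψ.comp measurable_fst)).aestronglyMeasurable
      (hae2.mono fun z hz => EE_le hz.1 hz.2.1 hz.2.2)
  have hw := wdata (N := N) hxm hx1
  have hw' : WData fun t (u : XX n) => qvv x t (π u.1, u.2) :=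
    ⟨fun _ _ => hw.qnn _ _, fun _ _ => hw.qsum _ _, fun t σ e => (hw.qmeas t σ e).comp
      ((((measurable_of_finite π).comp measurable_fst.fst).prodMk measurable_fst.snd).prodMk
        measurable_snd)⟩
  obtain ⟨-, hC⟩ := D2 (K := K) (P := P) (PY := (volume : Measure U01)) (β := Q)
    (PX0 := (unif n).prod (volume : Measure U01)) (bb := ψ) h.one_le hw' hz hZ hmp
    (fun p => (hm p).2.le) hmono.monotone hψ hψn hfo (hae1.mono fun ω hω => hω.2.1) hE
  have i1 : Integrable (fun y => LG P m x Z (fun _ => true) (mapY π y) +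
      ((K : ℝ) - 1) * LG P m x Z (fun _ => false) (mapY π y)) (cl3 ρ n) :=
    (hI _).add ((hI _).const_mul _)
  have i2 := integrable_finsetSum univ fun (l : Fin K) _ => hI fun j => decide (j = l)
  rw [← sub_nonpos, ← integral_const_mul, ← integral_finsetSum _ fun l _ => hI _,
    ← integral_add (hI _) ((hI _).const_mul _), ← integral_sub i1 i2]
  refine le_trans (mp_integral hΨ (i1.sub i2).aestronglyMeasurable).ge ?_
  refine le_trans (le_of_eq (integral_congr_ae (hae2.mono fun y hy => ?_))) hC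
  have e : ∀ τ, LG P m x Z τ (mapY π (Phi θ y)) = Real.log (a y.1) +
      LN P volume m Z (gq fun t (u : XX n) => qvv x t (π u.1, u.2)) τ (ψ y.1) y.2 := fun τ =>
    LG_eq hxm hx1 hz (P := P) hmp hZ τ θ (y.1, fun j => (π (y.2 j).1, (y.2 j).2)) hy.1 hy.2.1
      hy.2.2
  simp only [Pi.sub_apply, e, CC, sum_add_distrib, sum_const, card_univ,
    Fintype.card_fin, nsmul_eq_mul]
  ring

theorem LG_close (hx : IsTrial r m x) (hz : 0 < z0) (hZ : ∀ σ, Bd z0 z1 fun v => Z v σ)
    (τ : Fin K → Bool) (y : Y3 K N) :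
    |LG P m x Z τ y - Real.log (N168I.nest P r m fun v => ∑ σ, Z v σ)| ≤ maxTheta y.1.1 := by
  have hc : (0 : ℝ) < Fintype.card (Fin N → Bool) := by exact_mod_cast Fintype.card_pos
  have hm : ∀ p, 0 < m p := fun p => (hx.2.1 p).1
  have h0 : ∀ v σ, 0 ≤ Z v σ := fun v σ => hz.le.trans ((hZ σ).lo v)
  have b1 := SG_bd hx.2.2.1 hx.2.2.2 hz hZ τ y
  have b2 : Bd _ _ fun v : Fin r → W × (Fin K → U01) => ∑ σ, Z (fun p => (v p).1) σ :=
    (sum_bd hZ).comp (measurable_pi_lambda _ fun p => (measurable_pi_apply p).fst)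
  rw [← nest_comp (fst_mp (K := K) (PY := (volume : Measure U01))) r m (fun v => ∑ σ, Z v σ)
    (sum_bd hZ).meas, abs_le, ← sub_nonneg, sub_neg_eq_add, sub_add_eq_add_sub, sub_nonneg,
    sub_le_iff_le_add, add_comm]
  refine ⟨nest_log_close (by positivity) (by positivity) hm b2 b1 fun v => ?_,
    nest_log_close (by positivity) (by positivity) hm b1 b2 fun v => ?_⟩
  · unfold SG
    rw [mul_sum]
    refine sum_le_sum fun σ _ => ?_
    have h1 := mul_le_mul_of_nonneg_left (genF_mem hx.2.2.1 hx.2.2.2 y τ (fun p => (v p).2) σ).1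
      (Real.exp_nonneg (maxTheta y.1.1))
    rw [← Real.exp_add, add_neg_cancel, Real.exp_zero] at h1
    rw [mul_left_comm]
    exact le_mul_of_one_le_right (h0 _ _) h1
  · unfold SG
    rw [mul_sum]
    refine sum_le_sum fun σ _ => ?_
    rw [mul_comm (Real.exp _)]
    exact mul_le_mul_of_nonneg_left (genF_mem hx.2.2.1 hx.2.2.2 y τ _ σ).2 (h0 _ _)

end star

variable {ρ : Measure (Clause K)} {ν : Measure ℝ} {m : Fin r → ℝ} {x : (Fin (r + 1) → U01) → ℝ}
  (hx : IsTrial r m x)

include hx in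
theorem LG_true (ω : Om K N a c) (y : Y3 K N) :
    LG (Measure.pi fun _ => lvM K) m x (wt x ω) (fun _ => true) y = FF m x (insA (ω, y)) := by
  unfold LG
  have h1 : SG x (wt x ω) (fun _ => true) y = fun v : Fin r → (Fin c → Lv K) × (Fin K → U01) =>
      (fun u => ∑ σ, wt x ω u σ * intF y σ) fun p => (v p).1 := by
    funext v
    unfold SG
    simp only [genF_true]
  rw [FF_insA, h1, nest_comp fst_mp r m (fun u => ∑ σ, wt x ω u σ * intF y σ)]
  exact Finset.measurable_fun_sum _ fun σ _ => (wt_bd hx.2.2.1 hx.2.2.2 ω σ).meas.mul_const _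

include hx in
theorem LG_one (ω : Om K N a c) (y : Y3 K N) (l : Fin K) :
    LG (Measure.pi fun _ => lvM K) m x (wt x ω) (fun j => decide (j = l)) y =
      FF m x (insC (ω, toC4 (y, l))) := by
  rw [FF_insC m hx.2.2.1]
  unfold LG SG
  simp only [genF_one]
  rfl

include hx in
theorem LG_false [NeZero N] [NeZero K] (ω : Om K N a c) (y : Y3 K N) :
    LG (Measure.pi fun _ => lvM K) m x (wt x ω) (fun _ => false) y =
      FF m x ω + Real.log (N168I.nest (lvM K) r m fun v => edgF x y v) := by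
  have hm : ∀ p, 0 < m p := fun p => (hx.2.1 p).1
  have hbd := sum_bd (wt_bd hx.2.2.1 hx.2.2.2 ω)
  have hb2 := edgF_bd hx.2.2.1 hx.2.2.2 y
  have hc : (0 : ℝ) < Fintype.card (Fin N → Bool) := by exact_mod_cast Fintype.card_pos
  have h1 := nest_mul (P := Measure.pi fun _ : Fin c => lvM K) (P' := lvM K) r m hm
    (fun v => ∑ σ, wt x ω v σ) (fun v => le_trans (by positivity) (hbd.lo v))
    (fun v => edgF x y v) fun v => (Real.exp_pos _).le.trans (hb2.lo v)
  unfold LG SG
  simp only [genF_false, ← sum_mul]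
  rw [h1, Real.log_mul]
  · rfl
  · exact (lt_of_lt_of_le (by positivity) (nest_mem (P := Measure.pi fun _ : Fin c => lvM K)
      (by positivity) r m hm _ hbd).1).ne'
  · exact ((Real.exp_pos _).trans_le (nest_mem (P := lvM K) (Real.exp_pos _) r m hm _ hb2).1).ne'

include hx in
theorem FF_insA_close (ω : Om K N a c) (y : Y3 K N) :
    |FF m x (insA (ω, y)) - FF m x ω| ≤ maxTheta y.1.1 := by
  rw [← LG_true hx]
  exact LG_close hx (Real.exp_pos _) (wt_bd hx.2.2.1 hx.2.2.2 ω) _ y

include hx in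
theorem FF_insC_close (ω : Om K N a c) (q : C4 K N) :
    |FF m x (insC (ω, q)) - FF m x ω| ≤ maxTheta q.1.1.1 := by
  have h := LG_close (P := Measure.pi fun _ => lvM K) hx (Real.exp_pos _)
    (wt_bd hx.2.2.1 hx.2.2.2 ω) (fun j => decide (j = q.1.1.2)) ((q.1.1.1, fun _ => q.2), q.1.2)
  rwa [LG_one hx] at h

/-- An interaction with its level-`0` variables, placed at the given sites. -/
def mkY (t : Fin K → Fin N) (z : Clause K × Lv K) : Y3 K N := ((z.1, t), z.2)

include hx in
/-- The interpolation inequality for a fixed environment. -/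
theorem step_fixed [IsProbabilityMeasure ρ] [IsProbabilityMeasure ν] [NeZero K] [NeZero N]
    (h : N168I.InClass K ρ ν) [NeZero n] (π : Fin n → Fin N) (ω : Om K N a c) :
    (𝔼 t : Fin K → Fin n, ∫ z, FF m x (insA (ω, mkY (π ∘ t) z)) ∂(ρ.prod (lvM K))) +
      ((K : ℝ) - 1) * (FF m x ω + tV0 ρ r m x) ≤
      K * 𝔼 u : Fin n, ∫ δ, FF m x (insC (ω, (δ, π u))) ∂(TU.dd ρ) := by
  have hρ := maxTheta_int h
  have hZ := wt_bd hx.2.2.1 hx.2.2.2 ω
  have hs := starP (P := Measure.pi fun _ => lvM K) h hx π (Real.exp_pos _) (Real.exp_pos _) hZ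
  have hI := fun τ : Fin K → Bool => LG_int (P := Measure.pi fun _ => lvM K) hρ hx
    (Real.exp_pos _) (Real.exp_pos _) hZ π τ
  have m1 : MeasurePreserving (fun p : (Fin K → Fin n) × (Clause K × Lv K) => mkY p.1 p.2)
      ((Measure.pi fun _ => unif n).prod (ρ.prod (lvM K))) (cl3 ρ n) :=
    (Measure.measurePreserving_swap.prod (MeasurePreserving.id (lvM K))).comp
      (measurePreserving_prodAssoc (Measure.pi fun _ : Fin K => unif n) ρ (lvM K)).symm
  rw [mp_prod m1 (hI _), integral_pi_unif_eq] at hs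
  simp only [LG_true hx, LG_false hx, LG_one hx] at hs
  have e1 : ∫ y, (FF m x ω + Real.log (N168I.nest (lvM K) r m fun v => edgF x (mapY π y) v))
      ∂(cl3 ρ n) = FF m x ω + tV0 ρ r m x := by
    rw [← tV_eq_tV0 hρ hx n]
    exact (integral_add (integrable_const _) (integrable_edge h hx)).trans (by simp [PT.tV])
  rw [e1] at hs
  refine hs.trans (le_of_eq ?_)
  have hG : Integrable (fun q : C4 K n => FF m x (insC (ω, (q.1, π q.2)))) (c4 ρ n) := by
    refine Integrable.mono' ((((hρ.comp_fst _).comp_fst _).comp_fst _).add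
      (integrable_const |FF m x ω|)) ((measurable_FF m hx.2.2.1).comp ?_).aestronglyMeasurable
      (Eventually.of_forall fun q => ?_)
    · exact (insC_mp ρ ν a c).measurable.comp (measurable_const.prodMk (measurable_fst.prodMk
        ((measurable_of_finite π).comp measurable_snd)))
    · exact (abs_sub_abs_le_abs_sub _ _).trans (FF_insC_close hx ω _) |> sub_le_iff_le_add.1
  have e2 := mp_prod ((toC4_mp (K := K) (N := n) ρ).comp Measure.measurePreserving_swap) hG
  rw [KS.integral_unif] at e2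
  have hK : (K : ℝ) ≠ 0 := by exact_mod_cast NeZero.ne K
  rw [← integral_unif_eq]
  refine Eq.trans ?_ (congrArg _ (e2.symm.trans (integral_prod_symm _ hG)))
  rw [← mul_assoc, mul_one_div_cancel hK, one_mul]
  rfl

end Vale.Agent.N168X
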