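import Vale.Agent.N168X.Sys

/-! One step of the cavity method in the configuration model. -/

set_option autoImplicit false
set_option linter.unusedSectionVars false

open MeasureTheory Finset Function Filter Sum
open scoped BigOperators Topology NNReal

namespace Vale.Agent.N168X

open N168I N168I.MP

variable {K d : ℕ} {ρ : Measure (Fn K)} [IsProbabilityMeasure ρ] {ν : Measure ℝ}
  [IsProbabilityMeasure ν] (hρ : Integrable (fun θ : Fn K => ‖θ‖) ρ)
  (hν : Integrable (fun h : ℝ => h) ν) (G : CavFun)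
  {κ κ1 κ' V V1 V' C C' X J : Type} [Fintype κ] [DecidableEq κ] [Fintype κ1] [DecidableEq κ1]
  [Fintype κ'] [DecidableEq κ'] [Fintype V] [DecidableEq V] [Fintype V1] [DecidableEq V1]
  [Fintype V'] [DecidableEq V'] [Fintype C] [DecidableEq C] [Fintype C'] [DecidableEq C']
  [Fintype X] [DecidableEq X] [Fintype J] [DecidableEq J]

/-- The shape of the new part of the system, as a function of the spins at the cavities used. -/
noncomputable def shp (st : κ1 × Fin K → X ⊕ V1) (ω : Dis K κ1 V1) : En X :=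
  mg (Equiv.refl (X ⊕ V1)) (engI st inr ω)

theorem mg_shp (υ : V ⊕ V1 ≃ V') (st : κ1 × Fin K → X ⊕ V1) (t : X → V) (ω : Dis K κ1 V1) :
    mg υ (engI (fun p => υ (Sum.map t id (st p))) (υ ∘ inr) ω) = pb t (shp st ω) := by
  funext σ
  have e : ∀ (τ : V1 → Bool) (y : X ⊕ V1), Sum.elim σ τ (Sum.map t id y) =
      Sum.elim (fun c => σ (t c)) τ y := fun τ y => by cases y <;> rfl
  simp only [mg, pb, shp, engI, comp_apply, Equiv.symm_apply_apply, e, Equiv.refl_symm,
    Equiv.refl_apply, Sum.elim_inr]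

variable (ρ ν) in
/-- The cost of new interactions and new sites. -/
noncomputable def cost (a b : ℕ) : ℝ :=
  a * (∫ θ, ‖θ‖ ∂ρ) + b * ((∫ h, |h| ∂ν) + Real.log 2)

theorem cost_nonneg (a b : ℕ) : 0 ≤ cost ρ ν a b := by
  have h1 : 0 ≤ ∫ θ, ‖θ‖ ∂ρ := integral_nonneg fun _ => norm_nonneg _
  have h2 : 0 ≤ ∫ h, |h| ∂ν := integral_nonneg fun _ => abs_nonneg _
  have h3 : 0 ≤ Real.log 2 := Real.log_nonneg one_le_two
  unfold cost
  positivity

theorem measurable_shp (st : κ1 × Fin K → X ⊕ V1) : Measurable (shp st) :=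
  (measurable_mg _).comp (measurable_engI _ _)

include hρ hν in
theorem integrable_shp (st : κ1 × Fin K → X ⊕ V1) : Integrable (shp st) (dis ρ ν κ1 V1) :=
  integrable_mg hρ hν (Equiv.refl (X ⊕ V1)) st

theorem measurable_pb (t : X → V) : Measurable (pb t) :=
  measurable_pi_lambda _ fun _ => measurable_pi_apply _

theorem integrable_pb {Ω : Type} [MeasurableSpace Ω] {P : Measure Ω} {u : Ω → En X}
    (hm : Measurable u) (hu : Integrable u P) (t : X → V) : Integrable (fun ω => pb t (u ω)) P :=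
  hu.norm.mono' ((measurable_pb t).comp hm).aestronglyMeasurable
    (Eventually.of_forall fun _ => norm_pb_le _ _)

include hρ hν in
theorem shp_near {F : En V → ℝ} (hF : LipschitzWith 1 F) (st : κ1 × Fin K → X ⊕ V1) (t : X → V)
    (H : En V) : |∫ ω, F (H + pb t (shp st ω)) ∂(dis ρ ν κ1 V1) - F H| ≤
      cost ρ ν (Fintype.card κ1) (Fintype.card V1) := by
  refine (lip_near hF (integrable_pb (measurable_shp st) (integrable_shp hρ hν st) t)
    ((integrable_bd hρ hν).add (integrable_const _))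
    (fun ω => (norm_pb_le _ _).trans (norm_mg_le _ (abs_engI_le _ _ ω))) _).trans (le_of_eq ?_)
  simp only [Pi.add_apply]
  rw [integral_add (integrable_bd hρ hν) (integrable_const _), integral_bd hρ hν]
  simp only [integral_const, probReal_univ, smul_eq_mul, cost]
  ring

variable (ρ ν) in
/-- The system with a new part attached at the sites `t`. -/
noncomputable def Att (st : κ1 × Fin K → X ⊕ V1) (I : κ × Fin K → V) (t : X → V) (π : C → V) : ℝ :=
  ∫ ω, (∫ ω1, G.g V C π (engI I id ω + pb t (shp st ω1)) ∂(dis ρ ν κ1 V1)) ∂(dis ρ ν κ V)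

include hρ hν in
theorem Att_int [Nonempty C] (st : κ1 × Fin K → X ⊕ V1) (I : κ × Fin K → V) (t : X → V)
    (π : C → V) : Integrable (fun ω => ∫ ω1, G.g V C π (engI I id ω + pb t (shp st ω1))
      ∂(dis ρ ν κ1 V1)) (dis ρ ν κ V) :=
  lip_int0 (lip_avg (G.lip V C π) (integrable_pb (measurable_shp st) (integrable_shp hρ hν st) t))
    (integrable_engI hρ hν I id)

include hρ hν in
theorem Att_near [Nonempty C] (st : κ1 × Fin K → X ⊕ V1) (I : κ × Fin K → V) (t : X → V)
    (π : C → V) : |Att ρ ν G st I t π - Gam ρ ν G I π| ≤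
      cost ρ ν (Fintype.card κ1) (Fintype.card V1) :=
  abs_integral_sub_le (Att_int hρ hν G st I t π)
    (lip_int0 (G.lip V C π) (integrable_engI hρ hν I id)) fun _ =>
      shp_near hρ hν (G.lip V C π) st t _

include hρ hν in
theorem Att_cav [Nonempty C'] (st : κ1 × Fin K → X ⊕ V1) (I : κ × Fin K → V) (t : X → V)
    (π : C → V) (f : C' → C) (hf : Injective f) :
    |Att ρ ν G st I t π - Att ρ ν G st I t (π ∘ f)| ≤
      G.c1 * (((Fintype.card C : ℝ) - Fintype.card C') / Fintype.card C) := by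
  have : Nonempty C := Nonempty.map f inferInstance
  have i1 := integrable_pb (measurable_shp st) (integrable_shp hρ hν st) t
  exact abs_integral_sub_le (Att_int hρ hν G st I t π) (Att_int hρ hν G st I t _) fun ω =>
    abs_integral_sub_le (lip_integrable (G.lip V C π) i1 _) (lip_integrable (G.lip V C' _) i1 _)
      fun ω1 => G.cav V C C' π f hf _

variable (ρ ν d) in
/-- The cavity functional in the configuration model. -/
noncomputable def AA (κ V C : Type) [Fintype κ] [DecidableEq κ] [Fintype V] [DecidableEq V]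
    [Fintype C] [DecidableEq C] : ℝ :=
  𝔼 b : (κ × Fin K) ⊕ C ≃ V × Fin d,
    Gam ρ ν G (fun p => (b (inl p)).1) (fun c => (b (inr c)).1)

variable (ρ ν d) in
/-- The same, with a new part attached at independent uniform cavities. -/
noncomputable def XA (κ V C : Type) [Fintype κ] [DecidableEq κ] [Fintype V] [DecidableEq V]
    [Fintype C] [DecidableEq C] (st : κ1 × Fin K → X ⊕ V1) (f : X → J) : ℝ :=
  𝔼 b : (κ × Fin K) ⊕ C ≃ V × Fin d, 𝔼 s : J → C,
    Att ρ ν G st (fun p => (b (inl p)).1) (fun x => (b (inr (s (f x)))).1)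
      (fun c => (b (inr c)).1)

variable (ρ ν d) in
/-- The free energy of the configuration model. -/
noncomputable def E0 (κ V : Type) [Fintype κ] [DecidableEq κ] [Fintype V] [DecidableEq V] : ℝ :=
  𝔼 e : κ × Fin K ↪ V × Fin d, Z0 ρ ν fun p => (e p).1

theorem E0_eq {S : Type} [Fintype S] [DecidableEq S]
    (hc : Fintype.card S = Fintype.card (V × Fin d)) (i : κ × Fin K → S) (hi : Injective i) :
    E0 d ρ ν κ V = 𝔼 b : S ≃ V × Fin d, Z0 ρ ν fun p => (b (i p)).1 :=
  (expect_equiv_emb hc i hi fun e => Z0 ρ ν fun p => (e p).1).symm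

include hρ hν in
theorem AA_near [Nonempty C]
    (hc : Fintype.card ((κ × Fin K) ⊕ C) = Fintype.card (V × Fin d)) :
    |AA d ρ ν G κ V C - E0 d ρ ν κ V| ≤ G.c0 := by
  have : Nonempty ((κ × Fin K) ⊕ C ≃ V × Fin d) := ⟨Fintype.equivOfCardEq hc⟩
  rw [E0_eq hc inl inl_injective]
  exact abs_expect_sub_le fun b => Gam_near hρ hν G _ _

include hρ hν in
theorem XA_near [Nonempty C]
    (hc : Fintype.card ((κ × Fin K) ⊕ C) = Fintype.card (V × Fin d))
    (st : κ1 × Fin K → X ⊕ V1) (f : X → J) :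
    |XA d ρ ν G κ V C st f - AA d ρ ν G κ V C| ≤
      cost ρ ν (Fintype.card κ1) (Fintype.card V1) := by
  have : Nonempty ((κ × Fin K) ⊕ C ≃ V × Fin d) := ⟨Fintype.equivOfCardEq hc⟩
  exact abs_expect_sub_le fun b => abs_expect_sub_const fun s => Att_near hρ hν G st _ _ _

include hρ hν in
/-- Attaching a new part at distinct cavities, which are then used up. -/
theorem attach [Nonempty C'] (hc : Fintype.card ((κ × Fin K) ⊕ C) = Fintype.card (V × Fin d))
    (e : κ ⊕ κ1 ≃ κ') (υ : V ⊕ V1 ≃ V') (st : κ1 × Fin K → X ⊕ V1) (i : X → C)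
    (hi : Injective i) (cv : C' → C) (hcv : Injective cv) (f : X → J) (hf : Injective f)
    (ext : ((κ × Fin K) ⊕ C → V) → (κ' × Fin K) ⊕ C' → V')
    (h1 : ∀ w k j, ext w (inl (e (inl k), j)) = υ (inl (w (inl (k, j)))))
    (h2 : ∀ w k j, ext w (inl (e (inr k), j)) =
      υ (Sum.map (fun x => w (inr (i x))) id (st (k, j))))
    (h3 : ∀ w c, ext w (inr c) = υ (inl (w (inr (cv c))))) :
    |XA d ρ ν G κ V C st f - 𝔼 b : (κ × Fin K) ⊕ C ≃ V × Fin d,
        Gam ρ ν G (fun p => ext (fun y => (b y).1) (inl p))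
          (fun c => ext (fun y => (b y).1) (inr c))| ≤
      2 * cost ρ ν (Fintype.card κ1) (Fintype.card V1) *
        ((Fintype.card X : ℝ) ^ 2 / Fintype.card C) +
      G.c1 * (((Fintype.card C : ℝ) - Fintype.card C') / Fintype.card C) := by
  have : Nonempty ((κ × Fin K) ⊕ C ≃ V × Fin d) := ⟨Fintype.equivOfCardEq hc⟩
  have : Nonempty C := Nonempty.map cv inferInstance
  have key : ∀ w : (κ × Fin K) ⊕ C → V,
      Gam ρ ν G (fun p => ext w (inl p)) (fun c => ext w (inr c)) =
        Att ρ ν G st (fun p => w (inl p)) (fun x => w (inr (i x))) fun c => w (inr (cv c)) := by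
    intro w
    have e1 : (fun c => ext w (inr c)) = (υ ∘ inl) ∘ fun c => w (inr (cv c)) := funext (h3 w)
    rw [e1, Gam_ext hρ hν G e υ _ (fun p => w (inl p)) (h1 w)]
    simp only [h2, mg_shp]
    rfl
  simp only [key]
  rw [expect_sym_left (fun g : C ≃ C => (Equiv.refl (κ × Fin K)).sumCongr g)]
  refine abs_expect_sub_le fun b => ?_
  set I : κ × Fin K → V := fun p => (b (inl p)).1 with hI
  set π : C → V := fun c => (b (inr c)).1 with hπ
  have a1 := expect_perm_fun i hi f hf (fun a : X → C => Att ρ ν G st I (π ∘ a) π)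
    fun a => Att_near hρ hν G st I _ π
  have a2 : |𝔼 g : C ≃ C, Att ρ ν G st I (π ∘ (g ∘ i)) π -
      𝔼 g : C ≃ C, Att ρ ν G st I (π ∘ (g ∘ i)) (π ∘ (g ∘ cv))| ≤ _ :=
    abs_expect_sub_le fun g => Att_cav hρ hν G st I _ π _ (g.injective.comp hcv)
  exact (abs_sub_le _ _ _).trans (add_le_add a1 a2)

end Vale.Agent.N168X
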