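import Vale.Agent.N168X.Slot

/-! Systems with given sites: extension by new interactions and new sites. -/

set_option autoImplicit false
set_option linter.unusedSectionVars false

open MeasureTheory Finset Function Filter Sum
open scoped BigOperators Topology NNReal

namespace Vale.Agent.N168X

open N168I N168I.MP

theorem mp_shuffle {A B C D : Type} [MeasurableSpace A] [MeasurableSpace B] [MeasurableSpace C]
    [MeasurableSpace D] (a : Measure A) (b : Measure B) (c : Measure C) (d : Measure D)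
    [IsProbabilityMeasure a] [IsProbabilityMeasure b] [IsProbabilityMeasure c]
    [IsProbabilityMeasure d] :
    MeasurePreserving (fun p : (A × B) × (C × D) => ((p.1.1, p.2.1), (p.1.2, p.2.2)))
      ((a.prod b).prod (c.prod d)) ((a.prod c).prod (b.prod d)) := by
  have h1 := measurePreserving_prodAssoc a b (c.prod d)
  have h2 := (MeasurePreserving.id a).prod (measurePreserving_prodAssoc b c d).symm
  have h3 := (MeasurePreserving.id a).prod
    ((Measure.measurePreserving_swap (μ := b) (ν := c)).prod (MeasurePreserving.id d))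
  have h4 := (MeasurePreserving.id a).prod (measurePreserving_prodAssoc c b d)
  have h5 := (measurePreserving_prodAssoc a c (b.prod d)).symm
  exact h5.comp (h4.comp (h3.comp (h2.comp h1)))

theorem mp_split {X κ κ1 κ' : Type} [MeasurableSpace X] [Fintype κ] [Fintype κ1] [Fintype κ']
    (μ : Measure X) [IsProbabilityMeasure μ] (e : κ ⊕ κ1 ≃ κ') :
    MeasurePreserving (fun w : κ' → X => (fun k => w (e (inl k)), fun k => w (e (inr k))))
      (Measure.pi fun _ => μ) ((Measure.pi fun _ => μ).prod (Measure.pi fun _ => μ)) :=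
  (measurePreserving_sumPiEquivProdPi (X := fun _ : κ ⊕ κ1 => X) fun _ => μ).comp
    (mp_comp_inj μ e e.injective)

variable {K : ℕ}

/-- Interactions and fields. -/
abbrev Dis (K : ℕ) (κ V : Type) : Type := (κ → Fn K) × (V → ℝ)

/-- Their law. -/
noncomputable def dis (ρ : Measure (Fn K)) (ν : Measure ℝ) (κ V : Type) [Fintype κ] [Fintype V] :
    Measure (Dis K κ V) := (Measure.pi fun _ => ρ).prod (Measure.pi fun _ => ν)

/-- The energy of the interactions `κ` and of the fields at the sites `ι v`. -/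
noncomputable def engI {κ V V' : Type} [Fintype κ] [Fintype V] (I : κ × Fin K → V') (ι : V → V')
    (ω : Dis K κ V) : En V' :=
  fun σ => ∑ k, ω.1 k (fun j => σ (I (k, j))) + ∑ v, ω.2 v * spin (σ (ι v))

/-- A bound for the energy. -/
noncomputable def bd {κ V : Type} [Fintype κ] [Fintype V] (ω : Dis K κ V) : ℝ :=
  ∑ k, ‖ω.1 k‖ + ∑ v, |ω.2 v|

section basic

variable {κ V V' : Type} [Fintype κ] [Fintype V] [Fintype V'] [DecidableEq V']

theorem bd_nonneg (ω : Dis K κ V) : 0 ≤ bd ω :=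
  add_nonneg (sum_nonneg fun _ _ => norm_nonneg _) (sum_nonneg fun _ _ => abs_nonneg _)

theorem abs_engI_le (I : κ × Fin K → V') (ι : V → V') (ω : Dis K κ V) (σ : V' → Bool) :
    |engI I ι ω σ| ≤ bd ω := by
  refine (abs_add_le _ _).trans (add_le_add ?_ ?_)
  · exact (abs_sum_le_sum_abs _ _).trans (sum_le_sum fun k _ => abs_le_norm _ _)
  · refine (abs_sum_le_sum_abs _ _).trans (sum_le_sum fun v _ => ?_)
    rw [abs_mul]
    have : |spin (σ (ι v))| = 1 := KS.spin_abs _
    rw [this, mul_one]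

theorem norm_engI_le (I : κ × Fin K → V') (ι : V → V') (ω : Dis K κ V) : ‖engI I ι ω‖ ≤ bd ω :=
  norm_le_of (bd_nonneg ω) (abs_engI_le I ι ω)

theorem measurable_engI (I : κ × Fin K → V') (ι : V → V') :
    Measurable (engI I ι : Dis K κ V → En V') := by
  refine measurable_pi_lambda _ fun σ => Measurable.add ?_ ?_
  · exact Finset.measurable_fun_sum _ fun k _ =>
      (measurable_pi_apply _).comp ((measurable_pi_apply k).comp measurable_fst)
  · exact Finset.measurable_fun_sum _ fun v _ =>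
      ((measurable_pi_apply v).comp measurable_snd).mul_const _

variable {ρ : Measure (Fn K)} [IsProbabilityMeasure ρ] {ν : Measure ℝ} [IsProbabilityMeasure ν]

instance dis_prob : IsProbabilityMeasure (dis ρ ν κ V) := by
  unfold dis; infer_instance

variable (hρ : Integrable (fun θ : Fn K => ‖θ‖) ρ) (hν : Integrable (fun h : ℝ => h) ν)

include hρ hν in
theorem integrable_bd : Integrable (bd : Dis K κ V → ℝ) (dis ρ ν κ V) :=
  ((integrable_finsetSum _ fun k _ => integrable_comp_eval (μ := fun _ : κ => ρ) (i := k)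
    hρ).comp_fst _).add
    ((integrable_finsetSum _ fun v _ => integrable_comp_eval (μ := fun _ : V => ν) (i := v)
      hν.abs).comp_snd _)

include hρ hν in
theorem integral_bd : ∫ ω, bd ω ∂(dis ρ ν κ V) =
    Fintype.card κ * (∫ θ, ‖θ‖ ∂ρ) + Fintype.card V * ∫ h, |h| ∂ν := by
  have i1 : ∀ k : κ, Integrable (fun θ : κ → Fn K => ‖θ k‖) (Measure.pi fun _ => ρ) := fun k =>
    integrable_comp_eval (μ := fun _ : κ => ρ) (i := k) hρ
  have i2 : ∀ v : V, Integrable (fun h : V → ℝ => |h v|) (Measure.pi fun _ => ν) := fun v =>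
    integrable_comp_eval (μ := fun _ : V => ν) (i := v) hν.abs
  unfold bd dis
  rw [integral_add ((integrable_finsetSum _ fun k _ => i1 k).comp_fst _)
    ((integrable_finsetSum _ fun v _ => i2 v).comp_snd _),
    integral_fun_fst (fun θ : κ → Fn K => ∑ k, ‖θ k‖),
    integral_fun_snd (fun h : V → ℝ => ∑ v, |h v|), integral_finsetSum _ fun k _ => i1 k,
    integral_finsetSum _ fun v _ => i2 v]
  have e1 : ∀ k : κ, ∫ θ : κ → Fn K, ‖θ k‖ ∂(Measure.pi fun _ => ρ) = ∫ θ, ‖θ‖ ∂ρ := fun k =>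
    integral_comp_eval (μ := fun _ : κ => ρ) (i := k) hρ.aestronglyMeasurable
  have e2 : ∀ v : V, ∫ h : V → ℝ, |h v| ∂(Measure.pi fun _ => ν) = ∫ h, |h| ∂ν := fun v =>
    integral_comp_eval (μ := fun _ : V => ν) (i := v) hν.abs.aestronglyMeasurable
  simp [e1, e2]

include hρ hν in
theorem integrable_engI (I : κ × Fin K → V') (ι : V → V') :
    Integrable (engI I ι : Dis K κ V → En V') (dis ρ ν κ V) :=
  (integrable_bd hρ hν).mono' (measurable_engI I ι).aestronglyMeasurable
    (Eventually.of_forall (norm_engI_le I ι))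

end basic

/-- Integrals of Lipschitz functions of a sum of two independent vectors. -/
theorem lip_near {E Ω : Type} [NormedAddCommGroup E] [MeasurableSpace Ω] {μ : Measure Ω}
    [IsProbabilityMeasure μ] {F : E → ℝ} (hF : LipschitzWith 1 F) {u : Ω → E}
    (hu : Integrable u μ) {b : Ω → ℝ} (hb : Integrable b μ) (h : ∀ ω, ‖u ω‖ ≤ b ω) (H : E) :
    |∫ ω, F (H + u ω) ∂μ - F H| ≤ ∫ ω, b ω ∂μ := by
  have i1 := lip_integrable hF hu H
  have e : ∫ ω, F (H + u ω) ∂μ - F H = ∫ ω, (F (H + u ω) - F H) ∂μ := by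
    rw [integral_sub i1 (integrable_const _)]
    simp
  rw [e]
  refine abs_integral_le_integral_abs.trans (integral_mono (i1.sub (integrable_const _)).abs hb
    fun ω => ?_)
  have h1 := lip_bound hF H (u ω)
  rw [NNReal.coe_one, one_mul] at h1
  exact h1.trans (h ω)

theorem abs_integral_sub_le {Ω : Type} [MeasurableSpace Ω] {μ : Measure Ω}
    [IsProbabilityMeasure μ] {F G : Ω → ℝ} (hF : Integrable F μ) (hG : Integrable G μ) {c : ℝ}
    (h : ∀ ω, |F ω - G ω| ≤ c) : |∫ ω, F ω ∂μ - ∫ ω, G ω ∂μ| ≤ c := by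
  rw [← integral_sub hF hG]
  refine abs_integral_le_integral_abs.trans ?_
  have := integral_mono (hF.sub hG).abs (integrable_const c) h
  simpa using this

theorem lip_avg {E Ω : Type} [NormedAddCommGroup E] [MeasurableSpace Ω] {μ : Measure Ω}
    [IsProbabilityMeasure μ] {F : E → ℝ} (hF : LipschitzWith 1 F) {u : Ω → E}
    (hu : Integrable u μ) : LipschitzWith 1 fun H => ∫ ω, F (H + u ω) ∂μ :=
  Top_lip μ u hu ⟨F, 1, hF⟩ hF

theorem lip_int0 {E Ω : Type} [NormedAddCommGroup E] [MeasurableSpace Ω] {μ : Measure Ω}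
    [IsProbabilityMeasure μ] {F : E → ℝ} (hF : LipschitzWith 1 F) {u : Ω → E}
    (hu : Integrable u μ) : Integrable (fun ω => F (u ω)) μ := by
  simpa using lip_integrable hF hu 0

theorem integral_expect {Ω A : Type} [MeasurableSpace Ω] {μ : Measure Ω} [Fintype A]
    {F : A → Ω → ℝ} (hF : ∀ a, Integrable (F a) μ) :
    ∫ ω, (𝔼 a, F a ω) ∂μ = 𝔼 a, ∫ ω, F a ω ∂μ := by
  simp only [Fintype.expect_eq_sum_div_card]
  rw [integral_div, integral_finsetSum _ fun a _ => hF a]

section ext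

variable {κ κ1 κ' V V1 V' : Type} [Fintype κ] [Fintype κ1] [Fintype κ'] [Fintype V]
  [DecidableEq V] [Fintype V1] [DecidableEq V1] [Fintype V'] [DecidableEq V']

/-- Summation over the new spins. -/
noncomputable def mg (υ : V ⊕ V1 ≃ V') (R : En V') : En V :=
  fun σ => Real.log (∑ τ : V1 → Bool, Real.exp (R fun v => Sum.elim σ τ (υ.symm v)))

theorem lz_mg (υ : V ⊕ V1 ≃ V') (H : En V) (R : En V') :
    lz (pb (υ ∘ inl) H + R) = lz (H + mg υ R) := by
  unfold lz
  congr 1
  have e : ∀ σ : V → Bool, Real.exp ((H + mg υ R) σ) =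
      ∑ τ : V1 → Bool, Real.exp (H σ + R fun v => Sum.elim σ τ (υ.symm v)) := by
    intro σ
    rw [Pi.add_apply, Real.exp_add, mg, Real.exp_log
      (sum_pos (fun _ _ => Real.exp_pos _) univ_nonempty), mul_sum]
    simp only [Real.exp_add]
  simp only [e]
  rw [← Fintype.sum_prod_type']
  refine (Fintype.sum_equiv ((Equiv.sumArrowEquivProdArrow V V1 Bool).symm.trans
    (υ.arrowCongr (Equiv.refl Bool))) _ _ fun p => ?_).symm
  congr 1
  rw [Pi.add_apply]
  congr 1
  unfold pb
  congr 1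
  funext v
  simp
  rfl

theorem norm_mg_le (υ : V ⊕ V1 ≃ V') {R : En V'} {c : ℝ} (h : ∀ σ, |R σ| ≤ c) :
    ‖mg υ R‖ ≤ c + Fintype.card V1 * Real.log 2 := by
  have hc : 0 ≤ c := (abs_nonneg _).trans (h fun _ => true)
  have hl : 0 ≤ Real.log 2 := Real.log_nonneg one_le_two
  refine norm_le_of (by positivity) fun σ => ?_
  have e0 : lz (0 : En V1) = Fintype.card V1 * Real.log 2 := by
    unfold lz
    simp
  have h1 : lz (fun τ : V1 → Bool => R fun v => Sum.elim σ τ (υ.symm v)) ≤ lz (0 : En V1) + c :=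
    lz_mono fun τ => by rw [Pi.zero_apply, zero_add]; exact (abs_le.1 (h _)).2
  have h2 : lz (0 : En V1) ≤ lz (fun τ : V1 → Bool => R fun v => Sum.elim σ τ (υ.symm v)) + c :=
    lz_mono fun τ => by rw [Pi.zero_apply]; linarith [(abs_le.1 (h fun v =>
      Sum.elim σ τ (υ.symm v))).1]
  have h3 : (0 : ℝ) ≤ Fintype.card V1 * Real.log 2 := by positivity
  change |lz (fun τ : V1 → Bool => R fun v => Sum.elim σ τ (υ.symm v))| ≤ _
  rw [abs_le]
  constructor <;> linarith

theorem measurable_mg (υ : V ⊕ V1 ≃ V') : Measurable (mg υ : En V' → En V) :=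
  measurable_pi_lambda _ fun _ => Measurable.log
    (Finset.measurable_fun_sum _ fun _ _ => (measurable_pi_apply _).exp)

variable {ρ : Measure (Fn K)} [IsProbabilityMeasure ρ] {ν : Measure ℝ} [IsProbabilityMeasure ν]
  (hρ : Integrable (fun θ : Fn K => ‖θ‖) ρ) (hν : Integrable (fun h : ℝ => h) ν)

include hρ hν in
theorem integrable_mg (υ : V ⊕ V1 ≃ V') (I1 : κ1 × Fin K → V') :
    Integrable (fun ω : Dis K κ1 V1 => mg υ (engI I1 (υ ∘ inr) ω)) (dis ρ ν κ1 V1) :=
  ((integrable_bd hρ hν).add (integrable_const _)).mono'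
    ((measurable_mg υ).comp (measurable_engI _ _)).aestronglyMeasurable
    (Eventually.of_forall fun ω => norm_mg_le υ (abs_engI_le _ _ ω))

include hρ hν in
/-- A system with more interactions and more sites, seen from the smaller system. -/
theorem integral_ext (e : κ ⊕ κ1 ≃ κ') (υ : V ⊕ V1 ≃ V') (I' : κ' × Fin K → V')
    (I : κ × Fin K → V) (hI : ∀ k j, I' (e (inl k), j) = υ (inl (I (k, j)))) {F' : En V' → ℝ}
    {F : En V → ℝ} (hF : LipschitzWith 1 F)
    (hFF : ∀ (H : En V) (R : En V'), F' (pb (υ ∘ inl) H + R) = F (H + mg υ R)) :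
    ∫ ω, F' (engI I' id ω) ∂(dis ρ ν κ' V') =
      ∫ ω, (∫ ω1, F (engI I id ω + mg υ (engI (fun p => I' (e (inr p.1), p.2)) (υ ∘ inr) ω1))
        ∂(dis ρ ν κ1 V1)) ∂(dis ρ ν κ V) := by
  have hmp : MeasurePreserving (fun ω : Dis K κ' V' =>
      (((fun k => ω.1 (e (inl k)), fun v => ω.2 (υ (inl v))) : Dis K κ V),
        ((fun k => ω.1 (e (inr k)), fun v => ω.2 (υ (inr v))) : Dis K κ1 V1)))
      (dis ρ ν κ' V') ((dis ρ ν κ V).prod (dis ρ ν κ1 V1)) :=
    (mp_shuffle _ _ _ _).comp ((mp_split ρ e).prod (mp_split ν υ))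
  have hi : Integrable (fun p : Dis K κ V × Dis K κ1 V1 => F (engI I id p.1 +
      mg υ (engI (fun p => I' (e (inr p.1), p.2)) (υ ∘ inr) p.2)))
      ((dis ρ ν κ V).prod (dis ρ ν κ1 V1)) :=
    lip_int0 hF (((integrable_engI hρ hν I id).comp_fst _).add
      ((integrable_mg hρ hν υ _).comp_snd _))
  rw [← integral_prod _ hi, ← PT.mp_integral hmp hi.aestronglyMeasurable]
  congr 1
  funext ω
  rw [← hFF]
  congr 1
  funext σ
  simp only [engI, pb, Pi.add_apply, id, comp_apply]
  rw [← e.sum_comp, ← υ.sum_comp, Fintype.sum_sum_type, Fintype.sum_sum_type]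
  simp only [hI]
  ring

variable (ρ ν) in
/-- The mean log partition function for given sites. -/
noncomputable def Z0 (I : κ × Fin K → V) : ℝ := ∫ ω, lz (engI I id ω) ∂(dis ρ ν κ V)

include hρ hν in
theorem Z0_ext (e : κ ⊕ κ1 ≃ κ') (υ : V ⊕ V1 ≃ V') (I' : κ' × Fin K → V')
    (I : κ × Fin K → V) (hI : ∀ k j, I' (e (inl k), j) = υ (inl (I (k, j)))) :
    |Z0 ρ ν I' - Z0 ρ ν I| ≤ Fintype.card κ1 * (∫ θ, ‖θ‖ ∂ρ) +
      Fintype.card V1 * ((∫ h, |h| ∂ν) + Real.log 2) := by
  unfold Z0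
  rw [integral_ext hρ hν e υ I' I hI lz_lip (lz_mg υ)]
  have i1 := integrable_mg hρ hν υ fun p : κ1 × Fin K => I' (e (inr p.1), p.2)
  refine abs_integral_sub_le (lip_int0 (lip_avg lz_lip i1) (integrable_engI hρ hν I id))
    (lip_int0 lz_lip (integrable_engI hρ hν I id)) fun ω => ?_
  refine (lip_near lz_lip i1 ((integrable_bd hρ hν).add (integrable_const _))
    (fun ω => norm_mg_le υ (abs_engI_le _ _ ω)) _).trans (le_of_eq ?_)
  simp only [Pi.add_apply]
  rw [integral_add (integrable_bd hρ hν) (integrable_const _), integral_bd hρ hν]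
  simp only [integral_const, probReal_univ, smul_eq_mul]
  ring

include hρ hν in
theorem abs_Z0_le (I : κ × Fin K → V) : |Z0 ρ ν I| ≤ Fintype.card κ * (∫ θ, ‖θ‖ ∂ρ) +
      Fintype.card V * ((∫ h, |h| ∂ν) + Real.log 2) := by
  have h1 := lip_near lz_lip (integrable_engI hρ hν I id) (integrable_bd hρ hν)
    (norm_engI_le I id) 0
  have e0 : lz (0 : En V) = Fintype.card V * Real.log 2 := by
    unfold lz
    simp
  have hl : 0 ≤ Real.log 2 := Real.log_nonneg one_le_two
  have h3 : (0 : ℝ) ≤ Fintype.card V * Real.log 2 := by positivity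
  rw [integral_bd hρ hν, e0] at h1
  simp only [zero_add] at h1
  unfold Z0
  rw [abs_le] at h1 ⊢
  constructor <;> linarith [h1.1, h1.2]

variable (ρ ν) in
/-- The mean of the cavity functional for given sites and cavities. -/
noncomputable def Gam (G : CavFun) {C : Type} [Fintype C] [DecidableEq C] (I : κ × Fin K → V)
    (π : C → V) : ℝ := ∫ ω, G.g V C π (engI I id ω) ∂(dis ρ ν κ V)

include hρ hν in
theorem Gam_near (G : CavFun) {C : Type} [Fintype C] [DecidableEq C] [Nonempty C]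
    (I : κ × Fin K → V) (π : C → V) : |Gam ρ ν G I π - Z0 ρ ν I| ≤ G.c0 :=
  abs_integral_sub_le (lip_int0 (G.lip V C π) (integrable_engI hρ hν I id))
    (lip_int0 lz_lip (integrable_engI hρ hν I id)) fun _ => G.near V C π _

include hρ hν in
theorem Gam_ext (G : CavFun) {C : Type} [Fintype C] [DecidableEq C] [Nonempty C]
    (e : κ ⊕ κ1 ≃ κ') (υ : V ⊕ V1 ≃ V') (I' : κ' × Fin K → V')
    (I : κ × Fin K → V) (hI : ∀ k j, I' (e (inl k), j) = υ (inl (I (k, j)))) (π : C → V) :
    Gam ρ ν G I' ((υ ∘ inl) ∘ π) = ∫ ω, (∫ ω1, G.g V C π (engI I id ω +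
      mg υ (engI (fun p => I' (e (inr p.1), p.2)) (υ ∘ inr) ω1))
        ∂(dis ρ ν κ1 V1)) ∂(dis ρ ν κ V) :=
  integral_ext hρ hν e υ I' I hI (G.lip V C π) fun H R => G.marg V V' C π _ _ _ fun φ => by
    rw [add_right_comm, ← pb_add, lz_mg, add_right_comm]

end ext

theorem meanLogZ_eq {N M : ℕ} {ρ : Measure (Fn K)} [IsProbabilityMeasure ρ] {ν : Measure ℝ}
    [IsProbabilityMeasure ν] (hρ : Integrable (fun θ : Fn K => ‖θ‖) ρ)
    (hν : Integrable (fun h : ℝ => h) ν) (I : Fin M × Fin K → Fin N) :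
    meanLogZ ρ ν (fun k j => I (k, j)) = Z0 ρ ν I :=
  (integral_prod _ (lip_int0 (lz_lip (V := Fin N)) (integrable_engI hρ hν I id))).symm

end Vale.Agent.N168X
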