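import Vale.Agent.N168X.Pattern

/-! The trial values of the two shapes, and the comparison of the two attachments. -/

set_option autoImplicit false
set_option linter.unusedSectionVars false

open MeasureTheory Finset Function Filter Sum
open scoped BigOperators Topology NNReal

namespace Vale.Agent.N168X

open N168I N168I.MP

variable {K d : ℕ} {ρ : Measure (Fn K)} [IsProbabilityMeasure ρ] {ν : Measure ℝ}
  [IsProbabilityMeasure ν] (hρ : Integrable (fun θ : Fn K => ‖θ‖) ρ)
  (hν : Integrable (fun h : ℝ => h) ν)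

include hρ in
theorem int_maxTheta : Integrable (maxTheta : Clause K → ℝ) ρ :=
  hρ.mono' measurable_maxTheta.aestronglyMeasurable (Eventually.of_forall fun c => by
    rw [Real.norm_eq_abs, abs_of_nonneg (maxTheta_nonneg c)]
    exact ciSup_le fun σ => abs_le_norm c σ)

theorem pav_arr' {n : ℕ} {κ : Type} [Fintype κ] [DecidableEq κ] (f : Fin n → (κ → Bool) → ℝ)
    (y : Fin n × κ → ℝ) :
    pav (fun τ : Fin n × κ → Bool => ∏ k, f k (fun j => τ (k, j))) y =
      ∏ k, pav (f k) (fun j => y (k, j)) := by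
  have h := Finset.prod_univ_sum (fun _ : Fin n => (Finset.univ : Finset (κ → Bool)))
    (fun k τ => f k τ * ∏ j, pr (y (k, j)) (τ j))
  rw [Fintype.piFinset_univ] at h
  unfold pav
  rw [h]
  refine Fintype.sum_equiv (Equiv.curry (Fin n) κ Bool) _ _ fun τ => ?_
  rw [Finset.prod_mul_distrib]
  congr 1
  rw [← Finset.univ_product_univ, Finset.prod_product]
  rfl

section trial

variable {r : ℕ} {m : Fin r → ℝ} {x : (Fin (r + 1) → U01) → ℝ} (hx : IsTrial r m x)

include hx in
theorem trF_sum {n : ℕ} {κ : Type} [Fintype κ] [DecidableEq κ] (φ : Fin n → En κ) :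
    trF m x (fun τ : Fin n × κ → Bool => ∑ i, φ i fun p => τ (i, p)) = ∑ i, trF m x (φ i) := by
  unfold trF
  rw [← PT.hierLog_prod (fun p => (hx.2.1 p).1) (t := fun i => ‖φ i‖)
    (E := fun i (w : κ → U01) v => mlin (fun σ => Real.exp (φ i σ)) (message x w v))
    (fun i => measurable_mlin_message hx.2.2.1 _) (fun i w v => (trF_bd hx (φ i) w).lo v)
    fun i w v => (trF_bd hx (φ i) w).hi v]
  congr 1
  funext w v
  simp only [Real.exp_sum, mlin_eq_pav]
  exact pav_arr' (fun i σ => Real.exp (φ i σ)) _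

variable [NeZero K]

include hx in
theorem tV_eq_trF (n : ℕ) : tV ρ m x n = ∫ θ : Fin n → Fn K, trF m x (lV θ)
    ∂(Measure.pi fun _ => ρ) := by
  unfold tV
  congr 1
  funext ω
  unfold trF
  have e : (fun σ => Real.exp (lV ω σ)) = QV ω := by
    funext σ
    unfold lV
    rw [Real.exp_log]
    exact lt_of_lt_of_le (Real.exp_pos _) (QV_mem ω σ).1
  simp only [e, mlin_eq_pav, pav_QV]
  rfl

include hx hρ in
theorem tV_lin (n : ℕ) : tV ρ m x n = n * PT.tV0 ρ r m x := by
  obtain ⟨-, hm', hxm, hx1⟩ := hx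
  have hm : ∀ p, 0 < m p := fun p => (hm' p).1
  have h2 : ∀ ω : Fin n → Clause K,
      hierLog r m (fun w v => ∏ k, edgeFactor (ω k) fun j => message x w v (k, j)) =
      ∑ k, PT.tv r m x (ω k) := by
    intro ω
    exact PT.hierLog_prod hm (t := fun k => maxTheta (ω k))
      (E := fun k (w : Fin K → U01) v => edgeFactor (ω k) fun j => message x w v j)
      (fun k => PT.measurable_edge measurable_const fun j => PT.measurable_message hxm j)
      (fun k w v => (PT.edge_bd hxm hx1 (ω k) w).lo v)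
      (fun k w v => (PT.edge_bd hxm hx1 (ω k) w).hi v)
  change (∫ ω : Fin n → Clause K,
      hierLog r m (fun w v => ∏ k, edgeFactor (ω k) fun j => message x w v (k, j))
      ∂(Measure.pi fun _ => ρ)) = _
  simp_rw [h2]
  have i1 := PT.integrable_tv (int_maxTheta hρ) hm hxm hx1
  rw [integral_finsetSum _ fun k _ => integrable_comp_eval (μ := fun _ : Fin n => ρ) (i := k) i1]
  have h3 : ∀ k : Fin n, ∫ ω : Fin n → Clause K, PT.tv r m x (ω k) ∂(Measure.pi fun _ => ρ) =
      PT.tV0 ρ r m x := fun k =>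
    integral_comp_eval (μ := fun _ : Fin n => ρ) (i := k) i1.aestronglyMeasurable
  simp [h3]

include hρ hν in
theorem integrable_lU (n : ℕ) : Integrable (lU : (Fin n → Clause K × Fin K) × ℝ → SE K n)
    ((Measure.pi fun _ => ρ.prod (unif K)).prod ν) :=
  (integrable_bU ρ (int_maxTheta hρ) ν hν n).mono' measurable_lU.aestronglyMeasurable
    (Eventually.of_forall norm_lU_le)

include hx hρ hν in
theorem tU_eq_trF (n : ℕ) : tU ρ ν m x n = ∫ z : (Fin n → Clause K × Fin K) × ℝ, trF m x (lU z)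
    ∂((Measure.pi fun _ => ρ.prod (unif K)).prod ν) := by
  rw [integral_prod _ (lip_int0 (trF_lip hx) (integrable_lU hρ hν n))]
  unfold tU
  congr 1
  funext ω
  congr 1
  funext t
  unfold trF
  have e : (fun σ => Real.exp (lU (ω, t) σ)) = QU ω t := by
    funext σ
    unfold lU
    rw [Real.exp_log]
    exact lt_of_lt_of_le (mul_pos (Finset.sum_pos (fun e _ => Real.exp_pos _)
      Finset.univ_nonempty) (Real.exp_pos _)) (QU_mem ω t σ).1
  simp only [e, mlin_eq_pav, pav_QU]
  rfl

end trial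

/-- The randomness of `K` new sites. -/
abbrev OmU (K d : ℕ) : Type := (Fin K × Fin d → Fin K) × Dis K (Fin K × Fin d) (Fin K)

/-- The shape of `K` new sites. -/
noncomputable def shU (z : OmU K d) : En (Fin K × (Fin d × Fin K)) :=
  pb (fun x : XS z.1 => Equiv.prodAssoc _ _ _ x.1) (shp (stU z.1) z.2)

/-- The data of one new site. -/
def prU (i : Fin K) (z : OmU K d) : (Fin d → Clause K × Fin K) × ℝ :=
  (fun k => (z.2.1 (i, k), z.1 (i, k)), z.2.2 i)

variable [NeZero K]

theorem shU_eq (z : OmU K d) :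
    shU z = fun τ => ∑ i, lU (prU i z) fun p => τ (i, p) := by
  funext τ
  have hp : ∀ i, 0 < QU (prU i z).1 (prU i z).2 fun p => τ (i, p) := fun i =>
    lt_of_lt_of_le (mul_pos (Finset.sum_pos (fun e _ => Real.exp_pos _)
      Finset.univ_nonempty) (Real.exp_pos _)) (QU_mem _ _ _).1
  unfold lU
  rw [← Real.log_prod fun i _ => (hp i).ne']
  unfold QU
  rw [Finset.prod_univ_sum, Fintype.piFinset_univ]
  unfold shU pb shp mg
  congr 1
  refine sum_congr rfl fun τ1 _ => ?_
  simp only [engI, prU, Equiv.refl_symm, Equiv.refl_apply, Sum.elim_inr]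
  rw [Real.exp_add, Real.exp_sum, Real.exp_sum, Fintype.prod_prod_type, prod_mul_distrib,
    mul_comm]
  congr 1
  refine prod_congr rfl fun i _ => prod_congr rfl fun k _ => ?_
  unfold theta
  refine congrArg Real.exp (congrArg (z.2.1 (i, k)) (funext fun j => ?_))
  unfold stU
  split_ifs with h
  · have h' : j = z.1 (i, k) := h
    rw [h', Function.update_self]
    rfl
  · rw [Function.update_of_ne h]
    rfl

variable (ρ ν d) in
/-- The law of the data of `K` new sites. -/
noncomputable def PU : Measure (OmU K d) :=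
  (Measure.pi fun _ => unif K).prod (dis ρ ν (Fin K × Fin d) (Fin K))

instance PU_prob : IsProbabilityMeasure (PU d ρ ν) := by
  unfold PU; infer_instance

theorem prU_mp (i : Fin K) : MeasurePreserving (prU (d := d) i) (PU d ρ ν)
    ((Measure.pi fun _ => ρ.prod (unif K)).prod ν) := by
  have hi : Injective fun k : Fin d => (i, k) := fun a b h => (Prod.mk.inj h).2
  have h1 := (mp_comp_inj (unif K) _ hi).prod ((mp_comp_inj ρ _ hi).prod
    (measurePreserving_eval (fun _ : Fin K => ν) i))
  have h2 := (measurePreserving_prodAssoc (Measure.pi fun _ : Fin d => unif K)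
    (Measure.pi fun _ : Fin d => ρ) ν).symm
  have h3 := (Measure.measurePreserving_swap (μ := Measure.pi fun _ : Fin d => unif K)
    (ν := Measure.pi fun _ : Fin d => ρ)).prod (MeasurePreserving.id ν)
  have h4 := (measurePreserving_arrowProdEquivProdArrow (Clause K) (Fin K) (Fin d)
    (fun _ => ρ) (fun _ => unif K)).symm.prod (MeasurePreserving.id ν)
  exact h4.comp (h3.comp (h2.comp h1))

theorem measurable_shU : Measurable (shU : OmU K d → _) := by
  have e : (shU : OmU K d → _) = fun z τ => ∑ i, lU (prU i z) fun p => τ (i, p) :=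
    funext shU_eq
  rw [e]
  refine measurable_pi_lambda _ fun τ => Finset.measurable_fun_sum _ fun i _ => ?_
  refine (measurable_pi_apply _).comp (measurable_lU.comp ?_)
  exact (prU_mp (ρ := Measure.dirac 0) (ν := Measure.dirac 0) i).measurable

include hρ hν in
theorem integrable_shU : Integrable (shU : OmU K d → _) (PU d ρ ν) :=
  (((integrable_bd hρ hν).add (integrable_const _)).comp_snd _).mono'
    measurable_shU.aestronglyMeasurable (Eventually.of_forall fun z =>
      (norm_pb_le _ _).trans (norm_mg_le _ (abs_engI_le _ _ z.2)))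

include hρ hν in
theorem trial_shU {r : ℕ} {m : Fin r → ℝ} {x : (Fin (r + 1) → U01) → ℝ} (hx : IsTrial r m x) :
    ∫ z, trF m x (shU z) ∂(PU d ρ ν) = K * tU ρ ν m x d := by
  have i1 := lip_int0 (trF_lip hx) (integrable_lU hρ hν d)
  simp only [shU_eq, trF_sum hx]
  rw [integral_finsetSum (f := fun i z => trF m x (lU (prU i z))) _ fun i _ =>
    (prU_mp i).integrable_comp_of_integrable i1]
  have e : ∀ i : Fin K, ∫ z, trF m x (lU (prU i z)) ∂(PU d ρ ν) = tU ρ ν m x d := fun i => by
    rw [tU_eq_trF hρ hν hx]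
    exact PT.mp_integral (prU_mp i) i1.aestronglyMeasurable
  simp [e]

theorem shp_inl {n : ℕ} (ω : Dis K (Fin n) Empty) :
    shp (inl : Fin n × Fin K → (Fin n × Fin K) ⊕ Empty) ω = lV ω.1 := by
  funext τ
  unfold shp mg lV QV
  congr 1
  rw [Fintype.sum_unique, ← Real.exp_sum]
  simp only [engI, univ_eq_empty, sum_empty, add_zero]
  rfl

include hρ in
theorem trial_shV {n : ℕ} {J : Type} [Fintype J] [DecidableEq J] (f : Fin n × Fin K → J)
    (hf : Injective f) {r : ℕ} {m : Fin r → ℝ} {x : (Fin (r + 1) → U01) → ℝ}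
    (hx : IsTrial r m x) :
    ∫ ω, trF m x (pb f (shp (inl : Fin n × Fin K → (Fin n × Fin K) ⊕ Empty) ω))
      ∂(dis ρ ν (Fin n) Empty) = n * tV ρ m x 1 := by
  have e : ∀ ω : Dis K (Fin n) Empty,
      trF m x (pb f (shp (inl : Fin n × Fin K → (Fin n × Fin K) ⊕ Empty) ω)) =
        trF m x (lV ω.1) := fun ω => by
    rw [shp_inl]
    exact trF_emb hx f hf _
  simp only [e]
  unfold dis
  rw [integral_fun_fst (fun θ : Fin n → Fn K => trF m x (lV θ)), ← tV_eq_trF hx, tV_lin hρ hx,
    tV_lin hρ hx]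
  simp

theorem integral_PU {F : OmU K d → ℝ} (hF : Integrable F (PU d ρ ν)) :
    ∫ z, F z ∂(PU d ρ ν) =
      𝔼 l : Fin K × Fin d → Fin K, ∫ ω, F (l, ω) ∂(dis ρ ν (Fin K × Fin d) (Fin K)) := by
  unfold PU at hF ⊢
  rw [integral_prod _ hF, integral_pi_unif, Fintype.expect_eq_sum_div_card, Fintype.card_fun,
    Fintype.card_fin K]
  push_cast
  rw [one_div, inv_pow, div_eq_inv_mul]

include hρ hν in
/-- The comparison of the two attachments. -/
theorem exists_compare (f : Fin ((K - 1) * d) × Fin K → Fin K × (Fin d × Fin K))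
    (hf : Injective f) {M0 : ℝ}
    (hM0 : ∀ (r : ℕ) (m : Fin r → ℝ) (x : (Fin (r + 1) → U01) → ℝ), IsTrial r m x →
      M0 ≤ tU ρ ν m x d - d * (K - 1) / K * tV ρ m x 1) {ε : ℝ} (hε : 0 < ε) :
    ∃ G : CavFun, ∀ (a N n : ℕ) [NeZero n],
      Fintype.card ((Fin a × Fin K) ⊕ Fin n) = Fintype.card (Fin N × Fin d) →
      K * M0 - 6 * ε ≤ (𝔼 l : Fin K × Fin d → Fin K, XA d ρ ν G (Fin a) (Fin N) (Fin n) (stU l)
          fun x => Equiv.prodAssoc _ _ _ x.1) -
        XA d ρ ν G (Fin a) (Fin N) (Fin n) (inl : _ → (Fin ((K - 1) * d) × Fin K) ⊕ Empty) f := by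
  have hK : (0 : ℝ) < K := by exact_mod_cast NeZero.pos K
  have hvm : Measurable fun ω : Dis K (Fin ((K - 1) * d)) Empty =>
      pb f (shp (inl : _ → (Fin ((K - 1) * d) × Fin K) ⊕ Empty) ω) :=
    (measurable_pb f).comp (measurable_shp _)
  have hvi := integrable_pb (measurable_shp _)
    (integrable_shp hρ hν (inl : _ → (Fin ((K - 1) * d) × Fin K) ⊕ Empty)) f
  obtain ⟨G, hG⟩ := exists_cavFun (PU d ρ ν) (dis ρ ν (Fin ((K - 1) * d)) Empty)
    measurable_shU (integrable_shU hρ hν) hvm hvi (M0 := K * M0) (fun r m x hx => by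
      rw [trial_shU hρ hν hx, trial_shV hρ f hf hx]
      have h1 := mul_le_mul_of_nonneg_left (hM0 r m x hx) hK.le
      refine h1.trans (le_of_eq ?_)
      rw [Nat.cast_mul, Nat.cast_sub (NeZero.one_le), Nat.cast_one]
      field_simp) hε
  refine ⟨G, fun a N n _ hc => ?_⟩
  have : Nonempty ((Fin a × Fin K) ⊕ Fin n ≃ Fin N × Fin d) := ⟨Fintype.equivOfCardEq hc⟩
  unfold XA
  rw [expect_comm, ← expect_sub_distrib]
  refine le_expect univ_nonempty fun b _ => ?_
  set I : Fin a × Fin K → Fin N := fun p => (b (inl p)).1 with hI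
  set π : Fin n → Fin N := fun c => (b (inr c)).1 with hπ
  have hg := G.lip (Fin N) (Fin n) π
  have iU := fun (l : Fin K × Fin d → Fin K) (s : Fin K × (Fin d × Fin K) → Fin n) =>
    Att_int hρ hν G (stU l) I (fun x => π (s (Equiv.prodAssoc _ _ _ x.1))) π
  have iV := fun (s : Fin K × (Fin d × Fin K) → Fin n) =>
    Att_int hρ hν G (inl : _ → (Fin ((K - 1) * d) × Fin K) ⊕ Empty) I (fun x => π (s (f x))) π
  have hint : ∀ {A Ω : Type} [Fintype A] [MeasurableSpace Ω] {μ : Measure Ω} {F : A → Ω → ℝ},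
      (∀ a, Integrable (F a) μ) → Integrable (fun ω => 𝔼 a, F a ω) μ := by
    intro A Ω _ _ μ F hF
    simp only [Fintype.expect_eq_sum_div_card]
    exact (integrable_finsetSum _ fun a _ => hF a).div_const _
  unfold Att
  change _ ≤ (𝔼 l : Fin K × Fin d → Fin K, 𝔼 s : Fin K × (Fin d × Fin K) → Fin n, ∫ ω, (∫ ω1,
      G.g (Fin N) (Fin n) π (engI I id ω + pb (fun x : XS l => π (s (Equiv.prodAssoc _ _ _ x.1)))
        (shp (stU l) ω1)) ∂(dis ρ ν _ _)) ∂(dis ρ ν _ _)) -
    𝔼 s : Fin K × (Fin d × Fin K) → Fin n, ∫ ω, (∫ ω1, G.g (Fin N) (Fin n) π (engI I id ω +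
      pb (fun x => π (s (f x))) (shp (inl : _ → (Fin ((K - 1) * d) × Fin K) ⊕ Empty) ω1))
        ∂(dis ρ ν _ _)) ∂(dis ρ ν _ _)
  simp only [← integral_expect (iU _)]
  rw [← integral_expect fun l => hint (iU l), ← integral_expect iV,
    ← integral_sub (hint fun l => hint (iU l)) (hint iV)]
  refine le_trans (le_of_eq (by simp)) (integral_mono (integrable_const (K * M0 - 6 * ε))
    ((hint fun l => hint (iU l)).sub (hint iV)) fun ω => ?_)
  have h1 := hG (Fin N) n π (engI I id ω)
  rw [integral_PU (hint fun s => lip_integrable hg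
      (integrable_pb measurable_shU (integrable_shU hρ hν) (π ∘ s)) _),
    integral_expect fun s => lip_integrable hg (integrable_pb hvm hvi (π ∘ s)) _] at h1
  refine h1.trans (le_of_eq ?_)
  congr 1
  refine expect_congr rfl fun l _ => ?_
  exact integral_expect fun s => lip_integrable hg (integrable_pb (measurable_shp _)
    (integrable_shp hρ hν (stU l)) fun x => π (s (Equiv.prodAssoc _ _ _ x.1))) _

end Vale.Agent.N168X
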