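import Vale.Agent.N168X.Interp
import Vale.Agent.N168X.Lower

/-! The upper bound on the Bethe lattice. -/

set_option autoImplicit false
set_option linter.unusedSectionVars false

open MeasureTheory Finset Function Filter Sum
open scoped BigOperators Topology NNReal

namespace Vale.Agent.N168X

open N168I N168I.PT

theorem lip_iter {f : ℕ → ℝ} {L : ℝ} {c j : ℕ} (h : ∀ i, i < j → |f (c + i + 1) - f (c + i)| ≤ L) :
    |f (c + j) - f c| ≤ j * L := by
  induction j with
  | zero => simp
  | succ j ih =>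
    have h1 := abs_sub_le (f (c + j + 1)) (f (c + j)) (f c)
    have h2 := ih fun i hi => h i (by omega)
    have h3 := h j (by omega)
    rw [← add_assoc]
    push_cast
    linarith

theorem telescope {K : ℕ} (hK : 0 < K) {L E ε : ℝ} (v : ℝ) (hL : 0 ≤ L) (hE : 0 ≤ E)
    (hε : 0 < ε) : ∃ B : ℝ, ∀ (T : ℕ) (W : ℕ → ℕ → ℝ), B ≤ T →
      (∀ a c n, a * K + c + n = T → K ≤ n →
        W (a + 1) c + (K - 1) * (W a c + v) ≤ K * W a (c + 1) + E / n) →
      (∀ a c, (a + 1) * K + c ≤ T → |W (a + 1) c - W a c| ≤ L) →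
      (∀ a c, a * K + c + 1 ≤ T → |W a (c + 1) - W a c| ≤ L) →
      W (T / K) 0 ≤ W 0 T - T * ((K - 1) / K) * v + ε * T + B := by
  have hK' : (1 : ℝ) ≤ K := by exact_mod_cast hK
  obtain ⟨n0, hn0⟩ := exists_nat_gt (E / (ε / 2) + K)
  obtain ⟨w, hw⟩ := exists_nat_gt (2 * K ^ 2 * L / (ε / 2))
  have hE1 : 0 ≤ E / (ε / 2) := by positivity
  have hw0 : (0 : ℝ) < w := lt_of_le_of_lt (by positivity) hw
  have hn1 : K ≤ n0 := by
    have : (K : ℝ) ≤ n0 := by linarith
    exact_mod_cast this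
  rw [div_lt_iff₀ (by positivity)] at hw
  set g : ℝ := ((w + n0 + K : ℕ) : ℝ) with hg
  have hg0 : 0 ≤ g := Nat.cast_nonneg _
  refine ⟨g * (3 * L + |v| + 1), fun T W hT hs h1 h2 => ?_⟩
  have hgT : w + n0 + K ≤ T := by
    have : g ≤ T := le_trans (le_mul_of_one_le_right hg0 (by linarith [abs_nonneg v])) hT
    rw [hg] at this
    exact_mod_cast this
  have l2 : ∀ a c j, a * K + c + j ≤ T → |W a (c + j) - W a c| ≤ j * L := fun a c j hj =>
    lip_iter (f := W a) fun i hi => h2 a _ (by omega)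
  set δ : ℝ := w * (ε - (K - 1) * v) with hδ
  have s1 : ∀ a c, a * K + c + K + w + n0 ≤ T →
      ∑ i ∈ range w, W (a + 1) (c + i) ≤ ∑ i ∈ range w, W a (c + (K + i)) + δ := by
    intro a c hc
    have a1 : ∑ i ∈ range w, W (a + 1) (c + i) ≤ ∑ i ∈ range w, (W a (c + i) +
        K * (W a (c + (i + 1)) - W a (c + i)) + (ε / 2 - (K - 1) * v)) := by
      refine sum_le_sum fun i hi => ?_
      have hi' := mem_range.1 hi
      have a2 := hs a (c + i) (T - (a * K + (c + i))) (by omega) (by omega)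
      have a3 : E / (T - (a * K + (c + i)) : ℕ) ≤ ε / 2 := by
        have a4 : (n0 : ℝ) ≤ (T - (a * K + (c + i)) : ℕ) := by exact_mod_cast (by omega)
        have a5 : E / (ε / 2) ≤ n0 := by linarith
        rw [div_le_iff₀ (by positivity)] at a5
        rw [div_le_iff₀ (by linarith)]
        nlinarith
      rw [← add_assoc c]
      linarith
    rw [sum_add_distrib, sum_add_distrib, ← mul_sum, sum_range_sub (fun i => W a (c + i)),
      sum_const, card_range, nsmul_eq_mul] at a1
    have a2 := sum_range_add (fun i => W a (c + i)) K w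
    rw [add_comm K w, sum_range_add (fun i => W a (c + i)) w K] at a2
    have a3 : ∑ j ∈ range K, (W a (c + w) - W a (c + 0) - 2 * K * L) ≤
        ∑ j ∈ range K, (W a (c + (w + j)) - W a (c + j)) := by
      refine sum_le_sum fun j hj => ?_
      have hj' := mem_range.1 hj
      have hj2 : (j : ℝ) * L ≤ K * L := mul_le_mul_of_nonneg_right (by exact_mod_cast hj'.le) hL
      have b1 := (abs_le.1 (l2 a (c + w) j (by omega))).1
      have b2 := (abs_le.1 (l2 a c j (by omega))).2
      rw [add_zero, ← add_assoc]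
      linarith
    rw [sum_const, card_range, nsmul_eq_mul, sum_sub_distrib] at a3
    linarith
  have s2 : ∀ a b, (a + b) * K + w + n0 ≤ T → ∑ i ∈ range w, W a (b * K + i) ≤
      ∑ i ∈ range w, W 0 ((a + b) * K + i) + a * δ := by
    intro a
    induction a with
    | zero => intro b _; simp
    | succ a ih =>
      intro b hb
      have e : a + 1 + b = a + (b + 1) := by ring
      rw [e] at hb ⊢
      have a1 := s1 a (b * K) (by rw [add_mul, add_mul] at hb; omega)
      have a2 := ih (b + 1) hb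
      simp only [add_one_mul b K, add_assoc] at a2
      push_cast
      linarith
  obtain ⟨A, q, hA, hq1, hq2⟩ : ∃ A q, A * K + q = T ∧ w + n0 ≤ q ∧ q ≤ w + n0 + K :=
    ⟨(T - (w + n0)) / K, w + n0 + (T - (w + n0)) % K, by
      have := Nat.mod_add_div' (T - (w + n0)) K; omega, by omega,
      Nat.add_le_add_left (Nat.mod_lt _ hK).le _⟩
  have hq : (q : ℝ) ≤ g := by rw [hg]; exact_mod_cast hq2
  have hwg : (w : ℝ) ≤ g := by rw [hg]; exact_mod_cast (by omega)
  have a1 := s2 A 0 (by rw [add_zero]; omega)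
  simp only [zero_mul, add_zero] at a1
  have a2 : ∑ i ∈ range w, (W A 0 - g * L) ≤ ∑ i ∈ range w, W A (0 + i) := by
    refine sum_le_sum fun i hi => ?_
    have hi' := mem_range.1 hi
    have b1 := (abs_le.1 (l2 A 0 i (by omega))).1
    have b2 : (i : ℝ) * L ≤ g * L :=
      mul_le_mul_of_nonneg_right (le_trans (by exact_mod_cast hi'.le) hwg) hL
    linarith
  have a3 : ∑ i ∈ range w, W 0 (A * K + i) ≤ ∑ i ∈ range w, (W 0 T + g * L) := by
    refine sum_le_sum fun i hi => ?_
    have hi' := mem_range.1 hi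
    have b1 := (abs_le.1 (l2 0 (A * K + i) (q - i) (by omega))).1
    rw [show A * K + i + (q - i) = T by omega] at b1
    have b2 : ((q - i : ℕ) : ℝ) * L ≤ g * L :=
      mul_le_mul_of_nonneg_right (le_trans (by exact_mod_cast Nat.sub_le _ _) hq) hL
    linarith
  rw [sum_const, card_range, nsmul_eq_mul] at a2 a3
  have a4 : W A 0 - g * L ≤ W 0 T + g * L + A * (ε - (K - 1) * v) := by
    refine le_of_mul_le_mul_left ?_ hw0
    linarith
  have hTK : T / K = A + q / K := by rw [← hA, add_comm, Nat.add_mul_div_right _ _ hK, add_comm]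
  have a5 := (abs_le.1 (lip_iter (f := fun a => W a 0) (c := A) (j := q / K) fun i hi =>
    h1 _ 0 (by
      have := Nat.mul_le_mul_right K (show i + 1 ≤ q / K from hi)
      have := Nat.div_mul_le_self q K
      rw [add_assoc, add_mul]
      omega))).2
  have a6 : ((q / K : ℕ) : ℝ) * L ≤ g * L :=
    mul_le_mul_of_nonneg_right (le_trans (by exact_mod_cast Nat.div_le_self _ _) hq) hL
  have hT' : (T : ℝ) = A * K + q := by exact_mod_cast hA.symm
  have a7 : (T : ℝ) * ((K - 1) / K) * v = A * ((K - 1) * v) + q * ((K - 1) / K) * v := by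
    rw [hT']; field_simp
  have a8 : (q : ℝ) * ((K - 1) / K) * v ≤ g * |v| := by
    refine (mul_le_mul_of_nonneg_left (le_abs_self v) (by
      have : (0 : ℝ) ≤ K - 1 := by linarith
      positivity)).trans (mul_le_mul_of_nonneg_right ?_ (abs_nonneg v))
    refine (mul_le_of_le_one_right (Nat.cast_nonneg _) ?_).trans hq
    rw [div_le_one (by linarith)]
    linarith
  have a9 : (A : ℝ) * ε ≤ ε * T := by
    rw [mul_comm]
    refine mul_le_mul_of_nonneg_left ?_ hε.le
    exact_mod_cast (Nat.le_mul_of_pos_right A hK).trans (by omega)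
  rw [hTK]
  linarith

theorem urn_ext {S S' C H : Type} [Fintype S] [DecidableEq S] [Fintype S'] [DecidableEq S']
    [Fintype C] [DecidableEq C] [Fintype H] [DecidableEq H]
    (hc : Fintype.card (S ⊕ C) = Fintype.card H) (ι : S' → S ⊕ C) (hι : Injective ι)
    (Φ : (S' → H) → ℝ) : 𝔼 e : S' ↪ H, Φ e =
      𝔼 b : S ⊕ C ≃ H, 𝔼 g : C ≃ C, Φ fun y => b (Sum.map id g (ι y)) := by
  rw [← expect_equiv_emb hc ι hι, expect_sym_left fun g : C ≃ C => (Equiv.refl S).sumCongr g]
  rfl

theorem expect_perm_one {H : Type} [Fintype H] [DecidableEq H] (u0 : H) (F : H → ℝ) :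
    𝔼 g : H ≃ H, F (g u0) = 𝔼 u, F u :=
  (expect_equiv_emb rfl (fun _ : Unit => u0) (fun _ _ _ => rfl) fun e => F (e ())).trans
    (Fintype.expect_equiv Equiv.uniqueEmbeddingEquivResult _ _ fun _ => rfl)

variable {K N n r a c d : ℕ} {ρ : Measure (Clause K)} {ν : Measure ℝ} [IsProbabilityMeasure ρ]
  [IsProbabilityMeasure ν] [NeZero K] [NeZero N] {m : Fin r → ℝ} {x : (Fin (r + 1) → U01) → ℝ}
  (h : N168I.InClass K ρ ν) (hx : IsTrial r m x)

variable (d ρ ν m x N a c) in
/-- The interpolating free energy in the configuration model. -/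
noncomputable def WW : ℝ :=
  𝔼 e : (Fin a × Fin K) ⊕ Fin c ↪ Fin N × Fin d,
    Wd ρ ν m x (fun k j => (e (inl (k, j))).1) fun k => (e (inr k)).1

section urn

variable (hc : Fintype.card (((Fin a × Fin K) ⊕ Fin c) ⊕ Fin n) = Fintype.card (Fin N × Fin d))

include hc in
theorem WW_base : WW N a c d ρ ν m x = 𝔼 b : ((Fin a × Fin K) ⊕ Fin c) ⊕ Fin n ≃ Fin N × Fin d,
    Wd ρ ν m x (fun k j => (b (inl (inl (k, j)))).1) fun k => (b (inl (inr k))).1 :=
  (expect_equiv_emb hc inl inl_injective fun e =>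
    Wd ρ ν m x (fun k j => (e (inl (k, j))).1) fun k => (e (inr k)).1).symm

include hc in
theorem WW_A (i : Fin K → Fin n) (hi : Injective i) : WW N (a + 1) c d ρ ν m x =
    𝔼 b : ((Fin a × Fin K) ⊕ Fin c) ⊕ Fin n ≃ Fin N × Fin d, 𝔼 g : Fin n ≃ Fin n,
      Wd ρ ν m x (Fin.cons ((fun u => (b (inr u)).1) ∘ (g ∘ i))
        fun k j => (b (inl (inl (k, j)))).1) fun k => (b (inl (inr k))).1 := by
  refine (urn_ext hc (Sum.elim (fun p : Fin (a + 1) × Fin K =>
    Fin.cases (inr (i p.2)) (fun k => inl (inl (k, p.2))) p.1) fun k => inl (inr k)) ?_ fun e =>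
    Wd ρ ν m x (fun k j => (e (inl (k, j))).1) fun k => (e (inr k)).1).trans ?_
  · rintro (⟨k, j⟩ | k) (⟨k', j'⟩ | k') h
    · induction k using Fin.cases <;> induction k' using Fin.cases <;> simp_all [hi.eq_iff]
    · induction k using Fin.cases <;> simp_all
    · induction k' using Fin.cases <;> simp_all
    · simp_all
  · refine expect_congr rfl fun b _ => expect_congr rfl fun g _ => ?_
    congr 1
    exact funext fun k => Fin.cases rfl (fun _ => rfl) k

include hc in
theorem WW_C [NeZero n] : WW N a (c + 1) d ρ ν m x =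
    𝔼 b : ((Fin a × Fin K) ⊕ Fin c) ⊕ Fin n ≃ Fin N × Fin d, 𝔼 u : Fin n,
      Wd ρ ν m x (fun k j => (b (inl (inl (k, j)))).1)
        (Fin.cons (b (inr u)).1 fun k => (b (inl (inr k))).1) := by
  refine (urn_ext hc (Sum.elim (fun p => inl (inl p))
    (Fin.cases (inr 0) fun k => inl (inr k))) ?_ fun e =>
    Wd ρ ν m x (fun k j => (e (inl (k, j))).1) fun k => (e (inr k)).1).trans ?_
  · rintro (p | k) (p' | k') h
    · simp_all
    · induction k' using Fin.cases <;> simp_all
    · induction k using Fin.cases <;> simp_all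
    · induction k using Fin.cases <;> induction k' using Fin.cases <;> simp_all
  · refine expect_congr rfl fun b _ => ?_
    refine (expect_congr rfl fun g _ => ?_).trans (expect_perm_one (0 : Fin n) _)
    congr 1
    exact funext fun k => Fin.cases rfl (fun _ => rfl) k

end urn

include h hx in
theorem WW_step (hc : a * K + c + n = d * N) (hn : K ≤ n) :
    WW N (a + 1) c d ρ ν m x + (K - 1) * (WW N a c d ρ ν m x + tV0 ρ r m x) ≤
      K * WW N a (c + 1) d ρ ν m x + 2 * (∫ θ, maxTheta θ ∂ρ) * K ^ 2 / n ∧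
    |WW N (a + 1) c d ρ ν m x - WW N a c d ρ ν m x| ≤ ∫ θ, maxTheta θ ∂ρ := by
  have : NeZero n := ⟨(lt_of_lt_of_le (NeZero.pos K) hn).ne'⟩
  have hc' : Fintype.card (((Fin a × Fin K) ⊕ Fin c) ⊕ Fin n) = Fintype.card (Fin N × Fin d) := by
    simpa [mul_comm N] using hc
  have : Nonempty (_ ≃ _) := ⟨Fintype.equivOfCardEq hc'⟩
  rw [WW_A hc' (Fin.castLE hn) (Fin.castLE_injective hn), WW_base hc', WW_C hc']
  refine ⟨?_, abs_expect_sub_le fun b => abs_expect_sub_const fun g => Wd_lipA h hx _ _ _⟩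
  rw [← Fintype.expect_const (ι := ((Fin a × Fin K) ⊕ Fin c) ⊕ Fin n ≃ Fin N × Fin d)
    (tV0 ρ r m x), ← Fintype.expect_const (ι := ((Fin a × Fin K) ⊕ Fin c) ⊕ Fin n ≃ Fin N × Fin d)
    (2 * (∫ θ, maxTheta θ ∂ρ) * K ^ 2 / n), ← expect_add_distrib, mul_expect, mul_expect,
    ← expect_add_distrib, ← expect_add_distrib]
  refine expect_mono fun b => ?_
  have a1 := Wd_step h hx (fun u => (b (inr u)).1) (fun k j => (b (inl (inl (k, j)))).1)
    fun k => (b (inl (inr k))).1
  have a2 := (abs_le.1 (expect_perm_fun (Fin.castLE hn) (Fin.castLE_injective hn) id injective_id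
    (fun t => Wd ρ ν m x (Fin.cons ((fun u => (b (inr u)).1) ∘ t)
      fun k j => (b (inl (inl (k, j)))).1) fun k => (b (inl (inr k))).1)
    fun t => Wd_lipA h hx _ _ _)).1
  simp only [comp_id, Fintype.card_fin, ← mul_div_assoc] at a2
  linarith

include h hx in
theorem WW_lipC (hc : a * K + c + 1 ≤ d * N) :
    |WW N a (c + 1) d ρ ν m x - WW N a c d ρ ν m x| ≤ ∫ θ, maxTheta θ ∂ρ := by
  have : NeZero (d * N - (a * K + c)) := ⟨by omega⟩
  have hc' : Fintype.card (((Fin a × Fin K) ⊕ Fin c) ⊕ Fin (d * N - (a * K + c))) =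
      Fintype.card (Fin N × Fin d) := by
    simp only [Fintype.card_sum, Fintype.card_prod, Fintype.card_fin, mul_comm N]
    omega
  have : Nonempty (_ ≃ _) := ⟨Fintype.equivOfCardEq hc'⟩
  rw [WW_base hc', WW_C hc']
  exact abs_expect_sub_le fun b => abs_expect_sub_const fun g => Wd_lipC h hx _ _ _

include h hx in
theorem WW_left : WW N 0 (d * N) d ρ ν m x = N * tU ρ ν m x d := by
  have hc : Fintype.card ((Fin 0 × Fin K) ⊕ Fin (d * N)) = Fintype.card (Fin N × Fin d) := by
    simp [mul_comm]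
  have : Nonempty ((Fin 0 × Fin K) ⊕ Fin (d * N) ↪ Fin N × Fin d) :=
    Function.Embedding.nonempty_of_card_le hc.le
  refine (expect_congr rfl fun e _ => ?_).trans (Fintype.expect_const _)
  have hb : Bijective fun k => e (inr k) := (Fintype.bijective_iff_injective_and_card _).2
    ⟨e.injective.comp inr_injective, by simp [mul_comm]⟩
  have e1 : ∀ u, TU.cnt (fun k => (e (inr k)).1) u = d := fun u =>
    (card_bijective (t := {u} ×ˢ univ) _ hb fun k => by
      simp only [mem_filter, mem_univ, true_and, mem_product, mem_singleton, and_true]).trans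
      (by simp)
  have e2 : tU ρ ν m x d = TU.uC ρ ν m x d := TU.trialU_integrand (maxTheta_int h) h.field_int
    (fun p => (hx.2.1 p).1) hx.2.2.1 hx.2.2.2 d
  simp [Wd_left h hx, e1, e2]

include hx in
theorem WW_right (hρ : Integrable (fun θ : Fn K => ‖θ‖) ρ) (hν : Integrable (fun h : ℝ => h) ν) :
    WW N a 0 d ρ ν m x = E0 d ρ ν (Fin a) (Fin N) :=
  Fintype.expect_equiv (Equiv.embeddingCongr (Equiv.sumEmpty _ _) (Equiv.refl _)) _ _ fun e =>
    Wd_right hx hρ hν (fun p => (e (inl p)).1) _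

omit [NeZero N] in
include h hx in
/-- The upper bound on the Bethe lattice. -/
theorem upper (hρ : Integrable (fun θ : Fn K => ‖θ‖) ρ) (hd : 1 ≤ d) {ε : ℝ} (hε : 0 < ε) :
    ∀ᶠ N in atTop, regPressure d ρ ν N ≤ tU ρ ν m x d - d * (K - 1) / K * tV ρ m x 1 + ε := by
  have hL : 0 ≤ ∫ θ, maxTheta θ ∂ρ := integral_nonneg maxTheta_nonneg
  have hd' : (1 : ℝ) ≤ d := by exact_mod_cast hd
  obtain ⟨B, hB⟩ := telescope (NeZero.pos K) (tV0 ρ r m x) hL
    (E := 2 * (∫ θ, maxTheta θ ∂ρ) * K ^ 2) (by positivity) (ε := ε / 2 / d) (by positivity)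
  obtain ⟨N1, hN1⟩ := exists_nat_gt (|B| / (ε / 2) + |B|)
  have h0 : 0 ≤ |B| / (ε / 2) := by positivity
  filter_upwards [eventually_ge_atTop N1] with N hN
  have hN' : (N1 : ℝ) ≤ N := by exact_mod_cast hN
  have hNp : (0 : ℝ) < N := by linarith [abs_nonneg B]
  have : NeZero N := ⟨by exact_mod_cast hNp.ne'⟩
  have h1 := hB (d * N) (fun a c => WW N a c d ρ ν m x)
    (by push_cast; nlinarith [le_abs_self B]) (fun a c n hc hn => (WW_step h hx hc hn).1)
    (fun a c hc => (WW_step h hx (n := d * N - (a * K + c)) (by rw [add_one_mul] at hc; omega)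
      (by rw [add_one_mul] at hc; omega)).2) fun a c hc => WW_lipC h hx hc
  rw [WW_left h hx, WW_right hx hρ h.field_int] at h1
  have h2 : |B| / (ε / 2) ≤ N := by linarith [abs_nonneg B]
  rw [div_le_iff₀ (by positivity)] at h2
  rw [regPressure_eq hρ h.field_int, tV_lin hρ hx, one_div_mul_eq_div, div_le_iff₀ hNp]
  have e1 : ε / 2 / d * (d * N : ℕ) = N * (ε / 2) := by push_cast; field_simp
  have e2 : ((d * N : ℕ) : ℝ) * ((K - 1) / K) * tV0 ρ r m x =
      d * (K - 1) / K * ((1 : ℕ) * tV0 ρ r m x) * N := by push_cast; ring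
  rw [e1, e2] at h1
  linarith [le_abs_self B]

end Vale.Agent.N168X
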