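import Vale.Agent.N168X.Defs
import Mathlib.Algebra.Order.BigOperators.Expect
import Mathlib.Data.Fintype.Perm

/-! Uniform averages over bijections, injections and maps between finite sets. -/

set_option autoImplicit false
set_option linter.unusedSectionVars false

open Finset Function
open scoped BigOperators

namespace Vale.Agent.N168X

/-- Two injections are related by a bijection. -/
theorem ext_equiv {A X Y : Type} [Finite A] [Fintype X] [Fintype Y]
    (hc : Fintype.card X = Fintype.card Y) (f : A → X) (g : A → Y) (hf : Injective f)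
    (hg : Injective g) : ∃ q : X ≃ Y, ∀ a, q (f a) = g a := by
  let e0 : X ≃ Y := Fintype.equivOfCardEq hc
  obtain ⟨s, hs⟩ := Equiv.Perm.exists_extending_pair (e0 ∘ f) g (e0.injective.comp hf) hg
  exact ⟨e0.trans s, hs⟩

theorem expect_mono {A : Type} [Fintype A] {F G : A → ℝ} (h : ∀ a, F a ≤ G a) :
    𝔼 a, F a ≤ 𝔼 a, G a := expect_le_expect fun a _ => h a

theorem abs_expect_sub_le {A : Type} [Fintype A] [Nonempty A] {F G : A → ℝ} {c : ℝ}
    (h : ∀ a, |F a - G a| ≤ c) : |𝔼 a, F a - 𝔼 a, G a| ≤ c := by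
  rw [← expect_sub_distrib]
  exact (abs_expect_le _ _).trans (expect_le univ_nonempty fun a _ => h a)

theorem abs_expect_sub_const {A : Type} [Fintype A] [Nonempty A] {F : A → ℝ} {b c : ℝ}
    (h : ∀ a, |F a - b| ≤ c) : |𝔼 a, F a - b| ≤ c := by
  have h1 := abs_expect_sub_le (F := F) (G := fun _ => b) h
  rwa [Fintype.expect_const] at h1

theorem expect_prod {A B : Type} [Fintype A] [Fintype B] (F : A × B → ℝ) :
    𝔼 p, F p = 𝔼 a, 𝔼 b, F (a, b) := by
  rw [← univ_product_univ, expect_product]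

/-- Averages over a large subset. -/
theorem expect_sub_le {A A' : Type} [Fintype A] [Fintype A'] [Nonempty A'] (g : A' → A)
    (hg : Injective g) (F : A → ℝ) {B δ c : ℝ} (hF : ∀ a, |F a - c| ≤ B)
    (hδ : (1 - δ) * Fintype.card A ≤ Fintype.card A') :
    |𝔼 a, F a - 𝔼 a', F (g a')| ≤ 2 * B * δ := by
  classical
  obtain ⟨a0⟩ := ‹Nonempty A'›
  have : Nonempty A := ⟨g a0⟩
  have hB : 0 ≤ B := (abs_nonneg _).trans (hF (g a0))
  have hn : (0 : ℝ) < Fintype.card A := by exact_mod_cast Fintype.card_pos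
  have hn' : (0 : ℝ) < Fintype.card A' := by exact_mod_cast Fintype.card_pos
  have hle : (Fintype.card A' : ℝ) ≤ Fintype.card A := by
    exact_mod_cast Fintype.card_le_of_injective g hg
  set y : ℝ := 𝔼 a', F (g a') with hy
  have hyc : |y - c| ≤ B := abs_expect_sub_const fun a => hF _
  have h1 : ∑ a ∈ univ.image g, (F a - y) = 0 := by
    rw [sum_image fun a _ b _ h => hg h, sum_sub_distrib, sum_const, card_univ, nsmul_eq_mul, hy,
      Fintype.expect_eq_sum_div_card]
    field_simp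
    ring
  have h2 : ∑ a, (F a - y) = ∑ a ∈ (univ.image g)ᶜ, (F a - y) := by
    rw [← sum_add_sum_compl (univ.image g), h1, zero_add]
  have h3 : (((univ.image g)ᶜ : Finset A).card : ℝ) = Fintype.card A - Fintype.card A' := by
    rw [card_compl, card_image_of_injective _ hg, card_univ,
      Nat.cast_sub (Fintype.card_le_of_injective g hg)]
  have h4 : |∑ a ∈ (univ.image g)ᶜ, (F a - y)| ≤ (Fintype.card A - Fintype.card A') * (2 * B) := by
    refine (abs_sum_le_sum_abs _ _).trans ?_
    rw [← h3, ← nsmul_eq_mul]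
    refine sum_le_card_nsmul _ _ _ fun a _ => ?_
    have h5 := abs_sub_le (F a) c y
    rw [abs_sub_comm c y] at h5
    linarith [hF a]
  have h5 : 𝔼 a, F a - y = (∑ a, (F a - y)) / Fintype.card A := by
    rw [sum_sub_distrib, sum_const, card_univ, nsmul_eq_mul, Fintype.expect_eq_sum_div_card]
    field_simp
  rw [h5, h2, abs_div, abs_of_pos hn, div_le_iff₀ hn]
  refine h4.trans ?_
  nlinarith

section bij

variable {S S' H H' X : Type} [Fintype S] [DecidableEq S] [Fintype S'] [DecidableEq S']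
  [Fintype H] [DecidableEq H] [Fintype H'] [DecidableEq H'] [Fintype X] [DecidableEq X]

theorem expect_trans_left (y : S ≃ S') (F : (S ≃ H) → ℝ) :
    𝔼 b : S ≃ H, F b = 𝔼 b : S' ≃ H, F (y.trans b) :=
  (Fintype.expect_equiv (Equiv.equivCongr y.symm (Equiv.refl H)) _ _ fun b => by
    congr 1).symm

theorem expect_trans_right (y : H' ≃ H) (F : (S ≃ H) → ℝ) :
    𝔼 b : S ≃ H, F b = 𝔼 b : S ≃ H', F (b.trans y) :=
  (Fintype.expect_equiv (Equiv.equivCongr (Equiv.refl S) y) _ _ fun b => by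
    congr 1).symm

theorem expect_symm (F : (S ≃ H) → ℝ) : 𝔼 b : S ≃ H, F b = 𝔼 b : H ≃ S, F b.symm :=
  (Fintype.expect_equiv ⟨Equiv.symm, Equiv.symm, fun _ => rfl, fun _ => rfl⟩ _ _
    fun _ => rfl).symm

/-- Symmetrisation by a family of permutations of the source. -/
theorem expect_sym_left {G : Type} [Fintype G] [Nonempty G] (y : G → S ≃ S) (F : (S ≃ H) → ℝ) :
    𝔼 b : S ≃ H, F b = 𝔼 b : S ≃ H, 𝔼 g, F ((y g).trans b) := by
  rw [expect_comm]
  simp only [← expect_trans_left]
  rw [Fintype.expect_const]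

/-- Symmetrisation by a family of permutations of the target. -/
theorem expect_sym_right {G : Type} [Fintype G] [Nonempty G] (y : G → H ≃ H) (F : (S ≃ H) → ℝ) :
    𝔼 b : S ≃ H, F b = 𝔼 b : S ≃ H, 𝔼 g, F (b.trans (y g)) := by
  rw [expect_comm]
  simp only [← expect_trans_right]
  rw [Fintype.expect_const]

/-- The restriction of a uniform bijection is a uniform injection. -/
theorem expect_equiv_emb (hc : Fintype.card S = Fintype.card H) (i : X → S) (hi : Injective i)
    (F : (X → H) → ℝ) : 𝔼 b : S ≃ H, F (b ∘ i) = 𝔼 e : X ↪ H, F e := by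
  let e0 : S ≃ H := Fintype.equivOfCardEq hc
  have : Nonempty (X ↪ H) := ⟨⟨e0 ∘ i, e0.injective.comp hi⟩⟩
  have h1 : ∀ g : H ≃ H, 𝔼 e : X ↪ H, F e = 𝔼 e : X ↪ H, F (g ∘ e) := fun g =>
    (Fintype.expect_equiv (Equiv.embeddingCongr (Equiv.refl X) g) _ _ fun e => by
      congr 1).symm
  have h2 : ∀ e : X ↪ H, 𝔼 g : H ≃ H, F (g ∘ e) = 𝔼 b : S ≃ H, F (b ∘ i) := by
    intro e
    obtain ⟨q, hq⟩ := ext_equiv hc i e hi e.injective
    rw [expect_trans_left q fun b => F (b ∘ i)]
    refine expect_congr rfl fun g _ => ?_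
    congr 1
    funext a
    simp [hq]
  have h3 : 𝔼 e : X ↪ H, F e = 𝔼 g : H ≃ H, 𝔼 e : X ↪ H, F (g ∘ e) := by
    simp only [← h1]
    rw [Fintype.expect_const]
  rw [h3, expect_comm]
  simp only [h2]
  rw [Fintype.expect_const]

theorem desc_ge (n k : ℕ) (hn : 0 < n) :
    (1 - (k : ℝ) ^ 2 / n) * (n : ℝ) ^ k ≤ n.descFactorial k := by
  have hn' : (0 : ℝ) < n := by exact_mod_cast hn
  rcases le_or_gt k n with hk | hk
  · have h1 : (((n + 1 - k) ^ k : ℕ) : ℝ) ≤ n.descFactorial k := by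
      exact_mod_cast Nat.pow_sub_le_descFactorial n k
    refine le_trans ?_ h1
    have hkn : (k : ℝ) ≤ n := by exact_mod_cast hk
    have h2 : (n : ℝ) - k ≤ ((n + 1 - k : ℕ) : ℝ) := by
      rw [Nat.cast_sub (by omega)]
      push_cast
      linarith
    have h3 : ((n : ℝ) - k) ^ k ≤ (((n + 1 - k) ^ k : ℕ) : ℝ) := by
      push_cast
      exact pow_le_pow_left₀ (by linarith) h2 k
    refine le_trans ?_ h3
    have h4 : (n : ℝ) - k = (1 + -((k : ℝ) / n)) * n := by field_simp; ring
    have h5 : (k : ℝ) / n ≤ 1 := (div_le_one hn').2 hkn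
    have h6 := one_add_mul_le_pow (a := -((k : ℝ) / n)) (by linarith) k
    rw [h4, mul_pow]
    refine mul_le_mul_of_nonneg_right (le_trans (le_of_eq ?_) h6) (by positivity)
    ring
  · refine le_trans ?_ (Nat.cast_nonneg _)
    refine mul_nonpos_of_nonpos_of_nonneg ?_ (by positivity)
    have hkn : (n : ℝ) ≤ k := by exact_mod_cast hk.le
    have h1 : (1 : ℝ) ≤ k := by exact_mod_cast (by omega : 1 ≤ k)
    rw [sub_nonpos, le_div_iff₀ hn']
    nlinarith

/-- Sampling with and without replacement. -/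
theorem expect_emb_fun [Nonempty H] (hX : Fintype.card X ≤ Fintype.card H) (F : (X → H) → ℝ)
    {B c : ℝ} (hF : ∀ s, |F s - c| ≤ B) :
    |𝔼 s : X → H, F s - 𝔼 e : X ↪ H, F e| ≤
      2 * B * ((Fintype.card X : ℝ) ^ 2 / Fintype.card H) := by
  have : Nonempty (X ↪ H) := Function.Embedding.nonempty_of_card_le hX
  refine expect_sub_le (fun e : X ↪ H => (e : X → H)) DFunLike.coe_injective F hF ?_
  rw [Fintype.card_embedding_eq, Fintype.card_fun]
  push_cast
  exact desc_ge _ _ Fintype.card_pos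

/-- Marginals of uniform maps. -/
theorem expect_comp_inj [Nonempty H] (f : X → S) (hf : Injective f) (F : (X → H) → ℝ) :
    𝔼 s : S → H, F (s ∘ f) = 𝔼 s : X → H, F s := by
  classical
  let q : X ⊕ {a : S // a ∉ Set.range f} ≃ S :=
    ((Equiv.ofInjective f hf).sumCongr (Equiv.refl _)).trans (Equiv.sumCompl (· ∈ Set.range f))
  have h1 : 𝔼 s : S → H, F (s ∘ f) =
      𝔼 p : (X → H) × ({a : S // a ∉ Set.range f} → H), F p.1 := by
    refine Fintype.expect_equiv ((q.symm.arrowCongr (Equiv.refl H)).trans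
      (Equiv.sumArrowEquivProdArrow _ _ _)) _ _ fun s => ?_
    congr 1
  rw [h1, expect_prod]
  simp only [Fintype.expect_const]

/-- A uniform permutation, seen on few points, is nearly a uniform map. -/
theorem expect_perm_fun [Nonempty H] (i : X → H) (hi : Injective i) (f : X → S)
    (hf : Injective f) (F : (X → H) → ℝ) {B c : ℝ} (hF : ∀ s, |F s - c| ≤ B) :
    |𝔼 s : S → H, F (s ∘ f) - 𝔼 g : H ≃ H, F (g ∘ i)| ≤
      2 * B * ((Fintype.card X : ℝ) ^ 2 / Fintype.card H) := by
  rw [expect_comp_inj f hf, expect_equiv_emb rfl i hi]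
  exact expect_emb_fun (Fintype.card_le_of_injective i hi) F hF

end bij

end Vale.Agent.N168X
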